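import Vale.Agent.P150.Weak.Rec.Pow
import Vale.Agent.P150.Weak.Spec

/-!
One-spin moments: the half difference of the magnetisation and the inverse spin variance
(`SliceSpec`).
-/

open MeasureTheory ProbabilityTheory Finset Real

namespace Vale.Agent.P150.Weak.Rec

open Gap

variable {m : ℕ}

/-- The cavity field at a spin: half the difference of the free energies at `h ± J_i`. -/
noncomputable def cav (G : Mat m) (h : Vec m) (r : Vec m) : ℝ :=
  (lse (expo G (h + r)) - lse (expo G (h - r))) / 2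

lemma mg_eq_tanh {J : Mat (m + 1)} (hJ : IsCoupling J) (u : Vec (m + 1)) (i : Fin (m + 1)) :
    mg J u i = tanh (u i + cav (sub i J) (subU i u) (rowOf i J)) := by
  set c := cav (sub i J) (subU i u) (rowOf i J) with hc
  set P := ∑ y : Conf m, exp (expo (sub i J) (subU i u + rowOf i J) y) with hP
  set M := ∑ y : Conf m, exp (expo (sub i J) (subU i u - rowOf i J) y) with hM
  have hP0 : 0 < P := sum_pos (fun y _ => exp_pos _) univ_nonempty
  have hM0 : 0 < M := sum_pos (fun y _ => exp_pos _) univ_nonempty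
  have hwp : ∀ y, wt J u (Fin.insertNth i true y) =
      exp (u i) * exp (expo (sub i J) (subU i u + rowOf i J) y) :=
    fun y => by simp [wt, expo_insertNth hJ, Real.exp_add]
  have hwm : ∀ y, wt J u (Fin.insertNth i false y) =
      exp (-u i) * exp (expo (sub i J) (subU i u - rowOf i J) y) :=
    fun y => by simp [wt, expo_insertNth hJ, Real.exp_add, sub_eq_add_neg]
  have hm : mg J u i = (exp (u i) * P - exp (-u i) * M) / (exp (u i) * P + exp (-u i) * M) := by
    simp only [mg, ev, mu, div_mul_eq_mul_div, ← sum_div]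
    rw [sum_split i, sum_split i]
    simp only [hwp, hwm, spin_insertNth_self, if_true, Bool.false_eq_true, if_false, mul_one,
      mul_neg, sum_neg_distrib, ← mul_sum, ← hP, ← hM, ← sub_eq_add_neg]
  have hq : exp (2 * c) = P / M := by
    rw [hc, cav]
    unfold lse
    rw [← hP, ← hM, show 2 * ((log P - log M) / 2) = log P - log M by ring, exp_sub,
      exp_log hP0, exp_log hM0]
  rw [tanh_eq, hm]
  have e : exp (u i + c) = exp (-(u i + c)) * (exp (u i) * exp (u i) * (P / M)) := by
    rw [← hq, ← exp_add, ← exp_add, ← exp_add]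
    ring_nf
  have e2 : exp (-u i) = (exp (u i))⁻¹ := exp_neg _
  rw [e, e2]
  have h1 := exp_pos (-(u i + c))
  have h2 := exp_pos (u i)
  field_simp

lemma inv_vw_le {J : Mat (m + 1)} (hJ : IsCoupling J) (u : Vec (m + 1)) (i : Fin (m + 1)) (p : ℕ) :
    (1 / vw J u i) ^ p ≤ exp (2 * p * (u i + cav (sub i J) (subU i u) (rowOf i J))) +
      exp (-(2 * p) * (u i + cav (sub i J) (subU i u) (rowOf i J))) := by
  set l := u i + cav (sub i J) (subU i u) (rowOf i J) with hl
  have h1 : 1 / vw J u i = cosh l ^ 2 := by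
    have hc := cosh_pos l
    rw [vw, mg_eq_tanh hJ u i, ← hl, tanh_eq_sinh_div_cosh]
    have := cosh_sq_sub_sinh_sq l
    field_simp
    rw [this]
  rw [h1, ← pow_mul]
  calc cosh l ^ (2 * p) ≤ exp |l| ^ (2 * p) := by
        refine pow_le_pow_left₀ (cosh_pos l).le ?_ _
        rw [cosh_eq]
        linarith [exp_le_exp.2 (le_abs_self l), exp_le_exp.2 (neg_le_abs l)]
    _ = exp (2 * p * |l|) := by rw [← exp_nat_mul]; push_cast; ring_nf
    _ ≤ _ := by
        rcases abs_choice l with h | h <;> rw [h]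
        · exact le_add_of_nonneg_right (exp_pos _).le
        · refine le_add_of_nonneg_of_le (exp_pos _).le (le_of_eq ?_)
          ring_nf

lemma lse_shift_le (G : Mat m) (w w' : Vec m) :
    |lse (expo G w) - lse (expo G w')| ≤ ∑ a, |w a - w' a| := by
  refine abs_lse_sub_le fun x => ?_
  have e : expo G w x - expo G w' x = ∑ a, (w a - w' a) * spin x a := by
    simp only [expo, sub_mul, sum_sub_distrib]; ring
  rw [e]
  refine (abs_sum_le_sum_abs _ _).trans_eq ?_
  simp [abs_mul, abs_spin']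

lemma cav_lip (G : Mat m) (h r r' : Vec m) :
    |cav G h r - cav G h r'| ≤ ∑ a, |r a - r' a| := by
  have h1 := lse_shift_le G (h + r) (h + r')
  have h2 := lse_shift_le G (h - r') (h - r)
  simp only [Pi.add_apply, Pi.sub_apply, add_sub_add_left_eq_sub, sub_sub_sub_cancel_left] at h1 h2
  have e : cav G h r - cav G h r' =
      ((lse (expo G (h + r)) - lse (expo G (h + r'))) +
        (lse (expo G (h - r')) - lse (expo G (h - r)))) / 2 := by
    simp only [cav]; ring
  rw [e, abs_div, abs_two, div_le_iff₀ two_pos]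
  exact (abs_add_le _ _).trans (by linarith)

lemma cav_neg (G : Mat m) (h r : Vec m) : cav G h (-r) = -cav G h r := by
  simp only [cav, sub_neg_eq_add, ← sub_eq_add_neg]
  ring

/-- The exponential moment of the cavity field over the row. -/
lemma exp_cav_le {v : ℝ} (hv : 0 ≤ v) (G : Mat m) (h : Vec m) (s : ℝ) :
    Integrable (fun r => exp (s * cav G h (rv v r))) (gauss (Fin m)) ∧
      ∫ r, exp (s * cav G h (rv v r)) ∂gauss (Fin m) ≤
        exp (s ^ 2 * (m * v)) * exp (|s| * (m * v)) := by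
  have hl : ∀ r r', |s * cav G h (rv v r) - s * cav G h (rv v r')| ≤
      ∑ a, |s| * √v * |r a - r' a| := fun r r' => by
    rw [← mul_sub, abs_mul, ← Finset.sum_congr rfl fun a _ => (mul_assoc |s| (√v) _).symm, ← mul_sum]
    refine mul_le_mul_of_nonneg_left ((cav_lip G h _ _).trans_eq ?_) (abs_nonneg _)
    refine sum_congr rfl fun a _ => ?_
    unfold rv
    rw [add_sub_add_left_eq_sub, ← mul_sub, abs_mul, abs_of_nonneg (sqrt_nonneg _)]
  refine ⟨P146.integrable_exp_coord_lip hl, (P146.exp_moment hl).trans ?_⟩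
  refine mul_le_mul (exp_le_exp.2 (le_of_eq ?_)) (exp_le_exp.2 ?_) (exp_pos _).le (exp_pos _).le
  · simp [mul_pow, sq_sqrt hv, sq_abs]; ring
  rw [integral_const_mul]
  set F0 := fun r : Fin m → ℝ => cav G h fun a => √v * r a with hF0
  have hc0 : Continuous F0 := by
    simp only [hF0, cav, lse, expo]
    have : ∀ (w : (Fin m → ℝ) → Vec m), Continuous w → Continuous fun r =>
        log (∑ x : Conf m, exp ((∑ i, ∑ j, G i j * spin x i * spin x j) / 2 +
          ∑ i, w r i * spin x i)) := fun w hw =>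
      (continuous_finsetSum _ fun x _ => by fun_prop).log fun r =>
        (sum_pos (fun x _ => exp_pos _) univ_nonempty).ne'
    exact ((this _ (by fun_prop)).sub (this _ (by fun_prop))).div_const 2
  have h0 : ∫ r, F0 r ∂gauss (Fin m) = 0 := by
    have h1 := integral_comp_mp (gauss_neg_fin (m := m)) (F := F0) hc0.aestronglyMeasurable
    have h2 : ∀ r, F0 (-r) = -F0 r := fun r => by
      simp only [hF0, ← cav_neg]
      congr 1
      funext a
      simp
    simp only [h2, integral_neg] at h1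
    linarith
  have hl1 : ∀ r, |cav G h (rv v r) - F0 r| ≤ m * v := fun r => by
    refine (cav_lip G h _ _).trans_eq ?_
    unfold rv
    simp [abs_of_nonneg hv]
  have hi1 : Integrable F0 (gauss (Fin m)) := by
    refine integrable_of_coord_lip (c := fun _ => √v) fun r r' => ((cav_lip G h _ _).trans_eq ?_)
    refine sum_congr rfl fun a _ => ?_
    rw [← mul_sub, abs_mul, abs_of_nonneg (sqrt_nonneg _)]
  have hi2 : Integrable (fun r => cav G h (rv v r)) (gauss (Fin m)) := by
    refine integrable_of_coord_lip (c := fun _ => √v) fun r r' => ((cav_lip G h _ _).trans_eq ?_)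
    refine sum_congr rfl fun a _ => ?_
    unfold rv
    rw [add_sub_add_left_eq_sub, ← mul_sub, abs_mul, abs_of_nonneg (sqrt_nonneg _)]
  have h3 : |∫ r, cav G h (rv v r) ∂gauss (Fin m)| ≤ m * v := by
    rw [← sub_zero (∫ r, cav G h (rv v r) ∂gauss (Fin m)), ← h0, ← integral_sub hi2 hi1]
    refine abs_integral_le_integral_abs.trans ((integral_mono (hi2.sub hi1).abs
      (integrable_const _) hl1).trans_eq (by simp))
  calc s * ∫ r, cav G h (rv v r) ∂gauss (Fin m)
      ≤ |s| * |∫ r, cav G h (rv v r) ∂gauss (Fin m)| := (le_abs_self _).trans_eq (abs_mul _ _)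
    _ ≤ _ := mul_le_mul_of_nonneg_left h3 (abs_nonneg _)

/-- Exponential moments of the local field at a spin. -/
lemma exp_field_le {b : ℝ} {n : ℕ} {τ Tm : ℝ} (hτ : 0 ≤ τ) (hT : τ ≤ Tm) (hmn : m + 1 ≤ n)
    (i : Fin (m + 1)) (s : ℝ) :
    Integrable (fun g => exp (s * (plU τ g i + cav (sub i (plJ (b ^ 2 / n) g)) (subU i (plU τ g))
        (rowOf i (plJ (b ^ 2 / n) g))))) (gauss (Idx (m + 1))) ∧
      ∫ g, exp (s * (plU τ g i + cav (sub i (plJ (b ^ 2 / n) g)) (subU i (plU τ g))
        (rowOf i (plJ (b ^ 2 / n) g)))) ∂gauss (Idx (m + 1)) ≤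
        exp (|s| * Tm + s ^ 2 * Tm / 2 + (s ^ 2 + |s|) * b ^ 2) := by
  set v := b ^ 2 / (n:ℝ) with hv
  have hv0 : 0 ≤ v := by positivity
  set F := fun g : Idx (m + 1) → ℝ => exp (s * (plU τ g i + cav (sub i (plJ v g))
    (subU i (plU τ g)) (rowOf i (plJ v g)))) with hF
  have hFc : Continuous F := by
    have hl : ∀ (w : (Idx (m + 1) → ℝ) → Vec m), Continuous w → Continuous fun g =>
        lse (expo (sub i (plJ v g)) (w g)) := fun w hw => by
      simp only [lse, expo]
      refine (continuous_finsetSum _ fun x _ => ?_).log fun g =>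
        (sum_pos (fun x _ => exp_pos _) univ_nonempty).ne'
      have := continuous_plJ (m := m + 1) v
      unfold sub; fun_prop
    have h1 := continuous_plJ (m := m + 1) v
    have h2 := continuous_plU (m := m + 1) τ
    simp only [hF, cav]
    refine ((continuous_const.mul (Continuous.add (by fun_prop) ((((hl _ ?_)).sub (hl _ ?_)).div_const 2)))).rexp
    · unfold subU rowOf; fun_prop
    · unfold subU rowOf; fun_prop
  have hfac : ∀ (q : (Idx m → ℝ) × ((Fin m → ℝ) × ℝ)), F (join i q.1 q.2.1 q.2.2) =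
      exp (s * cav (plJ v q.1) (plU τ q.1) (rv v q.2.1)) * exp (s * (τ + √τ * q.2.2)) := fun q => by
    unfold rv
    simp only [hF, sub_plJ, subU_plU, rowOf_plJ, plU_self, ← exp_add]
    congr 1; ring
  set ct := exp (s * τ) * exp ((s * √τ) ^ 2 / 2)
  have hit : Integrable (fun t : ℝ => exp (s * (τ + √τ * t))) (gaussianReal 0 1) := by
    simp only [mul_add, exp_add, ← mul_assoc]
    exact (integrable_exp_mul_gaussianReal _).const_mul _
  have hct : ∫ t, exp (s * (τ + √τ * t)) ∂gaussianReal 0 1 = ct := by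
    simp only [mul_add, exp_add, ← mul_assoc, integral_const_mul, ct]
    have := congrFun (mgf_id_gaussianReal (μ := 0) (v := 1)) (s * √τ)
    simp only [mgf, id_eq, zero_mul, NNReal.coe_one, one_mul, zero_add] at this
    rw [this]
  set cr := exp (s ^ 2 * (m * v)) * exp (|s| * (m * v))
  have hrow : ∀ g : Idx m → ℝ, Integrable (fun q : (Fin m → ℝ) × ℝ => F (join i g q.1 q.2))
      ((gauss (Fin m)).prod (gaussianReal 0 1)) ∧
      ∫ q, F (join i g q.1 q.2) ∂(gauss (Fin m)).prod (gaussianReal 0 1) ≤ cr * ct := fun g => by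
    obtain ⟨i1, h1⟩ := exp_cav_le hv0 (plJ v g) (plU τ g) s
    simp only [fun q : (Fin m → ℝ) × ℝ => hfac (g, q)]
    refine ⟨i1.mul_prod hit, ?_⟩
    rw [integral_prod_mul (fun r => exp (s * cav (plJ v g) (plU τ g) (rv v r)))
      (fun t => exp (s * (τ + √τ * t))), hct]
    exact mul_le_mul_of_nonneg_right h1 (by positivity)
  have hm := measurePreserving_join (m := m) i
  have hmeas : AEStronglyMeasurable
      (fun q : (Idx m → ℝ) × ((Fin m → ℝ) × ℝ) => F (join i q.1 q.2.1 q.2.2))
      ((gauss (Idx m)).prod ((gauss (Fin m)).prod (gaussianReal 0 1))) :=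
    hFc.aestronglyMeasurable.comp_measurePreserving hm
  have hint : Integrable (fun q : (Idx m → ℝ) × ((Fin m → ℝ) × ℝ) => F (join i q.1 q.2.1 q.2.2))
      ((gauss (Idx m)).prod ((gauss (Fin m)).prod (gaussianReal 0 1))) := by
    refine (integrable_prod_iff hmeas).2 ⟨ae_of_all _ fun g => (hrow g).1,
      Integrable.of_bound (C := cr * ct) hmeas.norm.integral_prod_right' (ae_of_all _ fun g => ?_)⟩
    rw [norm_eq_abs, abs_of_nonneg (integral_nonneg fun q => norm_nonneg _)]
    refine le_of_eq_of_le (integral_congr_ae (ae_of_all _ fun q => ?_)) (hrow g).2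
    simp [hF, abs_of_pos (exp_pos _)]
  refine ⟨(hm.integrable_comp hFc.aestronglyMeasurable).1 hint, ?_⟩
  refine le_of_eq_of_le (integral_comp_mp hm hFc.aestronglyMeasurable).symm ?_
  refine le_of_eq_of_le (integral_prod _ hint) ?_
  refine (integral_mono hint.integral_prod_left (integrable_const _) fun g => (hrow g).2).trans ?_
  simp only [integral_const, probReal_univ, one_smul, cr, ct, mul_pow, sq_sqrt hτ, ← exp_add,
    exp_le_exp]
  have hmv : (m:ℝ) * v ≤ b ^ 2 := by
    have h0 : (0:ℝ) < n := Nat.cast_pos.2 (by omega)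
    rw [hv, mul_div_assoc', div_le_iff₀ h0, mul_comm]
    exact mul_le_mul_of_nonneg_left (Nat.cast_le.2 (by omega)) (sq_nonneg _)
  nlinarith [mul_le_mul_of_nonneg_left hmv (sq_nonneg s),
    mul_le_mul_of_nonneg_left hmv (abs_nonneg s), mul_le_mul_of_nonneg_left hT (sq_nonneg s),
    mul_le_mul_of_nonneg_left hT (abs_nonneg s), mul_le_mul_of_nonneg_right (le_abs_self s) hτ]

lemma sqrt_bound {x C X : ℝ} (hC : x ≤ C * X ^ 2) (hX : 0 ≤ X) : √x ≤ √|C| * X := by
  refine (sqrt_le_sqrt (hC.trans (mul_le_mul_of_nonneg_right (le_abs_self C) (sq_nonneg _)))).trans_eq ?_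
  rw [sqrt_mul (abs_nonneg _), sqrt_sq hX]

/-- **One-spin moments.** -/
theorem sliceSpec {b : ℝ} (hG : GrowSpec b) (hC : CrudeSpec b) : SliceSpec b := by
  intro p Tm
  obtain ⟨Cg, hg⟩ := hG
  obtain ⟨Cc, hc⟩ := hC (2 * p)
  set K := exp (2 * b ^ 2)
  set E := exp (|(2 * p : ℝ)| * |Tm| + (2 * p : ℝ) ^ 2 * |Tm| / 2 +
    ((2 * p : ℝ) ^ 2 + |(2 * p : ℝ)|) * b ^ 2)
  set A := 4 ^ p * ((10 * (p:ℝ)) ^ p * (b ^ 2) ^ p * (K * √|(Cg * (2 * p)) ^ (2 * p)|) +
    (b ^ 2) ^ (2 * p) * (K * √|Cc|))
  refine ⟨max 1 A + 2 * E, fun n m τ hτ hT hmn i => ⟨?_, ?_⟩⟩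
  · rcases Nat.eq_zero_or_pos p with rfl | hp
    · simp only [pow_zero, pEv_const]
      have hE : 0 < E := exp_pos _
      linarith [le_max_left 1 A]
    have hn : 0 < n := by omega
    have hn' : (0:ℝ) < n := Nat.cast_pos.2 hn
    have h := del_pow_le (b := b) (n := n) (φ := fun a J u => mg J u a)
      (D := fun a k J u => cm2 J u a k) hτ (by omega : m ≤ n) i (fun a => bd_mg a)
      (fun a k => bd_cm2 a k) (fun a G u c t => hasDerivAt_mg_line G u c a t) hp
    have e : (fun (J : Mat (m + 1)) (u : Vec (m + 1)) => sq1 (del i mg J u) ^ p) =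
        fun J u => (∑ a, del i (fun J u => mg J u a) J u ^ 2) ^ p := by
      funext J u; simp [sq1, del]
    rw [e]
    refine h.trans (le_add_of_le_of_nonneg (le_max_of_le_right ?_) (by positivity))
    obtain ⟨hg1, -, -⟩ := hg n m (2 * p) (τ + b ^ 2 / n) (by positivity) (by omega) hn (by omega)
    obtain ⟨-, hc1, -⟩ := hc n m (τ + b ^ 2 / n) (by positivity) hn (by omega)
    simp only [sq2] at hg1
    have b1 := sqrt_bound (X := (n:ℝ) ^ p) (C := (Cg * (2 * p)) ^ (2 * p)) (hg1.trans_eq (by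
      push_cast; rw [← pow_mul, mul_comm p 2, ← mul_pow]; ring_nf)) (by positivity)
    have b2 := sqrt_bound (X := ((n:ℝ) * √n) ^ p) (C := Cc) (x := pEv b n m (τ + b ^ 2 / n)
      fun J u => tot (fun a k J u => cm2 J u a k) J u ^ (2 * p))
      (hc1.trans_eq (by rw [← pow_mul, mul_comm p 2])) (by positivity)
    refine mul_le_mul_of_nonneg_left (add_le_add ?_ ?_) (by positivity)
    · refine (mul_le_mul_of_nonneg_left (mul_le_mul_of_nonneg_left b1 (exp_pos _).le)
        (by positivity)).trans_eq ?_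
      simp only [K, div_pow]; field_simp
    · refine (mul_le_mul_of_nonneg_left (mul_le_mul_of_nonneg_left b2 (exp_pos _).le)
        (by positivity)).trans ?_
      have e2 : (b ^ 2 / (n:ℝ)) ^ (2 * p) * ((n:ℝ) * √n) ^ p = (b ^ 2) ^ (2 * p) * (√n / n) ^ p := by
        rw [pow_mul, pow_mul, ← mul_pow, ← mul_pow]
        congr 1
        field_simp
      have h1 : (√(n:ℝ) / n) ^ p ≤ 1 := pow_le_one₀ (by positivity) (by
        rw [div_le_one hn', sqrt_le_iff]
        exact ⟨hn'.le, by nlinarith [(Nat.one_le_cast (α := ℝ)).2 hn]⟩)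
      calc (b ^ 2 / (n:ℝ)) ^ (2 * p) * (K * (√|Cc| * ((n:ℝ) * √n) ^ p))
          = (b ^ 2) ^ (2 * p) * (√n / n) ^ p * (K * √|Cc|) := by rw [← e2]; ring
        _ ≤ (b ^ 2) ^ (2 * p) * 1 * (K * √|Cc|) := by gcongr
        _ = _ := by rw [mul_one]
  · have h1 := exp_field_le (b := b) hτ (hT.trans (le_abs_self Tm)) hmn i (2 * p)
    have h2 := exp_field_le (b := b) hτ (hT.trans (le_abs_self Tm)) hmn i (-(2 * p))
    rw [abs_neg, neg_sq] at h2
    refine (integral_mono_of_nonneg (ae_of_all _ fun g => ?_) (h1.1.add h2.1)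
      (ae_of_all _ fun g => inv_vw_le (isCoupling_plJ _ g) (plU τ g) i p)).trans ?_
    · exact pow_nonneg (div_nonneg zero_le_one (vw_pos _ _ i).le) _
    rw [integral_add' h1.1 h2.1]
    linarith [le_max_left 1 A, h1.2, h2.2]

end Vale.Agent.P150.Weak.Rec
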