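import Vale.Agent.P150.Weak.Rec.Second

/-!
The self-bounding second moment of the fourth cumulant, away from `τ = 0`.
-/

open MeasureTheory ProbabilityTheory Finset Real

namespace Vale.Agent.P150.Weak.Rec

open Gap

variable {m : ℕ} {b : ℝ} {n : ℕ} {τ : ℝ}

lemma cm4_iiia (J : Mat m) (u : Vec m) (i j : Fin m) :
    cm4 J u i i i j = (4 * mg J u i ^ 2 - 2 * vw J u i) * cm2 J u i j := by
  rw [cm4_eq]
  simp only [cm2_eq, ← sq, spin_sq', one_mul, ev_const, vw]
  simp only [show ∀ p, (ev J u fun x => spin x p) = mg J u p from fun _ => rfl]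
  ring

lemma bd_sq4 : Bd fun (J : Mat m) u => sq4 (cm4 J u) :=
  Bd.sum fun a => Bd.sum fun c => Bd.sum fun e => Bd.sum fun l => (bd_cm4 a c e l).pow 2

/-- The slice of the fourth cumulant. -/
lemma sq3_cm4_le {J : Mat (m + 1)} (hJ : IsCoupling J) (u : Vec (m + 1)) (i : Fin (m + 1)) {h : ℝ}
    (hh : 0 < h) :
    sq3 (cm4 J u i) ≤ (1 + h) * sq3 (del i cm3 J u) +
      ((1 + h⁻¹) * (72 * (sq1 (del i mg J u) * sq2 (del i cm2 J u) + sq1 (del i mg J u) ^ 3)) +
        (4096 + 108 * sq1 (del i mg J u) + 24 * sq2 (del i cm2 J u) +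
          216 * sq1 (del i mg J u) ^ 2)) := by
  set d := del i mg J u with hd
  set D := del i cm2 J u with hD
  have hw0 := vw_pos J u i
  have hw1 := vw_le_one J u i
  have hw : vw J u i ^ 2 ≤ 1 := pow_le_one₀ hw0.le hw1
  have hm : mg J u i ^ 2 ≤ 1 := (sq_le_one_iff_abs_le_one _).2 (abs_mg_le J u i)
  have hm0 := sq_nonneg (mg J u i)
  have hmw : mg J u i ^ 2 * vw J u i ^ 2 ≤ 1 := mul_le_one₀ hm (sq_nonneg _) hw
  set κ := 4 * mg J u i ^ 2 - 2 * vw J u i with hκ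
  have hκ2 : κ ^ 2 ≤ 36 :=
    (sq_le_sq' (by linarith) (by linarith) : κ ^ 2 ≤ 6 ^ 2).trans (by norm_num)
  have hκw : (vw J u i * κ) ^ 2 ≤ 36 := by
    rw [mul_pow]; exact (mul_le_of_le_one_left (sq_nonneg _) hw).trans hκ2
  have e0 : cm4 J u i i i i ^ 2 ≤ 4096 :=
    (sq_le_sq' (by linarith [neg_abs_le (cm4 J u i i i i), abs_cm4_le J u i i i i])
      ((le_abs_self _).trans (abs_cm4_le J u i i i i))).trans (by norm_num)
  have e1 : ∀ a, cm4 J u i i i (i.succAbove a) ^ 2 ≤ 36 * d a ^ 2 := fun a => by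
    rw [cm4_iiia, ← hκ, cm2_self_rest hJ, ← mul_assoc, mul_comm κ, mul_pow]
    exact mul_le_mul_of_nonneg_right hκw (sq_nonneg _)
  have e2 : ∀ a c, cm4 J u i i (i.succAbove a) (i.succAbove c) ^ 2 ≤
      8 * D a c ^ 2 + 72 * (d a ^ 2 * d c ^ 2) := fun a c => by
    have e : cm4 J u i i (i.succAbove a) (i.succAbove c) =
        -2 * mg J u i * vw J u i * D a c + vw J u i * κ * (d a * d c) := by
      rw [cm4_self_self_rest hJ, hκ]; ring
    rw [e]
    have i1 := mul_le_mul_of_nonneg_right hmw (sq_nonneg (D a c))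
    have i2 := mul_le_mul_of_nonneg_right hκw (sq_nonneg (d a * d c))
    simp only [mul_pow] at i1 i2
    nlinarith [sq_nonneg (-2 * mg J u i * vw J u i * D a c - vw J u i * κ * (d a * d c))]
  have e3 : ∀ a c e, cm4 J u i (i.succAbove a) (i.succAbove c) (i.succAbove e) ^ 2 ≤
      (1 + h) * del i cm3 J u a c e ^ 2 + (1 + h⁻¹) * ((24 * (d a ^ 2 * D c e ^ 2) +
        24 * (d c ^ 2 * D a e ^ 2) + 24 * (d e ^ 2 * D a c ^ 2)) +
        72 * (d a ^ 2 * d c ^ 2 * d e ^ 2)) := fun a c e => by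
    set s := d a * D c e + d c * D a e + d e * D a c with hs
    have e4 : cm4 J u i (i.succAbove a) (i.succAbove c) (i.succAbove e) =
        vw J u i * del i cm3 J u a c e +
          (-(2 * mg J u i * vw J u i * s) + vw J u i * κ * (d a * d c * d e)) := by
      rw [cm4_self_rest hJ, hκ]; ring
    rw [e4]
    refine (sq_add_le hh _ _).trans (add_le_add (mul_le_mul_of_nonneg_left
      (by rw [mul_pow]; exact mul_le_of_le_one_left (sq_nonneg _) hw) (by linarith))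
      (mul_le_mul_of_nonneg_left ?_ (by positivity)))
    have hs2 : s ^ 2 ≤ 3 * (d a * D c e) ^ 2 + 3 * (d c * D a e) ^ 2 + 3 * (d e * D a c) ^ 2 := by
      nlinarith [sq_nonneg (d a * D c e - d c * D a e), sq_nonneg (d a * D c e - d e * D a c),
        sq_nonneg (d c * D a e - d e * D a c)]
    have i1 := mul_le_mul_of_nonneg_right hmw (sq_nonneg s)
    have i2 := mul_le_mul_of_nonneg_right hκw (sq_nonneg (d a * d c * d e))
    simp only [mul_pow] at i1 i2 hs2
    nlinarith [sq_nonneg (2 * mg J u i * vw J u i * s + vw J u i * κ * (d a * d c * d e))]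
  have e : sq3 (cm4 J u i) = cm4 J u i i i i ^ 2 +
      3 * (∑ a, cm4 J u i i i (i.succAbove a) ^ 2) +
      3 * (∑ a, ∑ c, cm4 J u i i (i.succAbove a) (i.succAbove c) ^ 2) +
      ∑ a, ∑ c, ∑ e, cm4 J u i (i.succAbove a) (i.succAbove c) (i.succAbove e) ^ 2 := by
    simp only [sq3, sq2, Fin.sum_univ_succAbove _ i, sum_add_distrib]
    have s1 : ∀ a, cm4 J u i i (i.succAbove a) i = cm4 J u i i i (i.succAbove a) := fun a =>
      cm4_swap34 _ _ _ _ _ _
    have s2 : ∀ a, cm4 J u i (i.succAbove a) i i = cm4 J u i i i (i.succAbove a) := fun a => by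
      rw [cm4_swap23, cm4_swap34]
    have s3 : ∀ a c, cm4 J u i (i.succAbove a) i (i.succAbove c) =
        cm4 J u i i (i.succAbove a) (i.succAbove c) := fun a c => cm4_swap23 _ _ _ _ _ _
    have s4 : ∀ a c, cm4 J u i (i.succAbove a) (i.succAbove c) i =
        cm4 J u i i (i.succAbove a) (i.succAbove c) := fun a c => by
      rw [cm4_swap34, cm4_swap23]
    simp only [s1, s2, s3, s4]
    ring
  have h1 : 3 * ∑ a, cm4 J u i i i (i.succAbove a) ^ 2 ≤ 108 * sq1 d := by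
    refine (mul_le_mul_of_nonneg_left (sum_le_sum fun a _ => e1 a) (by norm_num)).trans_eq ?_
    simp only [sq1, ← mul_sum]; ring
  have h2 : 3 * ∑ a, ∑ c, cm4 J u i i (i.succAbove a) (i.succAbove c) ^ 2 ≤
      24 * sq2 D + 216 * sq1 d ^ 2 := by
    refine (mul_le_mul_of_nonneg_left (sum_le_sum fun a _ => sum_le_sum fun c _ => e2 a c)
      (by norm_num)).trans_eq ?_
    simp only [sq2, sq1, sum_add_distrib, ← mul_sum, ← sum_mul]; ring
  have h3 : ∑ a, ∑ c, ∑ e, cm4 J u i (i.succAbove a) (i.succAbove c) (i.succAbove e) ^ 2 ≤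
      (1 + h) * sq3 (del i cm3 J u) + (1 + h⁻¹) * (72 * (sq1 d * sq2 D + sq1 d ^ 3)) := by
    refine (sum_le_sum fun a _ => sum_le_sum fun c _ => sum_le_sum fun e _ => e3 a c e).trans_eq ?_
    simp only [sq3, sq2, sq1, sum_add_distrib, ← mul_sum, ← sum_mul]
    ring
  linarith

/-- The slice of the fourth cumulant, in mean square. -/
lemma sliceQ_step {h A B C D E G : ℝ} (hh : 0 < h) (i : Fin (m + 1))
    (hA : pEv b n (m + 1) τ (fun J u => sq3 (del i cm3 J u)) ≤ A)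
    (hB : pEv b n (m + 1) τ (fun J u => sq1 (del i mg J u) * sq2 (del i cm2 J u)) ≤ B)
    (hC : pEv b n (m + 1) τ (fun J u => sq1 (del i mg J u) ^ 3) ≤ C)
    (hD : pEv b n (m + 1) τ (fun J u => sq2 (del i cm2 J u)) ≤ D)
    (hE : pEv b n (m + 1) τ (fun J u => sq1 (del i mg J u)) ≤ E)
    (hG : pEv b n (m + 1) τ (fun J u => sq1 (del i mg J u) ^ 2) ≤ G) :
    pEv b n (m + 1) τ (fun J u => sq3 (cm4 J u i)) ≤
      (1 + h) * A + ((1 + h⁻¹) * (72 * (B + C)) + (4096 + 108 * E + 24 * D + 216 * G)) := by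
  have bl : Bd fun J u => sq3 (cm4 J u i) :=
    Bd.sum fun c => Bd.sum fun e => Bd.sum fun l => (bd_cm4 i c e l).pow 2
  have b1 := (bd_delT i).const_mul (1 + h)
  have c1 := ((bd_d i).mul (bd_delC i))
  have c2 := (bd_d i).pow 3
  have b2 := ((c1.add c2).const_mul 72).const_mul (1 + h⁻¹)
  have c3 := (Bd.const (m := m + 1) 4096).add ((bd_d i).const_mul 108)
  have c4 := (bd_delC i).const_mul 24
  have c5 := ((bd_d i).pow 2).const_mul 216
  have e := pEv_mono (b := b) (n := n) (τ := τ) bl (b1.add (b2.add ((c3.add c4).add c5)))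
    fun J u hJ => sq3_cm4_le hJ u i hh
  rw [pEv_add b1 (b2.add ((c3.add c4).add c5)), pEv_const_mul, pEv_add b2 ((c3.add c4).add c5),
    pEv_const_mul, pEv_const_mul, pEv_add c1 c2, pEv_add (c3.add c4) c5, pEv_add c3 c4,
    pEv_add (Bd.const 4096) ((bd_d i).const_mul 108), pEv_const, pEv_const_mul, pEv_const_mul,
    pEv_const_mul] at e
  exact e.trans (add_le_add (mul_le_mul_of_nonneg_left hA (by linarith)) (add_le_add
    (mul_le_mul_of_nonneg_left (mul_le_mul_of_nonneg_left (add_le_add hB hC) (by norm_num))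
      (by positivity)) (add_le_add (add_le_add (add_le_add le_rfl
      (mul_le_mul_of_nonneg_left hE (by norm_num))) (mul_le_mul_of_nonneg_left hD (by norm_num)))
      (mul_le_mul_of_nonneg_left hG (by norm_num)))))

/-- The half difference of the third cumulant, in mean square. -/
lemma delT_step {A B : ℝ} (hτ : 0 ≤ τ) (hn : 0 < n) (hmn : m ≤ n) (i : Fin (m + 1))
    (hA : pEv b n m (τ + b ^ 2 / n)
      (fun J u => sq3 (fun a c e => ∑ l, cm4 J u l a c e) ^ 2) ≤ A * ((n:ℝ) ^ 2 * √n) ^ 2)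
    (hB : pEv b n (m + 1) τ (fun J u => bar i (fun J u => sq4 (cm4 J u)) J u) ≤ B) :
    pEv b n (m + 1) τ (fun J u => sq3 (del i cm3 J u)) ≤
      (b ^ 2) ^ 2 * exp (2 * b ^ 2) * √|A| * √n + b ^ 2 / n * B := by
  have hn0 : (0:ℝ) < n := Nat.cast_pos.2 hn
  have e1 : (fun (J : Mat (m + 1)) (u : Vec (m + 1)) => sq3 (del i cm3 J u)) = fun J u =>
      ∑ q : Fin m × Fin m × Fin m, del i (fun J u => cm3 J u q.1 q.2.1 q.2.2) J u ^ 2 := by
    funext J u; simp [sq3, sq2, del, Fintype.sum_prod_type]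
  rw [e1]
  have hbar : pEv b n (m + 1) τ (fun J u => ∑ q : Fin m × Fin m × Fin m, ∑ l,
      bar i (fun J u => cm4 J u q.1 q.2.1 q.2.2 l) J u ^ 2) ≤ B := by
    refine (pEv_mono (Bd.sum fun q => Bd.sum fun l => ((bd_cm4 _ _ _ _).barI i).pow 2)
      (bd_sq4.barI i) fun J u _ => ?_).trans hB
    have := bar_pow_le (φ := fun (q : (Fin m × Fin m × Fin m) × Fin m) J u =>
      cm4 J u q.1.1 q.1.2.1 q.1.2.2 q.2) 1 i J u
    simpa only [pow_one, Fintype.sum_prod_type, sq4, sq2] using this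
  refine (del_sq_le (b := b) (n := n) (τ := τ) hτ hmn i
    (φ := fun (q : Fin m × Fin m × Fin m) J u => cm3 J u q.1 q.2.1 q.2.2)
    (D := fun q l J u => cm4 J u q.1 q.2.1 q.2.2 l) (fun q => bd_cm3 _ _ _)
    (fun q l => bd_cm4 _ _ _ _) fun q G u c t => hasDerivAt_cm3_line G u c _ _ _ t).trans
    (add_le_add ?_ (mul_le_mul_of_nonneg_left hbar (by positivity)))
  have hs : √(pEv b n m (τ + b ^ 2 / n) fun J u =>
      tot (fun (q : Fin m × Fin m × Fin m) l J u => cm4 J u q.1 q.2.1 q.2.2 l) J u ^ 2) ≤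
      √|A| * ((n:ℝ) ^ 2 * √n) := by
    refine sqrt_bound (le_of_eq_of_le ?_ hA) (by positivity)
    congr 1; funext J u
    simp only [tot, sq3, sq2, Fintype.sum_prod_type]
    congr 1
    refine sum_congr rfl fun a _ => sum_congr rfl fun c _ => sum_congr rfl fun e _ => ?_
    congr 1
    exact sum_congr rfl fun l _ => by rw [cm4_swap34, cm4_swap23, cm4_swap12]
  refine (mul_le_mul_of_nonneg_left hs (by positivity)).trans_eq ?_
  field_simp

/-- **The second moment of the fourth cumulant.** -/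
theorem recQ (hb : 0 < b) (hb1 : b < 1) (hG : GrowSpec b) (hC : CrudeSpec b) (hS : SliceSpec b)
    (η Tm : ℝ) (hη : 0 < η) : ∃ C : ℝ, ∀ n m : ℕ, ∀ τ : ℝ, η ≤ τ → τ ≤ Tm → 0 < n → m ≤ n →
      pEv b n m τ (fun J u => sq4 (cm4 J u)) ≤ C * (n * √n) := by
  obtain ⟨h, hh, hr⟩ := exists_margin hb hb1
  obtain ⟨C1, h1⟩ := hS 1 (Tm + b ^ 2)
  obtain ⟨C2, h2⟩ := hS 2 (Tm + b ^ 2)
  obtain ⟨C3, h3⟩ := hS 3 (Tm + b ^ 2)
  obtain ⟨Cd, hd⟩ := delC_pow hG hC (p := 2) one_le_two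
  obtain ⟨Cd1, hd1⟩ := delC_pow hG hC (p := 1) le_rfl
  obtain ⟨Cc, hc⟩ := hC 2
  set W := (b ^ 2) ^ 2 * exp (2 * b ^ 2) * √|Cc|
  set L := √(4 * (b ^ 2) ^ 2 / η * exp (4 * (b ^ 2) ^ 2 / η))
  set c := (1 + h) * (W + b ^ 2 * (L * √|Cc|)) + ((1 + h⁻¹) * (72 * (√|C2| * √|Cd| + |C3|)) +
    (4096 + 108 * |C1| + 24 * |Cd1| + 216 * |C2|))
  set r := (1 + h) * b ^ 2
  have hr1 : r < 1 := lt_of_le_of_lt (mul_le_mul_of_nonneg_right (by
    calc 1 + h = (1 + h) ^ 1 := (pow_one _).symm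
      _ ≤ (1 + h) ^ 3 := pow_le_pow_right₀ (by linarith) (by norm_num)) (sq_nonneg b)) hr
  set K := c / (1 - r)
  refine ⟨K, fun n m τ hτ hT hn hmn => ?_⟩
  have hn0 : (0:ℝ) < n := Nat.cast_pos.2 hn
  have hn1 : (1:ℝ) ≤ n := Nat.one_le_cast.2 hn
  have hsn : √(n:ℝ) ^ 2 = n := sq_sqrt hn0.le
  have hs1 : 1 ≤ √(n:ℝ) := one_le_sqrt.2 hn1
  have hc0 : 0 ≤ c := by positivity
  have hK0 : 0 ≤ K := div_nonneg hc0 (sub_nonneg.2 hr1.le)
  set v := b ^ 2 / (n:ℝ) with hv
  have hv0 : 0 ≤ v := by positivity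
  suffices key : ∀ m : ℕ, m ≤ n → ∀ τ : ℝ, η ≤ τ → τ ≤ Tm + v * ((n:ℝ) - m) →
      pEv b n m τ (fun J u => sq4 (cm4 J u)) ≤ K * (n * √n) from
    key m hmn τ hτ (hT.trans (le_add_of_nonneg_right
      (mul_nonneg hv0 (sub_nonneg.2 (Nat.cast_le.2 hmn)))))
  intro m
  induction m with
  | zero =>
    intro _ τ _ _
    simp only [pEv, sq4, univ_eq_empty, sum_empty, integral_zero]
    positivity
  | succ m ih =>
    intro hmn τ hτ hT
    have hτ0 : 0 ≤ τ := hη.le.trans hτ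
    push_cast at hT
    have hτ' : τ ≤ Tm + b ^ 2 := by
      refine hT.trans (add_le_add le_rfl ?_)
      calc v * ((n:ℝ) - (m + 1)) ≤ v * n :=
            mul_le_mul_of_nonneg_left (by linarith [Nat.cast_nonneg (α := ℝ) m]) hv0
        _ = b ^ 2 := by rw [hv]; field_simp
    have hY := ih (by omega) (τ + v) (by linarith) (by linarith)
    have hone : ∀ i : Fin (m + 1), pEv b n (m + 1) τ (fun J u => sq3 (cm4 J u i)) ≤
        ((1 + h) * b ^ 2 * K + c) * √n := by
      intro i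
      have sE : pEv b n (m + 1) τ (fun J u => sq1 (del i mg J u)) ≤ |C1| := by
        refine le_of_eq_of_le (by simp) (((h1 n m τ hτ0 hτ' hmn i).1).trans (le_abs_self _))
      have s2 : pEv b n (m + 1) τ (fun J u => sq1 (del i mg J u) ^ 2) ≤ |C2| :=
        ((h2 n m τ hτ0 hτ' hmn i).1).trans (le_abs_self _)
      have s3 : pEv b n (m + 1) τ (fun J u => sq1 (del i mg J u) ^ 3) ≤ |C3| :=
        ((h3 n m τ hτ0 hτ' hmn i).1).trans (le_abs_self _)
      have sD : pEv b n (m + 1) τ (fun J u => sq2 (del i cm2 J u)) ≤ |Cd1| * √n := by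
        refine le_of_eq_of_le (by simp) ((hd1 n m τ hτ0 hmn i).trans ?_)
        rw [pow_one]; exact mul_le_mul_of_nonneg_right (le_abs_self _) (sqrt_nonneg _)
      have sC : pEv b n (m + 1) τ (fun J u => sq1 (del i mg J u) * sq2 (del i cm2 J u)) ≤
          √|C2| * √|Cd| * √n := by
        refine (pEv_mul_le_of (bd_d i) (bd_delC i) s2 (B := |Cd| * n)
          ((hd n m τ hτ0 hmn i).trans ?_)).trans_eq ?_
        · rw [hsn]; exact mul_le_mul_of_nonneg_right (le_abs_self _) hn0.le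
        · rw [sqrt_mul (abs_nonneg _)]; ring
      obtain ⟨c1, -, -, -, -, -, c7, -⟩ := hc n m (τ + v) (by positivity) hn (by omega)
      have hbar := (bar_shift (b := b) bd_sq4 hη hτ hn (by omega : m ≤ n) i).trans (add_le_add hY
        (mul_le_mul_of_nonneg_left (sqrt_bound c1 (by positivity)) (by positivity)))
      refine (sliceQ_step hh i (delT_step hτ0 hn (by omega) i c7 hbar) sC
        (s3.trans (le_mul_of_one_le_right (abs_nonneg _) hs1)) sD sE s2).trans ?_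
      have k1 : |C1| ≤ |C1| * √(n:ℝ) := le_mul_of_one_le_right (abs_nonneg _) hs1
      have k2 : |C2| ≤ |C2| * √(n:ℝ) := le_mul_of_one_le_right (abs_nonneg _) hs1
      have e1 : b ^ 2 / (n:ℝ) * (K * (n * √n) + L / √n * (√|Cc| * (n:ℝ) ^ 2)) =
          b ^ 2 * K * √n + b ^ 2 * (L * √|Cc|) * √n := by
        field_simp
        rw [hsn]
        ring
      rw [e1]
      simp only [c]
      linarith
    have hsum : pEv b n (m + 1) τ (fun J u => sq4 (cm4 J u)) ≤
        (n:ℝ) * (((1 + h) * b ^ 2 * K + c) * √n) :=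
      calc pEv b n (m + 1) τ (fun J u => sq4 (cm4 J u))
          = ∑ i, pEv b n (m + 1) τ (fun J u => sq3 (cm4 J u i)) := pEv_sum fun i =>
            Bd.sum fun c => Bd.sum fun e => Bd.sum fun l => (bd_cm4 i c e l).pow 2
        _ ≤ ∑ _i : Fin (m + 1), ((1 + h) * b ^ 2 * K + c) * √n := sum_le_sum fun i _ => hone i
        _ = ((m + 1 : ℕ) : ℝ) * (((1 + h) * b ^ 2 * K + c) * √n) := by
            rw [sum_const, card_univ, Fintype.card_fin, nsmul_eq_mul]
        _ ≤ _ := mul_le_mul_of_nonneg_right (Nat.cast_le.2 hmn) (by positivity)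
    have hK : (1 + h) * b ^ 2 * K + c = K := by
      have : 1 - r ≠ 0 := by linarith
      rw [show (1 + h) * b ^ 2 = r from rfl]
      simp only [K]
      field_simp
      ring
    rw [hK] at hsum
    linarith

end Vale.Agent.P150.Weak.Rec
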