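import Vale.Agent.P150.Weak.Rec.BrkFour
import Vale.Agent.P150.Weak.Rec.Fourth

/-!
The self-bounding second moments (`RecSpec`).
-/

namespace Vale.Agent.P150.Weak.Rec

variable {b : ℝ}

/-- **The self-bounding second moments.** -/
theorem recSpec (hb : 0 < b) (hb1 : b < 1) (hG : GrowSpec b) (hC : CrudeSpec b)
    (hO : CenterSpec b) (hS : SliceSpec b) : RecSpec b := by
  refine ⟨fun Tm => ?_, fun η Tm hη => recQ hb hb1 hG hC hS η Tm hη⟩
  obtain ⟨CT, hT⟩ := recT hb hb1 hG hC hS Tm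
  obtain ⟨CV, hV⟩ := recV hb hb1 hG hC hO hS Tm
  obtain ⟨CB, hB⟩ := recBrkFour hb hb1 hG hC hO hS Tm
  refine ⟨max (max CT CV) CB, fun n m τ hτ hTm hn hmn => ?_⟩
  have h1 : CT ≤ max (max CT CV) CB := (le_max_left _ _).trans (le_max_left _ _)
  have h2 : CV ≤ max (max CT CV) CB := (le_max_right _ _).trans (le_max_left _ _)
  exact ⟨(hT n m τ hτ hTm hn hmn).trans (mul_le_mul_of_nonneg_right h1 (Nat.cast_nonneg n)),
    ((hV n m τ hτ hTm hn hmn).1).trans (mul_le_mul_of_nonneg_right h2 (Nat.cast_nonneg n)),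
    ((hV n m τ hτ hTm hn hmn).2).trans (mul_le_mul_of_nonneg_right h2 (Nat.cast_nonneg n)),
    (hB n m τ hτ hTm hn hmn).trans
      (mul_le_mul_of_nonneg_right (le_max_right _ _) (Real.rpow_nonneg (Nat.cast_nonneg n) _))⟩

end Vale.Agent.P150.Weak.Rec
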