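import Vale.Agent.P150.Weak.GaussPoinc
import Vale.Agent.P146.Tilt

/-!
Tools of the self-bounding recursions: the smooth positive part and the iteration of a self-bounding tail inequality.
-/

open MeasureTheory ProbabilityTheory Real Finset
open scoped Classical NNReal

namespace Vale.Agent.P150.Weak.Rec

/-- A C¹ version of `(t - a)₊` with derivative in `[0, 1]`. -/
noncomputable def rho (a t : ℝ) : ℝ := max (t - a) 0 ^ 2 / (1 + max (t - a) 0)

/-- The derivative of `rho`. -/
noncomputable def rho' (a t : ℝ) : ℝ :=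
  (max (t - a) 0 ^ 2 + 2 * max (t - a) 0) / (1 + max (t - a) 0) ^ 2

lemma rho_nonneg (a t : ℝ) : 0 ≤ rho a t := by
  have := le_max_right (t - a) 0
  unfold rho; positivity

lemma rho_le (a t : ℝ) : rho a t ≤ max (t - a) 0 := by
  have := le_max_right (t - a) 0
  rw [rho, div_le_iff₀ (by positivity)]; nlinarith

lemma le_rho (a t : ℝ) : t - a - 1 ≤ rho a t := by
  have h0 := le_max_right (t - a) 0
  have h1 := le_max_left (t - a) 0
  rw [rho, le_div_iff₀ (by positivity)]; nlinarith

lemma rho'_nonneg (a t : ℝ) : 0 ≤ rho' a t := by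
  have := le_max_right (t - a) 0
  unfold rho'; positivity

lemma rho'_le_one (a t : ℝ) : rho' a t ≤ 1 := by
  have := le_max_right (t - a) 0
  rw [rho', div_le_one (by positivity)]; nlinarith

lemma rho'_eq_zero {a t : ℝ} (h : t ≤ a) : rho' a t = 0 := by
  simp [rho', max_eq_right (sub_nonpos.2 h)]

lemma continuous_rho' (a : ℝ) : Continuous (rho' a) := by
  refine Continuous.div (by fun_prop) (by fun_prop) fun t => ?_
  have := le_max_right (t - a) 0
  positivity

lemma hasDerivAt_rho (a t : ℝ) : HasDerivAt (rho a) (rho' a t) t := by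
  have hr : ∀ s, a < s → HasDerivAt (rho a) (rho' a s) s := fun s hs => by
    have e : rho a =ᶠ[nhds s] fun x => (x - a) ^ 2 / (1 + (x - a)) := by
      filter_upwards [Ioi_mem_nhds hs] with x hx
      simp [rho, max_eq_left (sub_pos.2 (Set.mem_Ioi.1 hx)).le]
    have h1 := ((hasDerivAt_id s).sub_const a).pow 2
    have h2 := ((hasDerivAt_id s).sub_const a).const_add 1
    refine ((h1.div h2 (by simp only [id_eq]; linarith)).congr_of_eventuallyEq e).congr_deriv ?_
    simp only [id_eq, rho', max_eq_left (sub_pos.2 hs).le, Pi.pow_apply]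
    ring
  have hl : ∀ s, s < a → HasDerivAt (rho a) (rho' a s) s := fun s hs => by
    have e : rho a =ᶠ[nhds s] fun _ => (0:ℝ) := by
      filter_upwards [Iio_mem_nhds hs] with x hx
      simp [rho, max_eq_right (sub_neg.2 (Set.mem_Iio.1 hx)).le]
    rw [rho'_eq_zero hs.le]
    exact (hasDerivAt_const s (0:ℝ)).congr_of_eventuallyEq e
  rcases lt_trichotomy t a with h | h | h
  · exact hl t h
  · subst h
    rw [rho'_eq_zero le_rfl]
    refine hasDerivAt_iff_isLittleO.2 ((Asymptotics.isBigO_of_le _ fun x => ?_).trans_isLittleO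
      ((Asymptotics.isLittleO_pow_sub_sub (x₀ := t) (m := 2) one_lt_two)))
    have h0 := le_max_right (x - t) 0
    have hz : rho t t = 0 := by simp [rho]
    simp only [hz, sub_zero, smul_zero, norm_eq_abs, abs_of_nonneg (rho_nonneg t x)]
    refine le_trans ?_ (le_trans (show max (x - t) 0 ^ 2 ≤ (x - t) ^ 2 by
      rcases le_total (x - t) 0 with h | h
      · rw [max_eq_right h]; nlinarith
      · rw [max_eq_left h]) ((le_of_eq (sq_abs _).symm).trans (le_abs_self _)))
    exact div_le_self (sq_nonneg _) (by linarith)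
  · exact hr t h

/-- Iterating a self-bounding inequality `U(M') ≤ r U(M) + ε`. -/
lemma iterate_self_bound {α : Type*} {U : α → ℝ → ℝ} {r C : ℝ} (hr : 0 ≤ r) (hr1 : r < 1)
    (hC : ∀ x M, 0 ≤ M → U x M ≤ C)
    (hstep : ∀ ε M, 0 < ε → 0 ≤ M → ∃ M', 0 ≤ M' ∧ ∀ x, U x M' ≤ r * U x M + ε) {ε : ℝ}
    (hε : 0 < ε) : ∃ M, 0 ≤ M ∧ ∀ x, U x M ≤ ε := by
  set δ := ε * (1 - r) / 2 with hδ
  have hδ0 : 0 < δ := div_pos (mul_pos hε (by linarith)) two_pos
  have hk : ∀ k : ℕ, ∃ M, 0 ≤ M ∧ ∀ x, U x M ≤ r ^ k * |C| + δ / (1 - r) := fun k => by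
    induction k with
    | zero =>
      refine ⟨0, le_rfl, fun x => ?_⟩
      have : 0 ≤ δ / (1 - r) := div_nonneg hδ0.le (by linarith)
      linarith [hC x 0 le_rfl, le_abs_self C]
    | succ k ih =>
      obtain ⟨M, hM, hU⟩ := ih
      obtain ⟨M', hM', hU'⟩ := hstep δ M hδ0 hM
      refine ⟨M', hM', fun x => (hU' x).trans ?_⟩
      have h1 : (1:ℝ) - r ≠ 0 := by linarith
      calc r * U x M + δ ≤ r * (r ^ k * |C| + δ / (1 - r)) + δ := by
            gcongr
            exact hU x
        _ = _ := by field_simp; ring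
  have h : Filter.Tendsto (fun k : ℕ => r ^ k * |C|) Filter.atTop (nhds 0) := by
    simpa using (tendsto_pow_atTop_nhds_zero_of_lt_one hr hr1).mul_const |C|
  obtain ⟨k, hk'⟩ := (h.eventually (gt_mem_nhds (half_pos hε))).exists
  obtain ⟨M, hM, hU⟩ := hk k
  refine ⟨M, hM, fun x => (hU x).trans ?_⟩
  have : δ / (1 - r) = ε / 2 := by
    have h1 : (1:ℝ) - r ≠ 0 := by linarith
    rw [hδ]; field_simp
  linarith

end Vale.Agent.P150.Weak.Rec
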