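import Vale.Agent.P150.Weak.Found.Deriv

/-!
Differentiability of the cumulants in the field and their derivatives along lines.
-/

open Finset

namespace Vale.Agent.P150.Weak.Rec

open Gap

variable {m : ℕ}

lemma differentiable_ev (J : Mat m) (f : Conf m → ℝ) :
    Differentiable ℝ fun u : Vec m => ev J u f := by
  have hev : (fun u : Vec m => ev J u f) = fun u =>
      (∑ x, Real.exp (expo J u x) * f x) / ∑ x, Real.exp (expo J u x) := by
    funext u
    simp only [ev, mu, wt]
    rw [sum_div]
    exact sum_congr rfl fun x _ => div_mul_eq_mul_div _ _ _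
  rw [hev]
  have he : ∀ x : Conf m, Differentiable ℝ fun u : Vec m => Real.exp (expo J u x) := fun x => by
    simp only [expo]
    exact ((Differentiable.fun_sum fun i _ => by fun_prop).const_add _).exp
  have hn : Differentiable ℝ fun u : Vec m => ∑ x, Real.exp (expo J u x) * f x :=
    Differentiable.fun_sum fun x _ => (he x).mul_const (f x)
  have hd : Differentiable ℝ fun u : Vec m => ∑ x, Real.exp (expo J u x) :=
    Differentiable.fun_sum fun x _ => he x
  simp only [div_eq_mul_inv]
  exact hn.fun_mul (hd.fun_inv fun u => (sum_pos (fun x _ => Real.exp_pos _) univ_nonempty).ne')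

lemma differentiable_mg (J : Mat m) (i : Fin m) : Differentiable ℝ fun u : Vec m => mg J u i :=
  differentiable_ev J _

lemma differentiable_cm2 (J : Mat m) (i j : Fin m) :
    Differentiable ℝ fun u : Vec m => cm2 J u i j := by
  simp only [cm2_eq]
  exact (differentiable_ev J _).sub ((differentiable_mg J i).mul (differentiable_mg J j))

lemma differentiable_cm3 (J : Mat m) (i j k : Fin m) :
    Differentiable ℝ fun u : Vec m => cm3 J u i j k := by
  simp only [cm3_eq]
  have e := fun f => differentiable_ev (m := m) J f
  have g := fun a => differentiable_mg (m := m) J a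
  fun_prop

lemma differentiable_vv (J : Mat m) (i : Fin m) : Differentiable ℝ fun u : Vec m => vv J u i :=
  Differentiable.fun_sum fun j _ => (differentiable_cm2 J i j).mul (differentiable_mg J j)

/-- A differentiable function's derivative along a line from its derivatives along the axes. -/
lemma hasDerivAt_line {F : Vec m → ℝ} (hF : Differentiable ℝ F) {D : Fin m → Vec m → ℝ}
    (hD : ∀ k w, HasDerivAt (fun s => F (Function.update w k s)) (D k w) (w k)) (u a : Vec m)
    (t : ℝ) :
    HasDerivAt (fun s => F (u + s • a)) (∑ k, a k * D k (u + t • a)) t := by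
  have hl : HasDerivAt (fun s : ℝ => u + s • a) a t := by
    simpa using ((hasDerivAt_id t).smul_const a).const_add u
  refine ((hF _).hasFDerivAt.comp_hasDerivAt t hl).congr_deriv ?_
  set w := u + t • a
  have hk : ∀ k, fderiv ℝ F w (Pi.single k 1) = D k w := fun k => by
    have hg := hasDerivAt_update w k (w k)
    have h1 : HasFDerivAt F (fderiv ℝ F w) (Function.update w k (w k)) := by
      rw [Function.update_eq_self]; exact (hF w).hasFDerivAt
    exact (h1.comp_hasDerivAt (w k) hg).unique (hD k w)
  conv_lhs => rw [pi_eq_sum_univ' a, map_sum]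
  refine sum_congr rfl fun k _ => ?_
  rw [map_smul, hk, smul_eq_mul]

lemma hasDerivAt_mg_line (J : Mat m) (u a : Vec m) (i : Fin m) (t : ℝ) :
    HasDerivAt (fun s => mg J (u + s • a) i) (∑ k, a k * cm2 J (u + t • a) i k) t :=
  hasDerivAt_line (differentiable_mg J i) (D := fun k w => cm2 J w i k) (fun k w => by
    simpa [Function.update_eq_self] using hasDerivAt_mg J w i k (w k)) u a t

lemma hasDerivAt_cm2_line (J : Mat m) (u a : Vec m) (i j : Fin m) (t : ℝ) :
    HasDerivAt (fun s => cm2 J (u + s • a) i j) (∑ k, a k * cm3 J (u + t • a) i j k) t :=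
  hasDerivAt_line (differentiable_cm2 J i j) (D := fun k w => cm3 J w i j k) (fun k w => by
    simpa [Function.update_eq_self] using hasDerivAt_cm2 J w i j k (w k)) u a t

lemma hasDerivAt_cm3_line (J : Mat m) (u a : Vec m) (i j k : Fin m) (t : ℝ) :
    HasDerivAt (fun s => cm3 J (u + s • a) i j k) (∑ l, a l * cm4 J (u + t • a) i j k l) t :=
  hasDerivAt_line (differentiable_cm3 J i j k) (D := fun l w => cm4 J w i j k l) (fun l w => by
    simpa [Function.update_eq_self] using hasDerivAt_cm3 J w i j k l (w l)) u a t

lemma hasDerivAt_vv_line (J : Mat m) (u a : Vec m) (i : Fin m) (t : ℝ) :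
    HasDerivAt (fun s => vv J (u + s • a) i) (∑ k, a k * gradV J (u + t • a) i k) t :=
  hasDerivAt_line (differentiable_vv J i) (D := fun k w => gradV J w i k) (fun k w => by
    simpa [Function.update_eq_self] using hasDerivAt_vv J w i k (w k)) u a t

end Vale.Agent.P150.Weak.Rec
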