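import Vale.Agent.P150.Weak.Rec.Bd
import Vale.Agent.P150.Weak.Gauss.Shift

/-!
The subsystem at fields shifted by a row is a planted system, up to a bounded change of law.
-/

open MeasureTheory ProbabilityTheory Finset Real

namespace Vale.Agent.P150.Weak.Rec

open Gap

variable {m : ℕ} {b : ℝ} {n : ℕ} {τ : ℝ}

/-- The row fields `v + √v r`. -/
noncomputable def rv (v : ℝ) (r : Fin m → ℝ) : Vec m := fun a => v + √v * r a

lemma continuous_comp_fields {φ : Mat m → Vec m → ℝ} (h : Bd φ) (v τ c : ℝ) :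
    Continuous fun q : (Idx m → ℝ) × (Fin m → ℝ) =>
      φ (plJ v q.1) (plU τ q.1 + fun a => c + √v * q.2 a) :=
  h.1.comp (f := fun q : (Idx m → ℝ) × (Fin m → ℝ) =>
    (plJ v q.1, plU τ q.1 + fun a => c + √v * q.2 a))
    (((continuous_plJ v).comp continuous_fst).prodMk
      (((continuous_plU τ).comp continuous_fst).add (by fun_prop)))

lemma integrable_comp_fields {φ : Mat m → Vec m → ℝ} (h : Bd φ) (v τ c : ℝ) :
    Integrable (fun q : (Idx m → ℝ) × (Fin m → ℝ) =>
      φ (plJ v q.1) (plU τ q.1 + fun a => c + √v * q.2 a)) ((gauss (Idx m)).prod (gauss (Fin m))) := by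
  obtain ⟨B, hB⟩ := h.2
  exact Integrable.of_bound (continuous_comp_fields h v τ c).aestronglyMeasurable B
    (ae_of_all _ fun q => hB _ _)

/-- The shift of the law of the subsystem at fields `h + s v + √v r`. -/
noncomputable def lawShift (v τ s : ℝ) : Idx m → ℝ :=
  Sum.elim (fun _ => 0) fun _ => (s - 1) * v / √(τ + v)

/-- The subsystem at fields `h + s v + √v r`, as a shifted standard Gaussian. -/
theorem shift_law {φ : Mat m → Vec m → ℝ} (h : Bd φ) (hτ : 0 ≤ τ) (s : ℝ) :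
    ∫ g, ∫ r, φ (plJ (b ^ 2 / n) g) (plU τ g + fun a => s * (b ^ 2 / n) + √(b ^ 2 / n) * r a)
        ∂gauss (Fin m) ∂gauss (Idx m) =
      ∫ g, φ (plJ (b ^ 2 / n) fun k => g k + lawShift (b ^ 2 / n) τ s k)
        (plU (τ + b ^ 2 / n) fun k => g k + lawShift (b ^ 2 / n) τ s k) ∂gauss (Idx m) := by
  set v := b ^ 2 / (n:ℝ) with hv
  have hv0 : 0 ≤ v := by positivity
  set c := (s - 1) * v with hc
  have hψ := h.shift (fun _ => c)
  have hsh := pEv_shift (b := b) (n := n) (φ := fun J u => φ J (u + fun _ => c)) hτ hψ.1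
    (integrable_comp_fields hψ v τ v)
  have e : ∀ (g : Idx m → ℝ) (r : Fin m → ℝ), (plU τ g + fun a => s * v + √v * r a) =
      (plU τ g + fun a => v + √v * r a) + fun _ => c := fun g r => by
    funext a; simp only [Pi.add_apply, hc]; ring
  simp only [e]
  rw [hsh]
  simp only [pEv, ← hv]
  refine integral_congr_ae (ae_of_all _ fun g => ?_)
  set a : Idx m → ℝ := lawShift v τ s with ha
  have e1 : plJ v (fun k => g k + a k) = plJ v g := by
    unfold plJ; simp [ha, lawShift]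
  have e2 : plU (τ + v) (fun k => g k + a k) = plU (τ + v) g + fun _ => c := by
    funext k
    simp only [plU, ha, lawShift, Pi.add_apply, Sum.elim_inr, ← hc]
    rcases eq_or_ne (τ + v) 0 with h0 | h0
    · have : v = 0 := by linarith
      simp [hc, this]
    · have : √(τ + v) ≠ 0 := (sqrt_pos.2 (lt_of_le_of_ne (by linarith) (Ne.symm h0))).ne'
      field_simp
      ring
  dsimp only
  rw [e1, e2]

/-- The squared length of the shift. -/
lemma lawShift_sq {v : ℝ} (hv : 0 ≤ v) (hτ : 0 ≤ τ) {s : ℝ} (hs : |s| ≤ 1) :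
    ∑ k : Idx m, lawShift v τ s k ^ 2 ≤ m * (4 * v ^ 2 / (τ + v)) := by
  have h4 : (s - 1) ^ 2 ≤ 4 := by nlinarith [abs_le.1 hs]
  simp only [lawShift, Fintype.sum_sum_type, Sum.elim_inl, Sum.elim_inr, sum_const, card_univ,
    Fintype.card_fin, nsmul_eq_mul, div_pow, sq_sqrt (add_nonneg hτ hv), mul_pow]
  simp only [ne_eq, OfNat.ofNat_ne_zero, not_false_eq_true, zero_pow, mul_zero, zero_add]
  gcongr

/-- **Crude change of law**: the subsystem at fields `h + s v + √v r`, `|s| ≤ 1`. -/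
theorem crude_shift {φ : Mat m → Vec m → ℝ} (h : Bd φ) (hτ : 0 ≤ τ) (hmn : m ≤ n) {s : ℝ}
    (hs : |s| ≤ 1) :
    ∫ g, ∫ r, φ (plJ (b ^ 2 / n) g) (plU τ g + fun a => s * (b ^ 2 / n) + √(b ^ 2 / n) * r a)
        ∂gauss (Fin m) ∂gauss (Idx m) ≤
      exp (2 * b ^ 2) * √(pEv b n m (τ + b ^ 2 / n) fun J u => φ J u ^ 2) := by
  rw [shift_law h hτ]
  set v := b ^ 2 / (n:ℝ) with hv
  have hv0 : 0 ≤ v := by positivity
  have hcont : Continuous fun g : Idx m → ℝ => φ (plJ v g) (plU (τ + v) g) :=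
    h.1.comp (f := fun g : Idx m → ℝ => (plJ v g, plU (τ + v) g))
      ((continuous_plJ v).prodMk (continuous_plU _))
  refine le_trans (le_abs_self _) ((shift_crude (lawShift v τ s) hcont.measurable
    ((h.pow 2).integrable _ _)).2.trans ?_)
  refine mul_le_mul_of_nonneg_right (exp_le_exp.2 ?_) (sqrt_nonneg _)
  have hd : 4 * v ^ 2 / (τ + v) ≤ 4 * v := by
    rcases eq_or_ne (τ + v) 0 with h0 | h0
    · rw [h0, div_zero]; positivity
    · rw [div_le_iff₀ (lt_of_le_of_ne (by linarith) (Ne.symm h0))]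
      nlinarith [mul_nonneg hv0 hτ]
  have hmv : (m:ℝ) * v ≤ b ^ 2 := by
    rcases Nat.eq_zero_or_pos n with h0 | h0
    · subst h0; simp [hv]; positivity
    · rw [hv, mul_div_assoc', div_le_iff₀ (Nat.cast_pos.2 h0), mul_comm]
      exact mul_le_mul_of_nonneg_left (Nat.cast_le.2 hmn) (sq_nonneg _)
  have := lawShift_sq (m := m) hv0 hτ hs
  nlinarith [mul_le_mul_of_nonneg_left hd (Nat.cast_nonneg (α := ℝ) m)]

/-- Away from `τ = 0` the change of law costs `O(n^(-1/2))`. -/
theorem add_shift {φ : Mat m → Vec m → ℝ} (h : Bd φ) {η : ℝ} (hη : 0 < η) (hτ : η ≤ τ)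
    (hn : 0 < n) (hmn : m ≤ n) {s : ℝ} (hs : |s| ≤ 1) :
    ∫ g, ∫ r, φ (plJ (b ^ 2 / n) g) (plU τ g + fun a => s * (b ^ 2 / n) + √(b ^ 2 / n) * r a)
        ∂gauss (Fin m) ∂gauss (Idx m) ≤
      pEv b n m (τ + b ^ 2 / n) φ + √(4 * (b ^ 2) ^ 2 / η * exp (4 * (b ^ 2) ^ 2 / η)) / √n *
        √(pEv b n m (τ + b ^ 2 / n) fun J u => φ J u ^ 2) := by
  have hτ0 : 0 ≤ τ := hη.le.trans hτ
  rw [shift_law h hτ0]
  set v := b ^ 2 / (n:ℝ) with hv
  have hv0 : 0 ≤ v := by positivity
  have hn0 : (0:ℝ) < n := Nat.cast_pos.2 hn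
  have hn1 : (1:ℝ) ≤ n := Nat.one_le_cast.2 hn
  have hcont : Continuous fun g : Idx m → ℝ => φ (plJ v g) (plU (τ + v) g) :=
    h.1.comp (f := fun g : Idx m → ℝ => (plJ v g, plU (τ + v) g))
      ((continuous_plJ v).prodMk (continuous_plU _))
  have e := (le_abs_self _).trans
    (shift_add (lawShift v τ s) hcont.measurable ((h.pow 2).integrable _ _))
  set L := 4 * (b ^ 2) ^ 2 / η with hL
  have hA : ∑ k : Idx m, lawShift v τ s k ^ 2 ≤ L / n := by
    refine (lawShift_sq hv0 hτ0 hs).trans ?_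
    calc (m:ℝ) * (4 * v ^ 2 / (τ + v)) ≤ n * (4 * v ^ 2 / η) := by
          gcongr
          linarith
      _ = L / n := by rw [hL, hv]; field_simp
  have hA0 : 0 ≤ ∑ k : Idx m, lawShift v τ s k ^ 2 := sum_nonneg fun k _ => sq_nonneg _
  set A := ∑ k : Idx m, lawShift v τ s k ^ 2
  have hAL : A ≤ L := hA.trans (div_le_self (by positivity) hn1)
  have hexp : √(exp A - 1) ≤ √(L * exp L) / √n := by
    rw [← sqrt_div (by positivity)]
    refine sqrt_le_sqrt ?_
    have h1 : exp A - 1 ≤ A * exp A := by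
      have h1 := add_one_le_exp (-A)
      have h2 : exp A * exp (-A) = 1 := by rw [← exp_add, add_neg_cancel, exp_zero]
      nlinarith [mul_le_mul_of_nonneg_left h1 (exp_pos A).le]
    calc exp A - 1 ≤ A * exp A := h1
      _ ≤ L / n * exp L := mul_le_mul hA (exp_le_exp.2 hAL) (exp_pos _).le (by positivity)
      _ = L * exp L / n := by ring
  have := mul_le_mul_of_nonneg_right hexp
    (sqrt_nonneg (∫ g, φ (plJ v g) (plU (τ + v) g) ^ 2 ∂gauss (Idx m)))
  simp only [pEv, ← hv] at e ⊢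
  linarith

lemma gauss_neg_fin : MeasurePreserving (fun r : Fin m → ℝ => -r) (gauss (Fin m)) (gauss (Fin m)) := by
  convert P146.gauss_sign (ι := Fin m) (fun _ => -1) fun _ => Or.inr rfl using 1
  funext r i
  simp

/-- The half difference at a spin, in the split coordinates. -/
lemma del_join {φ : Mat m → Vec m → ℝ} (v τ : ℝ) (i : Fin (m + 1)) (g : Idx m → ℝ)
    (r : Fin m → ℝ) (t : ℝ) :
    del i φ (plJ v (join i g r t)) (plU τ (join i g r t)) =
      (φ (plJ v g) (plU τ g + rv v r) - φ (plJ v g) (plU τ g - rv v r)) / 2 := by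
  unfold rv
  simp only [del, sub_plJ, subU_plU, rowOf_plJ, smul_eq_mul]
  ring

/-- The half sum at a spin, in the split coordinates. -/
lemma bar_join {φ : Mat m → Vec m → ℝ} (v τ : ℝ) (i : Fin (m + 1)) (g : Idx m → ℝ)
    (r : Fin m → ℝ) (t : ℝ) :
    bar i φ (plJ v (join i g r t)) (plU τ (join i g r t)) =
      (φ (plJ v g) (plU τ g + rv v r) + φ (plJ v g) (plU τ g - rv v r)) / 2 := by
  unfold rv
  simp only [bar, sub_plJ, subU_plU, rowOf_plJ, smul_eq_mul]
  ring

/-- An observable of `m + 1` spins that only sees the subsystem and the row. -/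
lemma pEv_row {F : Mat (m + 1) → Vec (m + 1) → ℝ} (hF : Bd F) (i : Fin (m + 1))
    {f : (Idx m → ℝ) → (Fin m → ℝ) → ℝ}
    (hf : ∀ g r t, F (plJ (b ^ 2 / n) (join i g r t)) (plU τ (join i g r t)) = f g r) :
    pEv b n (m + 1) τ F = ∫ g, ∫ r, f g r ∂gauss (Fin m) ∂gauss (Idx m) := by
  rw [pEv_split i (hF.integrable _ _)]
  simp [hf]

/-- The mean of a half sum splits into the two translations. -/
theorem bar_split {φ : Mat m → Vec m → ℝ} (h : Bd φ) (i : Fin (m + 1)) :
    pEv b n (m + 1) τ (fun J u => bar i φ J u) =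
      (∫ g, ∫ r, φ (plJ (b ^ 2 / n) g) (plU τ g + fun a => 1 * (b ^ 2 / n) + √(b ^ 2 / n) * r a)
          ∂gauss (Fin m) ∂gauss (Idx m) +
        ∫ g, ∫ r, φ (plJ (b ^ 2 / n) g) (plU τ g + fun a => -1 * (b ^ 2 / n) + √(b ^ 2 / n) * r a)
          ∂gauss (Fin m) ∂gauss (Idx m)) / 2 := by
  set v := b ^ 2 / (n:ℝ) with hv
  rw [pEv_row (h.barI i) i fun g r t => bar_join v τ i g r t]
  have e2 : ∀ g, ∫ r, φ (plJ v g) (plU τ g - rv v r) ∂gauss (Fin m) =
      ∫ r, φ (plJ v g) (plU τ g + fun a => -1 * v + √v * r a) ∂gauss (Fin m) := by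
    intro g
    rw [← integral_comp_mp (gauss_neg_fin (m := m))
      (F := fun r => φ (plJ v g) (plU τ g - rv v r))
      (h.1.comp (f := fun r : Fin m → ℝ => (plJ v g, plU τ g - rv v r))
        (by unfold rv; fun_prop)).aestronglyMeasurable]
    refine integral_congr_ae (ae_of_all _ fun r => ?_)
    dsimp only
    congr 1
    funext a
    unfold rv
    simp only [Pi.sub_apply, Pi.add_apply, Pi.neg_apply]
    ring
  obtain ⟨B, hB⟩ := h.2
  have i1 : ∀ g, Integrable (fun r => φ (plJ v g) (plU τ g + rv v r)) (gauss (Fin m)) := fun g =>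
    integrable_gauss_bound (h.1.comp (f := fun r : Fin m → ℝ => (plJ v g, plU τ g + rv v r))
      (by unfold rv; fun_prop)) fun r => hB _ _
  have i2 : ∀ g, Integrable (fun r => φ (plJ v g) (plU τ g - rv v r)) (gauss (Fin m)) := fun g =>
    integrable_gauss_bound (h.1.comp (f := fun r : Fin m → ℝ => (plJ v g, plU τ g - rv v r))
      (by unfold rv; fun_prop)) fun r => hB _ _
  simp only [integral_div, fun g => integral_add (i1 g) (i2 g), e2]
  have j1 := (integrable_comp_fields h v τ v).integral_prod_left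
  have j2 := (integrable_comp_fields h v τ (-1 * v)).integral_prod_left
  unfold rv
  dsimp only at j1 j2
  rw [integral_add j1 j2]
  simp only [one_mul]

/-- Half the sum of an observable at `h + J_i` and `h - J_i`. -/
theorem bar_crude {φ : Mat m → Vec m → ℝ} (h : Bd φ) (hτ : 0 ≤ τ) (hmn : m ≤ n)
    (i : Fin (m + 1)) :
    pEv b n (m + 1) τ (fun J u => bar i φ J u) ≤
      exp (2 * b ^ 2) * √(pEv b n m (τ + b ^ 2 / n) fun J u => φ J u ^ 2) := by
  rw [bar_split h i]
  have c1 := crude_shift (b := b) (n := n) h hτ hmn (s := 1) (by norm_num)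
  have c2 := crude_shift (b := b) (n := n) h hτ hmn (s := -1) (by norm_num)
  linarith

/-- Half the sum, away from `τ = 0`. -/
theorem bar_shift {φ : Mat m → Vec m → ℝ} (h : Bd φ) {η : ℝ} (hη : 0 < η) (hτ : η ≤ τ)
    (hn : 0 < n) (hmn : m ≤ n) (i : Fin (m + 1)) :
    pEv b n (m + 1) τ (fun J u => bar i φ J u) ≤
      pEv b n m (τ + b ^ 2 / n) φ + √(4 * (b ^ 2) ^ 2 / η * exp (4 * (b ^ 2) ^ 2 / η)) / √n *
        √(pEv b n m (τ + b ^ 2 / n) fun J u => φ J u ^ 2) := by
  rw [bar_split h i]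
  have c1 := add_shift (b := b) h hη hτ hn hmn (s := 1) (by norm_num)
  have c2 := add_shift (b := b) h hη hτ hn hmn (s := -1) (by norm_num)
  linarith

end Vale.Agent.P150.Weak.Rec
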