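import Vale.Agent.P150.Weak.Upd
import Vale.Agent.P150.Weak.Rec.Shift
import Vale.Agent.P150.Weak.Rec.Line
import Vale.Agent.P150.Weak.GaussMoment

/-!
The two inequalities of the self-bounding argument: the second moment of half differences at a spin
is at most a crude mean term plus the pair variance times the half sums of the field derivatives,
with constant one, and the higher moments are crude.
-/

open MeasureTheory ProbabilityTheory Finset Real

namespace Vale.Agent.P150.Weak.Rec

open Gap

variable {m : ℕ} {κ : Type*} [Fintype κ] {b : ℝ} {n : ℕ} {τ : ℝ}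
  {φ : κ → Mat m → Vec m → ℝ} {D : κ → Fin m → Mat m → Vec m → ℝ}

/-- The derivative along lines. -/
def LineDer (φ : κ → Mat m → Vec m → ℝ) (D : κ → Fin m → Mat m → Vec m → ℝ) : Prop :=
  ∀ a G u c t, HasDerivAt (fun s : ℝ => φ a G (u + s • c)) (∑ k, c k * D a k G (u + t • c)) t

/-- The measure on the segment of translations. -/
noncomputable def seg : Measure ℝ := volume.restrict (Set.Ioc (-1:ℝ) 1)

instance : IsFiniteMeasure seg := ⟨by simp [seg]⟩

/-- `Σ_a (Σ_k D_ak)²`. -/
noncomputable def tot (D : κ → Fin m → Mat m → Vec m → ℝ) (G : Mat m) (u : Vec m) : ℝ :=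
  ∑ a, (∑ k, D a k G u) ^ 2

omit [Fintype κ] in
lemma sq_integral_le {α : Type*} [MeasurableSpace α] {μ : Measure α} [IsFiniteMeasure μ]
    {f : α → ℝ} (hf : Integrable f μ) (hf2 : Integrable (fun x => f x ^ 2) μ) :
    (∫ x, f x ∂μ) ^ 2 ≤ μ.real Set.univ * ∫ x, f x ^ 2 ∂μ := by
  have key : ∀ t : ℝ, 0 ≤ μ.real Set.univ * (t * t) + 2 * (∫ x, f x ∂μ) * t + ∫ x, f x ^ 2 ∂μ := by
    intro t
    have h := integral_nonneg (μ := μ) (f := fun x => (t + f x) ^ 2) fun x => sq_nonneg _
    have e : (fun x => (t + f x) ^ 2) = fun x => t * t + 2 * t * f x + f x ^ 2 :=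
      funext fun x => by ring
    have i12 : Integrable (fun x => t * t + 2 * t * f x) μ :=
      (integrable_const _).add (hf.const_mul _)
    rw [e, integral_add i12 hf2,
      integral_add (integrable_const _) (hf.const_mul _), integral_const, integral_const_mul,
      smul_eq_mul] at h
    linarith
  have := discrim_le_zero key
  rw [discrim] at this
  nlinarith

lemma bd_tot (hD : ∀ a k, Bd (D a k)) : Bd (tot D) := Bd.sum fun a => (Bd.sum fun k => hD a k).pow 2

/-- The mean over the row of a half difference. -/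
lemma mean_row_le (hφ : ∀ a, Bd (φ a)) (hD : ∀ a k, Bd (D a k)) (hd : LineDer φ D) (v : ℝ)
    (G : Mat m) (h : Vec m) :
    ∑ a, (∫ r, (φ a G (h + rv v r) - φ a G (h - rv v r)) / 2 ∂gauss (Fin m)) ^ 2 ≤
      v ^ 2 / 2 * ∫ r, ∫ s, tot D G (h + fun k => s * v + √v * r k) ∂seg ∂gauss (Fin m) := by
  set μ := gauss (Fin m)
  have hcomp : ∀ {ψ : Mat m → Vec m → ℝ}, Bd ψ →
      Continuous fun q : (Fin m → ℝ) × ℝ => ψ G (h + fun k => q.2 * v + √v * q.1 k) := fun hψ =>
    hψ.1.comp (f := fun q : (Fin m → ℝ) × ℝ => (G, h + fun k => q.2 * v + √v * q.1 k))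
      (continuous_const.prodMk (continuous_const.add (by fun_prop)))
  have hint : ∀ {ψ : Mat m → Vec m → ℝ}, Bd ψ →
      Integrable (fun q : (Fin m → ℝ) × ℝ => ψ G (h + fun k => q.2 * v + √v * q.1 k))
        (μ.prod seg) := fun hψ => by
    obtain ⟨B, hB⟩ := hψ.2
    exact Integrable.of_bound (hcomp hψ).aestronglyMeasurable B (ae_of_all _ fun q => hB _ _)
  have hone : ∀ a, (∫ r, (φ a G (h + rv v r) - φ a G (h - rv v r)) / 2 ∂μ) ^ 2 ≤
      v ^ 2 / 2 * ∫ r, ∫ s, (∑ k, D a k G (h + fun k => s * v + √v * r k)) ^ 2 ∂seg ∂μ := by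
    intro a
    have hD1 := Bd.sum (s := (univ : Finset (Fin m))) fun k => hD a k
    have ftc : ∀ r : Fin m → ℝ,
        φ a G (h + fun k => 1 * v + √v * r k) - φ a G (h + fun k => -1 * v + √v * r k) =
          v * ∫ s, (∑ k, D a k G (h + fun k => s * v + √v * r k)) ∂seg := by
      intro r
      set w : Vec m := h + fun k => √v * r k
      have e : ∀ s : ℝ, (h + fun k => s * v + √v * r k) = w + s • fun _ => v := fun s => by
        funext k; simp only [w, Pi.add_apply, Pi.smul_apply, smul_eq_mul]; ring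
      simp only [e]
      rw [← intervalIntegral.integral_eq_sub_of_hasDerivAt (fun s _ => hd a G w (fun _ => v) s)
        (Continuous.intervalIntegrable ?_ _ _), intervalIntegral.integral_of_le (by norm_num),
        ← integral_const_mul]
      · refine integral_congr_ae (ae_of_all _ fun s => ?_)
        simp only [mul_sum]
      · exact continuous_finsetSum _ fun k _ => continuous_const.mul ((hD a k).1.comp
          (f := fun s : ℝ => (G, w + s • fun _ : Fin m => v)) (by fun_prop))
    have hneg : ∫ r, φ a G (h - rv v r) ∂μ = ∫ r, φ a G (h + fun k => -1 * v + √v * r k) ∂μ := by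
      rw [← integral_comp_mp (gauss_neg_fin (m := m)) (F := fun r => φ a G (h - rv v r))
        ((hφ a).1.comp (f := fun r : Fin m → ℝ => (G, h - rv v r))
          (by unfold rv; fun_prop)).aestronglyMeasurable]
      refine integral_congr_ae (ae_of_all _ fun r => ?_)
      dsimp only
      congr 1
      funext k
      unfold rv
      simp only [Pi.sub_apply, Pi.add_apply, Pi.neg_apply]
      ring
    obtain ⟨B, hB⟩ := (hφ a).2
    have i1 : ∀ c : ℝ, Integrable (fun r => φ a G (h + fun k => c * v + √v * r k)) μ := fun c =>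
      integrable_gauss_bound ((hφ a).1.comp (f := fun r : Fin m → ℝ =>
        (G, h + fun k => c * v + √v * r k)) (by fun_prop)) fun r => hB _ _
    have i2 : Integrable (fun r => φ a G (h - rv v r)) μ :=
      integrable_gauss_bound ((hφ a).1.comp (f := fun r : Fin m → ℝ => (G, h - rv v r))
        (by unfold rv; fun_prop)) fun r => hB _ _
    have i0 : Integrable (fun r => φ a G (h + rv v r)) μ := by
      have e : ∀ r : Fin m → ℝ, rv v r = fun k => 1 * v + √v * r k := fun r => by
        unfold rv; simp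
      simpa only [e] using i1 1
    have heq : ∫ r, (φ a G (h + rv v r) - φ a G (h - rv v r)) / 2 ∂μ =
        v / 2 * ∫ r, ∫ s, (∑ k, D a k G (h + fun k => s * v + √v * r k)) ∂seg ∂μ := by
      rw [integral_div, integral_sub i0 i2, hneg, div_mul_eq_mul_div]
      congr 1
      rw [← integral_const_mul, ← integral_sub i0 (i1 (-1))]
      refine integral_congr_ae (ae_of_all _ fun r => ?_)
      dsimp only
      rw [← ftc r]
      congr 3
      funext k
      unfold rv
      ring
    rw [heq, mul_pow, ← integral_prod _ (hint hD1), ← integral_prod _ (hint (hD1.pow 2))]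
    refine (mul_le_mul_of_nonneg_left (sq_integral_le (hint hD1) (hint (hD1.pow 2)))
      (sq_nonneg _)).trans_eq ?_
    have hvol : (μ.prod seg).real Set.univ = 2 := by
      rw [measureReal_def, ← Set.univ_prod_univ, Measure.prod_prod]
      simp [seg, μ]
      norm_num
    rw [hvol]
    ring
  refine (sum_le_sum fun a _ => hone a).trans_eq ?_
  rw [← mul_sum]
  congr 1
  have hi : ∀ a, Integrable (fun q : (Fin m → ℝ) × ℝ =>
      (∑ k, D a k G (h + fun k => q.2 * v + √v * q.1 k)) ^ 2) (μ.prod seg) :=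
    fun a => hint ((Bd.sum fun k => hD a k).pow 2)
  rw [← integral_prod _ (hint (bd_tot hD))]
  simp only [← fun a => integral_prod _ (hi a)]
  exact (integral_finsetSum _ fun a _ => hi a).symm

/-- Averaged over the subsystem, the mean term is crude. -/
lemma mean_avg_le {ψ : Mat m → Vec m → ℝ} (h : Bd ψ) (hτ : 0 ≤ τ) (hmn : m ≤ n) :
    ∫ g, ∫ r, ∫ s, ψ (plJ (b ^ 2 / n) g) (plU τ g + fun k => s * (b ^ 2 / n) + √(b ^ 2 / n) * r k)
        ∂seg ∂gauss (Fin m) ∂gauss (Idx m) ≤
      2 * (exp (2 * b ^ 2) * √(pEv b n m (τ + b ^ 2 / n) fun J u => ψ J u ^ 2)) := by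
  set v := b ^ 2 / (n:ℝ)
  set P := (gauss (Idx m)).prod (gauss (Fin m))
  have hc : Continuous fun q : ((Idx m → ℝ) × (Fin m → ℝ)) × ℝ =>
      ψ (plJ v q.1.1) (plU τ q.1.1 + fun k => q.2 * v + √v * q.1.2 k) :=
    h.1.comp (f := fun q : ((Idx m → ℝ) × (Fin m → ℝ)) × ℝ =>
      (plJ v q.1.1, plU τ q.1.1 + fun k => q.2 * v + √v * q.1.2 k))
      (((continuous_plJ v).comp (continuous_fst.comp continuous_fst)).prodMk
        (((continuous_plU τ).comp (continuous_fst.comp continuous_fst)).add (by fun_prop)))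
  obtain ⟨B, hB⟩ := h.2
  have hi : Integrable (fun q : ((Idx m → ℝ) × (Fin m → ℝ)) × ℝ =>
      ψ (plJ v q.1.1) (plU τ q.1.1 + fun k => q.2 * v + √v * q.1.2 k)) (P.prod seg) :=
    Integrable.of_bound hc.aestronglyMeasurable B (ae_of_all _ fun q => hB _ _)
  rw [← integral_prod (fun q : (Idx m → ℝ) × (Fin m → ℝ) => ∫ s,
    ψ (plJ v q.1) (plU τ q.1 + fun k => s * v + √v * q.2 k) ∂seg) hi.integral_prod_left,
    ← integral_prod (fun q : ((Idx m → ℝ) × (Fin m → ℝ)) × ℝ =>
      ψ (plJ v q.1.1) (plU τ q.1.1 + fun k => q.2 * v + √v * q.1.2 k)) hi, integral_prod_symm _ hi]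
  refine (integral_mono_ae hi.integral_prod_right
    (integrable_const (exp (2 * b ^ 2) * √(pEv b n m (τ + v) fun J u => ψ J u ^ 2))) ?_).trans_eq ?_
  · filter_upwards [ae_restrict_mem (measurableSet_Ioc (a := (-1:ℝ)) (b := 1))] with s hs
    rw [integral_prod _ (integrable_comp_fields h v τ (s * v))]
    exact crude_shift h hτ hmn (abs_le.2 ⟨hs.1.le, hs.2⟩)
  · simp [seg]
    norm_num

omit [Fintype κ] in
/-- The derivative in a row coordinate of a half difference. -/
lemma hasDerivAt_half (hd : LineDer φ D) (v : ℝ) (G : Mat m) (h : Vec m) (k : Fin m) (a : κ)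
    (r : Fin m → ℝ) (t : ℝ) :
    HasDerivAt (fun s => (φ a G (h + rv v (Function.update r k s)) -
        φ a G (h - rv v (Function.update r k s))) / 2)
      (√v * ((D a k G (h + rv v (Function.update r k t)) +
        D a k G (h - rv v (Function.update r k t))) / 2)) t := by
  set c : Vec m := Pi.single k (√v)
  set w := rv v (Function.update r k t)
  have e : ∀ s, rv v (Function.update r k s) = w + (s - t) • c := fun s => by
    funext j
    simp only [rv, w, c, Pi.add_apply, Pi.smul_apply, smul_eq_mul]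
    rcases eq_or_ne j k with rfl | hj
    · simp; ring
    · simp [hj]
  have hsum : ∀ u, ∑ j, c j * D a j G u = √v * D a k G u := fun u => by
    simp [c, Pi.single_apply]
  have h1 : HasDerivAt (fun s => φ a G (h + w + (s - t) • c)) (√v * D a k G (h + w)) t := by
    have := HasDerivAt.comp_sub_const t t (hd a G (h + w) c (t - t))
    simpa [hsum, Function.comp_def] using this
  have h2 : HasDerivAt (fun s => φ a G (h - w + (s - t) • -c)) (-(√v * D a k G (h - w))) t := by
    have := HasDerivAt.comp_sub_const t t (hd a G (h - w) (-c) (t - t))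
    simpa [hsum, Function.comp_def] using this
  have e1 : ∀ s, h + rv v (Function.update r k s) = h + w + (s - t) • c := fun s => by
    rw [e s, add_assoc]
  have e2 : ∀ s, h - rv v (Function.update r k s) = h - w + (s - t) • -c := fun s => by
    rw [e s]; funext j
    simp only [Pi.sub_apply, Pi.add_apply, Pi.smul_apply, Pi.neg_apply, smul_eq_mul]; ring
  simp only [e1, e2]
  refine ((h1.sub h2).div_const 2).congr_deriv ?_
  ring

/-- The self-bounding inequality over the row, for fixed subsystem. -/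
lemma row_sq_le (hφ : ∀ a, Bd (φ a)) (hD : ∀ a k, Bd (D a k)) (hd : LineDer φ D) {v : ℝ}
    (hv0 : 0 ≤ v) (G : Mat m) (h : Vec m) :
    ∫ r, ∑ a, ((φ a G (h + rv v r) - φ a G (h - rv v r)) / 2) ^ 2 ∂gauss (Fin m) ≤
      v ^ 2 / 2 * (∫ r, ∫ s, tot D G (h + fun k => s * v + √v * r k) ∂seg ∂gauss (Fin m)) +
      v * ∫ r, ∑ a, ∑ k, ((D a k G (h + rv v r) + D a k G (h - rv v r)) / 2) ^ 2
        ∂gauss (Fin m) := by
  have hcr : Continuous fun r : Fin m → ℝ => (G, h + rv v r) := by unfold rv; fun_prop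
  have hcr' : Continuous fun r : Fin m → ℝ => (G, h - rv v r) := by unfold rv; fun_prop
  have hXc : ∀ a, Continuous fun r => (φ a G (h + rv v r) - φ a G (h - rv v r)) / 2 :=
    fun a => ((((hφ a).1.comp hcr)).sub ((hφ a).1.comp hcr')).div_const 2
  have hYc : ∀ a k, Continuous fun r =>
      √v * ((D a k G (h + rv v r) + D a k G (h - rv v r)) / 2) := fun a k =>
    continuous_const.mul ((((hD a k).1.comp hcr).add ((hD a k).1.comp hcr')).div_const 2)
  have hX : ∀ a, MemLp (fun r => (φ a G (h + rv v r) - φ a G (h - rv v r)) / 2) 2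
      (gauss (Fin m)) := fun a => by
    obtain ⟨B, hB⟩ := (hφ a).2
    refine MemLp.of_bound (hXc a).aestronglyMeasurable B (ae_of_all _ fun r => ?_)
    have h1 := abs_le.1 (hB G (h + rv v r))
    have h2 := abs_le.1 (hB G (h - rv v r))
    rw [norm_eq_abs, abs_le]; constructor <;> linarith
  have hY : ∀ k a, Integrable (fun r =>
      (√v * ((D a k G (h + rv v r) + D a k G (h - rv v r)) / 2)) ^ 2)
        (gauss (Fin m)) := fun k a => by
    obtain ⟨B, hB⟩ := (hD a k).2
    refine integrable_gauss_bound ((hYc a k).pow 2) (B := v * B ^ 2) fun r => ?_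
    have h1 := abs_le.1 (hB G (h + rv v r))
    have h2 := abs_le.1 (hB G (h - rv v r))
    rw [abs_of_nonneg (sq_nonneg _), mul_pow, sq_sqrt hv0]
    exact mul_le_mul_of_nonneg_left (sq_le_sq' (by linarith) (by linarith)) hv0
  refine (poincare_vec (ι := Fin m) (F := fun a r => (φ a G (h + rv v r) -
      φ a G (h - rv v r)) / 2)
    (D := fun k a r => √v * ((D a k G (h + rv v r) + D a k G (h - rv v r)) / 2))
    hXc hX (fun k a => hYc a k) (fun k a r t => by simpa only [update_eq_upd] using hasDerivAt_half hd v G h k a r t)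
    hY).trans ?_
  refine add_le_add (mean_row_le hφ hD hd v G h) (le_of_eq ?_)
  simp only [mul_pow, sq_sqrt hv0, ← mul_sum]
  exact integral_const_mul v _

/-- **The self-bounding inequality.** -/
theorem del_sq_le (hτ : 0 ≤ τ) (hmn : m ≤ n) (i : Fin (m + 1)) (hφ : ∀ a, Bd (φ a))
    (hD : ∀ a k, Bd (D a k)) (hd : LineDer φ D) :
    pEv b n (m + 1) τ (fun J u => ∑ a, del i (φ a) J u ^ 2) ≤
      (b ^ 2 / n) ^ 2 * exp (2 * b ^ 2) *
          √(pEv b n m (τ + b ^ 2 / n) fun J u => tot D J u ^ 2) +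
        b ^ 2 / n * pEv b n (m + 1) τ (fun J u => ∑ a, ∑ k, bar i (D a k) J u ^ 2) := by
  set v := b ^ 2 / (n:ℝ) with hv
  have hv0 : 0 ≤ v := by positivity
  have hA := Bd.sum (s := (univ : Finset κ)) fun a => ((hφ a).delI i).pow 2
  have hB := Bd.sum (s := (univ : Finset κ)) fun a =>
    Bd.sum (s := (univ : Finset (Fin m))) fun k => ((hD a k).barI i).pow 2
  rw [pEv_row hA i fun g r t => sum_congr rfl fun a _ => by rw [del_join v τ i g r t],
    pEv_row hB i fun g r t => sum_congr rfl fun a _ => sum_congr rfl fun k _ => by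
      rw [bar_join v τ i g r t]]
  set G := fun g : Idx m → ℝ => plJ v g
  set h := fun g : Idx m → ℝ => plU τ g
  have hrow : ∀ g, ∫ r, ∑ a, ((φ a (G g) (h g + rv v r) - φ a (G g) (h g - rv v r)) / 2) ^ 2
        ∂gauss (Fin m) ≤
      v ^ 2 / 2 * (∫ r, ∫ s, tot D (G g) (h g + fun k => s * v + √v * r k) ∂seg ∂gauss (Fin m)) +
      v * ∫ r, ∑ a, ∑ k, ((D a k (G g) (h g + rv v r) + D a k (G g) (h g - rv v r)) / 2) ^ 2
        ∂gauss (Fin m) :=
    fun g => row_sq_le hφ hD hd hv0 (G g) (h g)
  have hj : Continuous fun q : (Idx m → ℝ) × (Fin m → ℝ) => (plJ v q.1, plU τ q.1 + rv v q.2) :=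
    ((continuous_plJ v).comp continuous_fst).prodMk
      (((continuous_plU τ).comp continuous_fst).add (by unfold rv; fun_prop))
  have hj' : Continuous fun q : (Idx m → ℝ) × (Fin m → ℝ) => (plJ v q.1, plU τ q.1 - rv v q.2) :=
    ((continuous_plJ v).comp continuous_fst).prodMk
      (((continuous_plU τ).comp continuous_fst).sub (by unfold rv; fun_prop))
  have iA : Integrable (fun g => ∫ r, ∑ a, ((φ a (G g) (h g + rv v r) -
      φ a (G g) (h g - rv v r)) / 2) ^ 2 ∂gauss (Fin m)) (gauss (Idx m)) := by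
    refine Integrable.integral_prod_left (f := fun q : (Idx m → ℝ) × (Fin m → ℝ) =>
      ∑ a, ((φ a (G q.1) (h q.1 + rv v q.2) - φ a (G q.1) (h q.1 - rv v q.2)) / 2) ^ 2) ?_
    refine integrable_finsetSum _ fun a _ => ?_
    obtain ⟨B, hB⟩ := (hφ a).2
    refine Integrable.of_bound ((((hφ a).1.comp hj).sub ((hφ a).1.comp hj')).div_const 2
      |>.pow 2).aestronglyMeasurable (B ^ 2) (ae_of_all _ fun q => ?_)
    have h1 := abs_le.1 (hB (G q.1) (h q.1 + rv v q.2))
    have h2 := abs_le.1 (hB (G q.1) (h q.1 - rv v q.2))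
    rw [norm_eq_abs, abs_of_nonneg (sq_nonneg _)]
    exact sq_le_sq' (by linarith) (by linarith)
  have iB : Integrable (fun g => v * ∫ r, ∑ a, ∑ k, ((D a k (G g) (h g + rv v r) +
      D a k (G g) (h g - rv v r)) / 2) ^ 2 ∂gauss (Fin m)) (gauss (Idx m)) := by
    refine Integrable.const_mul ?_ v
    refine Integrable.integral_prod_left (f := fun q : (Idx m → ℝ) × (Fin m → ℝ) =>
      ∑ a, ∑ k, ((D a k (G q.1) (h q.1 + rv v q.2) + D a k (G q.1) (h q.1 - rv v q.2)) / 2) ^ 2) ?_
    refine integrable_finsetSum _ fun a _ => integrable_finsetSum _ fun k _ => ?_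
    obtain ⟨B, hB⟩ := (hD a k).2
    refine Integrable.of_bound ((((hD a k).1.comp hj).add ((hD a k).1.comp hj')).div_const 2
      |>.pow 2).aestronglyMeasurable (B ^ 2) (ae_of_all _ fun q => ?_)
    have h1 := abs_le.1 (hB (G q.1) (h q.1 + rv v q.2))
    have h2 := abs_le.1 (hB (G q.1) (h q.1 - rv v q.2))
    rw [norm_eq_abs, abs_of_nonneg (sq_nonneg _)]
    exact sq_le_sq' (by linarith) (by linarith)
  have iM : Integrable (fun g => v ^ 2 / 2 * ∫ r, ∫ s,
      tot D (G g) (h g + fun k => s * v + √v * r k) ∂seg ∂gauss (Fin m)) (gauss (Idx m)) := by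
    refine Integrable.const_mul ?_ _
    obtain ⟨B, hB⟩ := (bd_tot hD).2
    refine Integrable.of_bound (C := |B| * seg.real Set.univ) ?_ (ae_of_all _ fun g => ?_)
    · have hc : StronglyMeasurable fun q : ((Idx m → ℝ) × (Fin m → ℝ)) × ℝ =>
          tot D (G q.1.1) (h q.1.1 + fun k => q.2 * v + √v * q.1.2 k) :=
        ((bd_tot hD).1.comp (f := fun q : ((Idx m → ℝ) × (Fin m → ℝ)) × ℝ =>
          (plJ v q.1.1, plU τ q.1.1 + fun k => q.2 * v + √v * q.1.2 k))
          (((continuous_plJ v).comp (continuous_fst.comp continuous_fst)).prodMk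
            (((continuous_plU τ).comp (continuous_fst.comp continuous_fst)).add
              (by fun_prop)))).stronglyMeasurable
      exact hc.integral_prod_right'.integral_prod_right'.aestronglyMeasurable
    · refine (norm_integral_le_of_norm_le_const (C := |B| * seg.real Set.univ)
        (ae_of_all _ fun r => norm_integral_le_of_norm_le_const (C := |B|)
          (ae_of_all _ fun s => (hB _ _).trans (le_abs_self _)))).trans ?_
      simp
  refine (integral_mono iA (iM.add iB) hrow).trans ?_
  rw [integral_add' iM iB, integral_const_mul, integral_const_mul]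
  refine add_le_add ?_ le_rfl
  have := mul_le_mul_of_nonneg_left (mean_avg_le (b := b) (bd_tot hD) hτ hmn)
    (by positivity : 0 ≤ v ^ 2 / 2)
  linarith

end Vale.Agent.P150.Weak.Rec
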