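import Vale.Agent.P150.Weak.Upd
import Vale.Agent.P150.Weak.Rec.Row
import Vale.Agent.P150.Weak.Gauss.MP

/-!
Crude moments of half sums and half differences at a spin, of every order.
-/

open MeasureTheory ProbabilityTheory Finset Real

namespace Vale.Agent.P150.Weak.Rec

open Gap

variable {m : ℕ} {κ : Type*} [Fintype κ] {b : ℝ} {n : ℕ} {τ : ℝ}
  {φ : κ → Mat m → Vec m → ℝ} {D : κ → Fin m → Mat m → Vec m → ℝ}

/-- Jensen for powers of a bounded nonnegative function. -/
lemma pow_integral_le {α : Type*} [MeasurableSpace α] {μ : Measure α} [IsProbabilityMeasure μ]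
    {f : α → ℝ} (h0 : ∀ x, 0 ≤ f x) (hf : Integrable f μ) {p : ℕ}
    (hfp : Integrable (fun x => f x ^ p) μ) : (∫ x, f x ∂μ) ^ p ≤ ∫ x, f x ^ p ∂μ :=
  (convexOn_pow p).map_integral_le (g := fun x : ℝ => x ^ p) (continuous_pow p).continuousOn
    isClosed_Ici (ae_of_all _ fun x => Set.mem_Ici.2 (h0 x)) hf hfp

lemma add_pow_two_le {x y : ℝ} (hx : 0 ≤ x) (hy : 0 ≤ y) (p : ℕ) :
    (x + y) ^ p ≤ 2 ^ p * (x ^ p + y ^ p) := by
  calc (x + y) ^ p ≤ (2 * max x y) ^ p :=
        pow_le_pow_left₀ (by positivity) (by linarith [le_max_left x y, le_max_right x y]) p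
    _ = 2 ^ p * max x y ^ p := mul_pow _ _ _
    _ ≤ _ := mul_le_mul_of_nonneg_left (by
        rcases max_choice x y with h | h <;> rw [h] <;>
          linarith [pow_nonneg hx p, pow_nonneg hy p]) (by positivity)

lemma half_pow_le {x y : ℝ} (hx : 0 ≤ x) (hy : 0 ≤ y) (p : ℕ) :
    ((x + y) / 2) ^ p ≤ (x ^ p + y ^ p) / 2 := by
  have := (convexOn_pow (𝕜 := ℝ) p).2 (Set.mem_Ici.2 hx) (Set.mem_Ici.2 hy)
    (show (0:ℝ) ≤ 1 / 2 by norm_num) (show (0:ℝ) ≤ 1 / 2 by norm_num) (by norm_num)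
  simp only [smul_eq_mul] at this
  calc ((x + y) / 2) ^ p = (1 / 2 * x + 1 / 2 * y) ^ p := by ring
    _ ≤ _ := this
    _ = _ := by ring

lemma bar_pow_le (p : ℕ) (i : Fin (m + 1)) (J : Mat (m + 1)) (u : Vec (m + 1)) :
    (∑ a, bar i (φ a) J u ^ 2) ^ p ≤ bar i (fun G w => (∑ a, φ a G w ^ 2) ^ p) J u := by
  simp only [bar, smul_eq_mul]
  refine (pow_le_pow_left₀ (sum_nonneg fun a _ => sq_nonneg _) ?_ p).trans
    ((half_pow_le (x := ∑ a, φ a (Weak.sub i J) (subU i u + rowOf i J) ^ 2)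
      (y := ∑ a, φ a (Weak.sub i J) (subU i u - rowOf i J) ^ 2)
      (sum_nonneg fun a _ => sq_nonneg _) (sum_nonneg fun a _ => sq_nonneg _) p).trans_eq
      (by ring))
  rw [← sum_add_distrib, sum_div]
  exact sum_le_sum fun a _ => by
    nlinarith [sq_nonneg (φ a (Weak.sub i J) (subU i u + rowOf i J) -
      φ a (Weak.sub i J) (subU i u - rowOf i J))]

lemma del_pow_le' (p : ℕ) (i : Fin (m + 1)) (J : Mat (m + 1)) (u : Vec (m + 1)) :
    (∑ a, del i (φ a) J u ^ 2) ^ p ≤ bar i (fun G w => (∑ a, φ a G w ^ 2) ^ p) J u := by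
  simp only [bar, del, smul_eq_mul]
  refine (pow_le_pow_left₀ (sum_nonneg fun a _ => sq_nonneg _) ?_ p).trans
    ((half_pow_le (x := ∑ a, φ a (Weak.sub i J) (subU i u + rowOf i J) ^ 2)
      (y := ∑ a, φ a (Weak.sub i J) (subU i u - rowOf i J) ^ 2)
      (sum_nonneg fun a _ => sq_nonneg _) (sum_nonneg fun a _ => sq_nonneg _) p).trans_eq
      (by ring))
  rw [← sum_add_distrib, sum_div]
  exact sum_le_sum fun a _ => by
    nlinarith [sq_nonneg (φ a (Weak.sub i J) (subU i u + rowOf i J) +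
      φ a (Weak.sub i J) (subU i u - rowOf i J))]

/-- Half sums are crude. -/
theorem bar_pow_crude (hφ : ∀ a, Bd (φ a)) (hτ : 0 ≤ τ) (hmn : m ≤ n) (i : Fin (m + 1)) (p : ℕ) :
    pEv b n (m + 1) τ (fun J u => (∑ a, bar i (φ a) J u ^ 2) ^ p) ≤
      exp (2 * b ^ 2) *
        √(pEv b n m (τ + b ^ 2 / n) fun J u => (∑ a, φ a J u ^ 2) ^ (2 * p)) := by
  have hS := (Bd.sum (s := (univ : Finset κ)) fun a => (hφ a).pow 2).pow p
  refine (pEv_mono ((Bd.sum fun a => ((hφ a).barI i).pow 2).pow p) (hS.barI i)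
    fun J u _ => bar_pow_le p i J u).trans ((bar_crude hS hτ hmn i).trans_eq ?_)
  simp only [← pow_mul, mul_comm p]

/-- Half differences are crude. -/
theorem del_pow_crude (hφ : ∀ a, Bd (φ a)) (hτ : 0 ≤ τ) (hmn : m ≤ n) (i : Fin (m + 1)) (p : ℕ) :
    pEv b n (m + 1) τ (fun J u => (∑ a, del i (φ a) J u ^ 2) ^ p) ≤
      exp (2 * b ^ 2) *
        √(pEv b n m (τ + b ^ 2 / n) fun J u => (∑ a, φ a J u ^ 2) ^ (2 * p)) := by
  have hS := (Bd.sum (s := (univ : Finset κ)) fun a => (hφ a).pow 2).pow p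
  refine (pEv_mono ((Bd.sum fun a => ((hφ a).delI i).pow 2).pow p) (hS.barI i)
    fun J u _ => del_pow_le' p i J u).trans ((bar_crude hS hτ hmn i).trans_eq ?_)
  simp only [← pow_mul, mul_comm p]

/-- The split coordinates. -/
noncomputable def jn (v τ : ℝ) (i : Fin (m + 1)) (q : (Idx m → ℝ) × (Fin m → ℝ)) :
    Mat (m + 1) × Vec (m + 1) :=
  (plJ v (join i q.1 q.2 0), plU τ (join i q.1 q.2 0))

lemma continuous_jn (v τ : ℝ) (i : Fin (m + 1)) : Continuous (jn v τ i) := by
  have hj : Continuous fun q : (Idx m → ℝ) × (Fin m → ℝ) => join i q.1 q.2 0 := by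
    refine continuous_pi fun k => ?_
    simp only [join]
    rcases (idxEquiv i).symm k with a | a | a <;> simp only [Sum.elim_inl, Sum.elim_inr] <;>
      fun_prop
  exact ((continuous_plJ v).comp hj).prodMk ((continuous_plU τ).comp hj)

lemma row_continuous {F : Mat (m + 1) → Vec (m + 1) → ℝ} (hF : Bd F) (v τ : ℝ) (i : Fin (m + 1)) :
    Continuous fun q => F (jn v τ i q).1 (jn v τ i q).2 := hF.1.comp (continuous_jn v τ i)

lemma row_integrable {F : Mat (m + 1) → Vec (m + 1) → ℝ} (hF : Bd F) (v τ : ℝ) (i : Fin (m + 1)) :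
    (∀ g, Integrable (fun r => F (jn v τ i (g, r)).1 (jn v τ i (g, r)).2) (gauss (Fin m))) ∧
      Integrable (fun g => ∫ r, F (jn v τ i (g, r)).1 (jn v τ i (g, r)).2 ∂gauss (Fin m))
        (gauss (Idx m)) := by
  obtain ⟨B, hB⟩ := hF.2
  refine ⟨fun g => integrable_gauss_bound ((row_continuous hF v τ i).comp
    (Continuous.prodMk_right g)) fun r => hB _ _, ?_⟩
  exact (Integrable.of_bound (μ := (gauss (Idx m)).prod (gauss (Fin m)))
    (row_continuous hF v τ i).aestronglyMeasurable B (ae_of_all _ fun q => hB _ _)).integral_prod_left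

/-- **Moments of half differences.** -/
theorem del_pow_bar (hτ : 0 ≤ τ) (hmn : m ≤ n) (i : Fin (m + 1)) (hφ : ∀ a, Bd (φ a))
    (hD : ∀ a k, Bd (D a k)) (hd : LineDer φ D) {p : ℕ} (hp : 1 ≤ p) :
    pEv b n (m + 1) τ (fun J u => (∑ a, del i (φ a) J u ^ 2) ^ p) ≤
      4 ^ p * ((10 * p) ^ p * (b ^ 2 / n) ^ p *
          pEv b n (m + 1) τ (fun J u => (∑ a, ∑ k, bar i (D a k) J u ^ 2) ^ p) +
        (b ^ 2 / n) ^ (2 * p) * (exp (2 * b ^ 2) *
          √(pEv b n m (τ + b ^ 2 / n) fun J u => tot D J u ^ (2 * p)))) := by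
  set v := b ^ 2 / (n:ℝ) with hv
  have hv0 : 0 ≤ v := by positivity
  have hA := (Bd.sum (s := (univ : Finset κ)) fun a => ((hφ a).delI i).pow 2).pow p
  have hB := (Bd.sum (s := (univ : Finset κ)) fun a =>
    Bd.sum (s := (univ : Finset (Fin m))) fun k => ((hD a k).barI i).pow 2).pow p
  set G := fun g : Idx m → ℝ => plJ v g with hG
  set h := fun g : Idx m → ℝ => plU τ g with hh
  set ν := (2⁻¹ : ENNReal) • seg with hν
  have : IsProbabilityMeasure ((gauss (Fin m)).prod ν) := by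
    have : IsProbabilityMeasure ν := ⟨by simp [hν, seg]; norm_num [ENNReal.inv_mul_cancel]⟩
    infer_instance
  set R := fun g => ∫ q : (Fin m → ℝ) × ℝ,
    tot D (G g) (h g + fun k => q.2 * v + √v * q.1 k) ^ p ∂(gauss (Fin m)).prod ν with hR
  have hT0 : ∀ J u, 0 ≤ tot D J u := fun J u => sum_nonneg fun a _ => sq_nonneg _
  have htc : ∀ (j : ℕ) g, Continuous fun q : (Fin m → ℝ) × ℝ =>
      tot D (G g) (h g + fun k => q.2 * v + √v * q.1 k) ^ j := fun j g =>
    ((bd_tot hD).1.comp (f := fun q : (Fin m → ℝ) × ℝ =>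
      (G g, h g + fun k => q.2 * v + √v * q.1 k))
      (continuous_const.prodMk (continuous_const.add (by fun_prop)))).pow j
  have hti : ∀ (j : ℕ) g, Integrable (fun q : (Fin m → ℝ) × ℝ =>
      tot D (G g) (h g + fun k => q.2 * v + √v * q.1 k) ^ j) ((gauss (Fin m)).prod ν) := by
    intro j g
    obtain ⟨B, hB'⟩ := ((bd_tot hD).pow j).2
    exact Integrable.of_bound (htc j g).aestronglyMeasurable B (ae_of_all _ fun q => hB' _ _)
  have hrow : ∀ g, ∫ r, (∑ a, del i (φ a) (jn v τ i (g, r)).1 (jn v τ i (g, r)).2 ^ 2) ^ p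
        ∂gauss (Fin m) ≤
      4 ^ p * ((10 * p) ^ p * v ^ p * ∫ r, (∑ a, ∑ k,
          bar i (D a k) (jn v τ i (g, r)).1 (jn v τ i (g, r)).2 ^ 2) ^ p ∂gauss (Fin m) +
        v ^ (2 * p) * R g) := by
    intro g
    set X := fun a r => del i (φ a) (jn v τ i (g, r)).1 (jn v τ i (g, r)).2
    set Y := fun k a r => √v * bar i (D a k) (jn v τ i (g, r)).1 (jn v τ i (g, r)).2
    set μ := fun a => ∫ r, X a r ∂gauss (Fin m)
    have eX : ∀ a r, X a r = (φ a (G g) (h g + rv v r) - φ a (G g) (h g - rv v r)) / 2 :=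
      fun a r => del_join v τ i g r 0
    have eY : ∀ k a r,
        Y k a r = √v * ((D a k (G g) (h g + rv v r) + D a k (G g) (h g - rv v r)) / 2) :=
      fun k a r => congrArg (√v * ·) (bar_join v τ i g r 0)
    have eA : ∀ r, ∑ a, ∑ k, Y k a r ^ 2 =
        v * ∑ a, ∑ k, bar i (D a k) (jn v τ i (g, r)).1 (jn v τ i (g, r)).2 ^ 2 := fun r => by
      simp only [Y, mul_pow, sq_sqrt hv0, mul_sum]
    have hiA : Integrable (fun r => (∑ a, ∑ k, Y k a r ^ 2) ^ p) (gauss (Fin m)) := by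
      simp only [eA, mul_pow]
      exact ((row_integrable hB v τ i).1 g).const_mul _
    obtain ⟨-, hi2, hle⟩ := mp_moment (F := X) (D := Y)
      (fun a => (row_continuous ((hφ a).delI i) v τ i).comp (Continuous.prodMk_right g))
      (fun k a => continuous_const.mul
        ((row_continuous ((hD a k).barI i) v τ i).comp (Continuous.prodMk_right g)))
      (fun k a r t => by
        rw [eY]
        simp only [eX]
        simpa only [update_eq_upd] using hasDerivAt_half hd v (G g) (h g) k a r t) hp hiA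
    have hμ : (∑ a, μ a ^ 2) ^ p ≤ v ^ (2 * p) * R g := by
      have hm := mean_row_le hφ hD hd v (G g) (h g)
      simp only [μ, eX]
      refine (pow_le_pow_left₀ (sum_nonneg fun a _ => sq_nonneg _) hm p).trans ?_
      rw [← integral_prod (fun q : (Fin m → ℝ) × ℝ =>
        tot D (G g) (h g + fun k => q.2 * v + √v * q.1 k)) ?_]
      swap
      · obtain ⟨B, hB'⟩ := (bd_tot hD).2
        exact Integrable.of_bound (by simpa using (htc 1 g).aestronglyMeasurable) B
          (ae_of_all _ fun q => hB' _ _)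
      have e2 : ∀ f : (Fin m → ℝ) × ℝ → ℝ, ∫ q, f q ∂(gauss (Fin m)).prod seg =
          2 * ∫ q, f q ∂(gauss (Fin m)).prod ν := fun f => by
        rw [hν, Measure.prod_smul_right, integral_smul_measure]
        simp
      rw [e2, ← mul_assoc, div_mul_cancel₀ _ two_ne_zero, mul_pow, ← pow_mul]
      refine mul_le_mul_of_nonneg_left ?_ (pow_nonneg hv0 _)
      exact pow_integral_le (fun q => hT0 _ _) (by simpa using hti 1 g) (hti p g)
    have hpt : ∀ r, (∑ a, X a r ^ 2) ^ p ≤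
        4 ^ p * ((∑ a, (X a r - μ a) ^ 2) ^ p + (∑ a, μ a ^ 2) ^ p) := fun r => by
      have h1 : ∑ a, X a r ^ 2 ≤ 2 * ∑ a, (X a r - μ a) ^ 2 + 2 * ∑ a, μ a ^ 2 := by
        rw [mul_sum, mul_sum, ← sum_add_distrib]
        exact sum_le_sum fun a _ => by nlinarith [sq_nonneg (X a r - 2 * μ a)]
      refine ((pow_le_pow_left₀ (sum_nonneg fun a _ => sq_nonneg _) h1 p).trans
        (add_pow_two_le (by positivity) (by positivity) p)).trans_eq ?_
      rw [mul_pow, mul_pow, ← mul_add, ← mul_assoc, ← mul_pow]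
      norm_num
    refine (integral_mono ((row_integrable hA v τ i).1 g)
      ((hi2.add (integrable_const _)).const_mul (4 ^ p)) hpt).trans ?_
    rw [integral_const_mul, integral_add' hi2 (integrable_const _), integral_const, probReal_univ,
      one_smul]
    refine mul_le_mul_of_nonneg_left (add_le_add (hle.trans_eq ?_) hμ) (by positivity)
    simp only [eA, mul_pow, integral_const_mul, mul_assoc]
  rw [pEv_row hA i (f := fun g r =>
    (∑ a, del i (φ a) (jn v τ i (g, r)).1 (jn v τ i (g, r)).2 ^ 2) ^ p) fun g r t => by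
      simp only [jn, del_join, ← hv]]
  rw [pEv_row hB i (f := fun g r =>
    (∑ a, ∑ k, bar i (D a k) (jn v τ i (g, r)).1 (jn v τ i (g, r)).2 ^ 2) ^ p) fun g r t => by
      simp only [jn, bar_join, ← hv]]
  have hRi : Integrable R (gauss (Idx m)) := by
    obtain ⟨B, hB'⟩ := ((bd_tot hD).pow p).2
    refine Integrable.of_bound (C := |B|) ?_ (ae_of_all _ fun g => ?_)
    · have hc : StronglyMeasurable fun q : (Idx m → ℝ) × ((Fin m → ℝ) × ℝ) =>
          tot D (G q.1) (h q.1 + fun k => q.2.2 * v + √v * q.2.1 k) ^ p :=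
        (((bd_tot hD).pow p).1.comp (f := fun q : (Idx m → ℝ) × ((Fin m → ℝ) × ℝ) =>
          (plJ v q.1, plU τ q.1 + fun k => q.2.2 * v + √v * q.2.1 k))
          (((continuous_plJ v).comp continuous_fst).prodMk
            (((continuous_plU τ).comp continuous_fst).add (by fun_prop)))).stronglyMeasurable
      exact hc.integral_prod_right'.aestronglyMeasurable
    · refine (norm_integral_le_of_norm_le_const (C := |B|)
        (ae_of_all _ fun q => (hB' _ _).trans (le_abs_self _))).trans ?_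
      simp
  refine (integral_mono (row_integrable hA v τ i).2
    ((((row_integrable hB v τ i).2.const_mul _).add (hRi.const_mul _)).const_mul _) hrow).trans ?_
  rw [integral_const_mul, integral_add' ((row_integrable hB v τ i).2.const_mul _) (hRi.const_mul _),
    integral_const_mul, integral_const_mul]
  refine mul_le_mul_of_nonneg_left (add_le_add le_rfl
    (mul_le_mul_of_nonneg_left ?_ (pow_nonneg hv0 _))) (by positivity)
  have hψ := mean_avg_le (b := b) (n := n) (τ := τ) ((bd_tot hD).pow p) hτ hmn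
  simp only [← pow_mul, mul_comm p] at hψ
  have e3 : ∀ g, R g = 2⁻¹ * ∫ r, ∫ s, tot D (G g) (h g + fun k => s * v + √v * r k) ^ p
      ∂seg ∂gauss (Fin m) := fun g => by
    simp only [hR, hν, Measure.prod_smul_right, integral_smul_measure]
    simp only [smul_eq_mul, ENNReal.toReal_inv, ENNReal.toReal_ofNat]
    congr 1
    refine integral_prod _ ?_
    obtain ⟨B, hB'⟩ := ((bd_tot hD).pow p).2
    exact Integrable.of_bound (htc p g).aestronglyMeasurable B (ae_of_all _ fun q => hB' _ _)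
  simp only [e3, integral_const_mul]
  simp only [hG, hh]
  linarith

/-- **Moments of half differences**, crude form. -/
theorem del_pow_le (hτ : 0 ≤ τ) (hmn : m ≤ n) (i : Fin (m + 1)) (hφ : ∀ a, Bd (φ a))
    (hD : ∀ a k, Bd (D a k)) (hd : LineDer φ D) {p : ℕ} (hp : 1 ≤ p) :
    pEv b n (m + 1) τ (fun J u => (∑ a, del i (φ a) J u ^ 2) ^ p) ≤
      4 ^ p * ((10 * p) ^ p * (b ^ 2 / n) ^ p * (exp (2 * b ^ 2) *
          √(pEv b n m (τ + b ^ 2 / n) fun J u => (∑ a, ∑ k, D a k J u ^ 2) ^ (2 * p))) +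
        (b ^ 2 / n) ^ (2 * p) * (exp (2 * b ^ 2) *
          √(pEv b n m (τ + b ^ 2 / n) fun J u => tot D J u ^ (2 * p)))) := by
  refine (del_pow_bar hτ hmn i hφ hD hd hp).trans (mul_le_mul_of_nonneg_left
    (add_le_add (mul_le_mul_of_nonneg_left ?_ (by positivity)) le_rfl) (by positivity))
  have := bar_pow_crude (b := b) (φ := fun ak : κ × Fin m => D ak.1 ak.2)
    (fun ak => hD ak.1 ak.2) hτ hmn i p
  simpa only [Fintype.sum_prod_type] using this

end Vale.Agent.P150.Weak.Rec
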