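import Vale.Agent.P150.Weak.Upd
import Vale.Agent.P150.Weak.Rec.Pow
import Vale.Agent.P150.Weak.Rec.Basic

/-!
The truncated self-bounding inequality: the smooth positive part of `√(1 + N) - a`, `N` the squared
half differences at a spin, costs only the half sums on the event where `N` or its row bound is
large, and a small remainder.
-/

open MeasureTheory ProbabilityTheory Finset Real

namespace Vale.Agent.P150.Weak.Rec

open Gap

variable {m : ℕ} {κ : Type*} [Fintype κ] {b : ℝ} {n : ℕ} {τ : ℝ}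
  {φ : κ → Mat m → Vec m → ℝ} {D : κ → Fin m → Mat m → Vec m → ℝ}

lemma Bd.comp {ψ : Mat m → Vec m → ℝ} (h : Bd ψ) {f : ℝ → ℝ} (hf : Continuous f) :
    Bd fun J u => f (ψ J u) := by
  obtain ⟨B, hB⟩ := h.2
  obtain ⟨C, hC⟩ := isCompact_Icc.exists_bound_of_continuousOn (s := Set.Icc (-B) B) hf.continuousOn
  exact Bd.of_le (hf.comp h.1) fun J u => hC _ (abs_le.1 (hB J u))

lemma continuous_rho (a : ℝ) : Continuous (rho a) :=
  continuous_iff_continuousAt.2 fun t => (hasDerivAt_rho a t).continuousAt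

lemma rho_le_self {a t : ℝ} (ha : 0 ≤ a) (ht : 0 ≤ t) : rho a t ≤ t :=
  (rho_le a t).trans (max_le (by linarith) ht)

lemma rho_le_sq_div {a t : ℝ} (ha : 0 < a) : rho a t ≤ t ^ 2 / a := by
  refine (rho_le a t).trans (max_le ?_ (by positivity))
  rw [le_div_iff₀ ha]
  nlinarith [sq_nonneg (t - a)]

/-- The per-row bound of the squared half differences. -/
noncomputable def rowMean (D : κ → Fin m → Mat m → Vec m → ℝ) (v : ℝ) (G : Mat m) (h : Vec m) :
    ℝ :=
  v ^ 2 / 2 * ∫ r, ∫ s, tot D G (h + fun k => s * v + √v * r k) ∂seg ∂gauss (Fin m)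

/-- The per-row bound of the squared half differences, in full. -/
noncomputable def rowQ (D : κ → Fin m → Mat m → Vec m → ℝ) (v : ℝ) (G : Mat m) (h : Vec m) : ℝ :=
  rowMean D v G h + v * ∫ r, ∑ a, ∑ k, ((D a k G (h + rv v r) + D a k G (h - rv v r)) / 2) ^ 2
    ∂gauss (Fin m)

lemma rowMean_nonneg (v : ℝ) (G : Mat m) (h : Vec m) : 0 ≤ rowMean D v G h :=
  mul_nonneg (by positivity) (integral_nonneg fun _ => integral_nonneg fun _ =>
    sum_nonneg fun _ _ => sq_nonneg _)

lemma rowQ_nonneg {v : ℝ} (hv : 0 ≤ v) (G : Mat m) (h : Vec m) : 0 ≤ rowQ D v G h :=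
  add_nonneg (rowMean_nonneg v G h) (mul_nonneg hv (integral_nonneg fun _ =>
    sum_nonneg fun _ _ => sum_nonneg fun _ _ => sq_nonneg _))

/-- **The truncated inequality over the row.** -/
theorem psi_row (hφ : ∀ a, Bd (φ a)) (hD : ∀ a k, Bd (D a k)) (hd : LineDer φ D) {v : ℝ}
    (hv0 : 0 ≤ v) (G : Mat m) (h : Vec m) {a L θ : ℝ} (ha : 0 < a) (hL : 0 < L) (hθ : 0 < θ)
    {Sb : (Fin m → ℝ) → ℝ} (hSi : Integrable Sb (gauss (Fin m))) (hS0 : ∀ r, 0 ≤ Sb r)
    (hS : ∀ r, (L < rowQ D v G h ∨
        a < √(1 + ∑ c, ((φ c G (h + rv v r) - φ c G (h - rv v r)) / 2) ^ 2)) →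
      ∑ c, ∑ k, ((D c k G (h + rv v r) + D c k G (h - rv v r)) / 2) ^ 2 ≤ Sb r) :
    ∫ r, rho a (√(1 + ∑ c, ((φ c G (h + rv v r) - φ c G (h - rv v r)) / 2) ^ 2)) ^ 2
        ∂gauss (Fin m) ≤
      (1 + L) ^ 2 / a ^ 2 + θ * (rowQ D v G h / L) + (1 + rowMean D v G h) ^ 2 / θ +
        v * ∫ r, Sb r ∂gauss (Fin m) := by
  set Q := rowQ D v G h with hQ
  set M := rowMean D v G h with hM
  set X := fun c r => (φ c G (h + rv v r) - φ c G (h - rv v r)) / 2 with hX
  set Y := fun c k r => (D c k G (h + rv v r) + D c k G (h - rv v r)) / 2 with hY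
  set N := fun r => ∑ c, X c r ^ 2 with hN
  set S := fun r => ∑ c, ∑ k, Y c k r ^ 2 with hSd
  have hcr : Continuous fun r : Fin m → ℝ => (G, h + rv v r) := by unfold rv; fun_prop
  have hcr' : Continuous fun r : Fin m → ℝ => (G, h - rv v r) := by unfold rv; fun_prop
  have hXc : ∀ c, Continuous (X c) := fun c =>
    (((hφ c).1.comp hcr).sub ((hφ c).1.comp hcr')).div_const 2
  have hYc : ∀ c k, Continuous (Y c k) := fun c k =>
    (((hD c k).1.comp hcr).add ((hD c k).1.comp hcr')).div_const 2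
  have hXb : ∀ c, ∃ B, ∀ r, |X c r| ≤ B := fun c => by
    obtain ⟨B, hB⟩ := (hφ c).2
    refine ⟨B, fun r => ?_⟩
    have h1 := abs_le.1 (hB G (h + rv v r))
    have h2 := abs_le.1 (hB G (h - rv v r))
    rw [abs_le]; simp only [hX]; constructor <;> linarith
  have hYb : ∀ c k, ∃ B, ∀ r, |Y c k r| ≤ B := fun c k => by
    obtain ⟨B, hB⟩ := (hD c k).2
    refine ⟨B, fun r => ?_⟩
    have h1 := abs_le.1 (hB G (h + rv v r))
    have h2 := abs_le.1 (hB G (h - rv v r))
    rw [abs_le]; simp only [hY]; constructor <;> linarith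
  choose BX hBX using hXb
  choose BY hBY using hYb
  have hNc : Continuous N := continuous_finsetSum _ fun c _ => (hXc c).pow 2
  have hSc : Continuous S :=
    continuous_finsetSum _ fun c _ => continuous_finsetSum _ fun k _ => (hYc c k).pow 2
  have hN0 : ∀ r, 0 ≤ N r := fun r => sum_nonneg fun c _ => sq_nonneg _
  have hS0' : ∀ r, 0 ≤ S r := fun r => sum_nonneg fun c _ => sum_nonneg fun k _ => sq_nonneg _
  have hNb : ∀ r, N r ≤ ∑ c, BX c ^ 2 := fun r =>
    sum_le_sum fun c _ => sq_le_sq' (abs_le.1 (hBX c r)).1 (abs_le.1 (hBX c r)).2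
  have hSb : ∀ r, S r ≤ ∑ c, ∑ k, BY c k ^ 2 := fun r =>
    sum_le_sum fun c _ => sum_le_sum fun k _ =>
      sq_le_sq' (abs_le.1 (hBY c k r)).1 (abs_le.1 (hBY c k r)).2
  have hNi : Integrable N (gauss (Fin m)) := integrable_gauss_bound hNc fun r => by
    rw [abs_of_nonneg (hN0 r)]; exact hNb r
  have hSi' : Integrable S (gauss (Fin m)) := integrable_gauss_bound hSc fun r => by
    rw [abs_of_nonneg (hS0' r)]; exact hSb r
  set ψ := fun r => rho a (√(1 + N r)) with hψ
  have hψc : Continuous ψ := (continuous_rho a).comp ((continuous_const.add hNc).sqrt)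
  have hψ0 : ∀ r, 0 ≤ ψ r := fun r => rho_nonneg _ _
  have hψ1 : ∀ r, ψ r ^ 2 ≤ 1 + N r := fun r =>
    (pow_le_pow_left₀ (hψ0 r) (rho_le_self ha.le (sqrt_nonneg _)) 2).trans_eq
      (sq_sqrt (by linarith [hN0 r]))
  have hψ2i : Integrable (fun r => ψ r ^ 2) (gauss (Fin m)) :=
    integrable_gauss_bound (hψc.pow 2) (B := 1 + ∑ c, BX c ^ 2) fun r => by
      rw [abs_of_nonneg (sq_nonneg _)]; linarith [hψ1 r, hNb r]
  have hNQ : ∫ r, N r ∂gauss (Fin m) ≤ Q := row_sq_le hφ hD hd hv0 G h
  have hQ0 : 0 ≤ Q := rowQ_nonneg hv0 G h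
  have hM0 : 0 ≤ M := rowMean_nonneg v G h
  have hSbi : 0 ≤ ∫ r, Sb r ∂gauss (Fin m) := integral_nonneg hS0
  show ∫ r, ψ r ^ 2 ∂gauss (Fin m) ≤ _
  rcases le_or_gt Q L with hle | hgt
  · set Dψ := fun (k : Fin m) r =>
      rho' a (√(1 + N r)) * (√v * (∑ c, X c r * Y c k r) / √(1 + N r)) with hDψ
    have hpos : ∀ r, 0 < √(1 + N r) := fun r => sqrt_pos.2 (by linarith [hN0 r])
    have hDc : ∀ k, Continuous (Dψ k) := fun k =>
      ((continuous_rho' a).comp ((continuous_const.add hNc).sqrt)).mul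
        ((continuous_const.mul (continuous_finsetSum _ fun c _ => (hXc c).mul (hYc c k))).div
          ((continuous_const.add hNc).sqrt) fun r => (hpos r).ne')
    have hDle : ∀ r, ∑ k, Dψ k r ^ 2 ≤ rho' a (√(1 + N r)) ^ 2 * (v * S r) := by
      intro r
      have hcs : ∑ k, (∑ c, X c r * Y c k r) ^ 2 ≤ N r * S r := by
        simp only [hN, hSd]
        rw [sum_comm (f := fun c k => Y c k r ^ 2), mul_sum]
        exact sum_le_sum fun k _ => sum_mul_sq_le_sq_mul_sq _ _ _
      have hN1 : (√(1 + N r)) ^ 2 = 1 + N r := sq_sqrt (by linarith [hN0 r])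
      calc ∑ k, Dψ k r ^ 2
          = rho' a (√(1 + N r)) ^ 2 * (v * ((∑ k, (∑ c, X c r * Y c k r) ^ 2) / (1 + N r))) := by
            simp only [hDψ, mul_pow, div_pow, sq_sqrt hv0, hN1, ← mul_sum, mul_div_assoc,
              ← sum_div]
        _ ≤ _ := by
            refine mul_le_mul_of_nonneg_left (mul_le_mul_of_nonneg_left ?_ hv0) (sq_nonneg _)
            rw [div_le_iff₀ (by linarith [hN0 r])]
            nlinarith [hS0' r]
    have hle2 : ∀ r, ∑ k, Dψ k r ^ 2 ≤ v * Sb r := fun r => by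
      refine (hDle r).trans ?_
      rcases le_or_gt (√(1 + N r)) a with h1 | h1
      · rw [rho'_eq_zero h1]
        simpa using mul_nonneg hv0 (hS0 r)
      · refine (mul_le_of_le_one_left (mul_nonneg hv0 (hS0' r))
          (pow_le_one₀ (rho'_nonneg _ _) (rho'_le_one _ _))).trans
          (mul_le_mul_of_nonneg_left (hS r (Or.inr h1)) hv0)
    have hDi : ∀ k, Integrable (fun r => Dψ k r ^ 2) (gauss (Fin m)) := fun k =>
      integrable_gauss_bound ((hDc k).pow 2) (B := v * ∑ c, ∑ k, BY c k ^ 2) fun r => by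
        rw [abs_of_nonneg (sq_nonneg _)]
        refine (single_le_sum (f := fun k => Dψ k r ^ 2) (fun k _ => sq_nonneg _) (mem_univ k)).trans
          ((hDle r).trans ((mul_le_of_le_one_left (mul_nonneg hv0 (hS0' r))
            (pow_le_one₀ (rho'_nonneg _ _) (rho'_le_one _ _))).trans
            (mul_le_mul_of_nonneg_left (hSb r) hv0)))
    have hder : ∀ k r t, HasDerivAt (fun s => ψ (Function.update r k s))
        (Dψ k (Function.update r k t)) t := by
      intro k r t
      have hn : HasDerivAt (fun s => 1 + N (Function.update r k s))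
          (∑ c, 2 * X c (Function.update r k t) * (√v * Y c k (Function.update r k t))) t := by
        refine (HasDerivAt.fun_sum fun c _ => ?_).const_add 1
        refine ((hasDerivAt_half hd v G h k c r t).pow 2).congr_deriv ?_
        simp only [hX, hY]
        push_cast
        ring
      refine ((hasDerivAt_rho a _).comp t
        (hn.sqrt (by linarith [hN0 (Function.update r k t)]))).congr_deriv ?_
      simp only [hDψ]
      congr 1
      have := hpos (Function.update r k t)
      simp only [mul_sum]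
      rw [sum_div, sum_div]
      refine sum_congr rfl fun c _ => ?_
      field_simp
    have hP := poincare (F := ψ) (D := Dψ) hψc
      ((memLp_two_iff_integrable_sq hψc.aestronglyMeasurable).2 hψ2i) hDc (fun k r t => by simpa only [update_eq_upd] using hder k r t) hDi
    have hmean : (∫ r, ψ r ∂gauss (Fin m)) ^ 2 ≤ (1 + L) ^ 2 / a ^ 2 := by
      rw [← div_pow]
      refine pow_le_pow_left₀ (integral_nonneg hψ0) ?_ 2
      refine (integral_mono_of_nonneg (ae_of_all _ hψ0) (((integrable_const 1).add hNi).div_const a)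
        (ae_of_all _ fun r => ?_)).trans ?_
      · refine (rho_le_sq_div ha).trans_eq ?_
        simp [sq_sqrt (show 0 ≤ 1 + N r by linarith [hN0 r])]
      · simp only [Pi.add_apply, integral_div]
        rw [integral_add (integrable_const _) hNi]
        simp only [integral_const, probReal_univ, one_smul]
        gcongr
        linarith
    have hint : ∫ r, ∑ k, Dψ k r ^ 2 ∂gauss (Fin m) ≤ v * ∫ r, Sb r ∂gauss (Fin m) := by
      rw [← integral_const_mul]
      exact integral_mono (integrable_finsetSum _ fun k _ => hDi k) (hSi.const_mul v) hle2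
    have h1 : 0 ≤ θ * (Q / L) := by positivity
    have h2 : 0 ≤ (1 + M) ^ 2 / θ := by positivity
    linarith
  · have h1 : ∫ r, ψ r ^ 2 ∂gauss (Fin m) ≤ 1 + Q := by
      refine (integral_mono hψ2i ((integrable_const (1:ℝ)).add hNi) hψ1).trans ?_
      rw [integral_add' (integrable_const (1:ℝ)) hNi]
      simp only [integral_const, probReal_univ, one_smul]
      linarith
    have h2 : ∫ r, S r ∂gauss (Fin m) ≤ ∫ r, Sb r ∂gauss (Fin m) :=
      integral_mono hSi' hSi fun r => hS r (Or.inl hgt)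
    have h3 : 1 + M ≤ θ * (Q / L) + (1 + M) ^ 2 / θ := by
      have h4 : θ ≤ θ * (Q / L) := le_mul_of_one_le_right hθ.le ((one_le_div hL).2 hgt.le)
      have h5 : 1 + M ≤ θ + (1 + M) ^ 2 / θ := by
        rw [← sub_nonneg]
        have e : θ + (1 + M) ^ 2 / θ - (1 + M) =
            ((θ - (1 + M) / 2) ^ 2 + 3 / 4 * (1 + M) ^ 2) / θ := by
          field_simp; ring
        rw [e]; positivity
      linarith
    have h6 : 0 ≤ (1 + L) ^ 2 / a ^ 2 := by positivity
    have h7 : Q = M + v * ∫ r, S r ∂gauss (Fin m) := rfl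
    have h8 := mul_le_mul_of_nonneg_left h2 hv0
    linarith

/-- **The truncated inequality at a spin.** -/
theorem psi_avg (hτ : 0 ≤ τ) (hmn : m ≤ n) (i : Fin (m + 1)) (hφ : ∀ a, Bd (φ a))
    (hD : ∀ a k, Bd (D a k)) (hd : LineDer φ D) {a L θ c A B : ℝ} (ha : 0 < a) (hL : 0 < L)
    (hθ : 0 < θ) (hc : 0 ≤ c) {F : Mat (m + 1) → Vec (m + 1) → ℝ} (hF : Bd F)
    (hF0 : ∀ J u, 0 ≤ F J u)
    (hS : ∀ J u, IsCoupling J → ∑ e, ∑ k, bar i (D e k) J u ^ 2 ≤ F J u + c)
    (hA : pEv b n (m + 1) τ (fun J u => ∑ e, del i (φ e) J u ^ 2) ≤ A)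
    (hA' : b ^ 2 / n * pEv b n (m + 1) τ (fun J u => ∑ e, ∑ k, bar i (D e k) J u ^ 2) ≤ A)
    (hB : (b ^ 2 / n) ^ 4 * (exp (2 * b ^ 2) *
      √(pEv b n m (τ + b ^ 2 / n) fun J u => tot D J u ^ 4)) ≤ B) :
    pEv b n (m + 1) τ (fun J u => rho a (√(1 + ∑ e, del i (φ e) J u ^ 2)) ^ 2) ≤
      (1 + L) ^ 2 / a ^ 2 + θ * ((1 + B + A) / L) + (2 + 2 * B) / θ +
        b ^ 2 / n * (pEv b n (m + 1) τ F + c * ((1 + B + A) / L + (1 + A) / a ^ 2)) := by
  set v := b ^ 2 / (n:ℝ) with hv
  have hv0 : 0 ≤ v := by positivity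
  have hNB : Bd fun J u => ∑ e, del i (φ e) J u ^ 2 := Bd.sum fun e => ((hφ e).delI i).pow 2
  have hSB : Bd fun J u => ∑ e, ∑ k, bar i (D e k) J u ^ 2 :=
    Bd.sum fun e => Bd.sum fun k => ((hD e k).barI i).pow 2
  have hψB : Bd fun J u => rho a (√(1 + ∑ e, del i (φ e) J u ^ 2)) ^ 2 :=
    (((Bd.const 1).add hNB).comp ((continuous_rho a).comp continuous_sqrt)).pow 2
  obtain ⟨BF, hBF⟩ := hF.2
  obtain ⟨BT, hBT⟩ := (bd_tot hD).2
  obtain ⟨BS, hBS⟩ := hSB.2
  set G := fun g : Idx m → ℝ => plJ v g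
  set h := fun g : Idx m → ℝ => plU τ g
  have hjc : Continuous fun q : (Idx m → ℝ) × ((Fin m → ℝ) × ℝ) => join i q.1 q.2.1 q.2.2 := by
    refine continuous_pi fun k => ?_
    simp only [join]
    rcases (idxEquiv i).symm k with x | x | x <;> simp only [Sum.elim_inl, Sum.elim_inr] <;>
      fun_prop
  set Ft := fun (q : (Idx m → ℝ) × (Fin m → ℝ)) => ∫ t,
    F (plJ v (join i q.1 q.2 t)) (plU τ (join i q.1 q.2 t)) ∂gaussianReal 0 1 with hFt
  have hFtm : StronglyMeasurable Ft := by
    have hc' : Continuous fun p : ((Idx m → ℝ) × (Fin m → ℝ)) × ℝ =>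
        F (plJ v (join i p.1.1 p.1.2 p.2)) (plU τ (join i p.1.1 p.1.2 p.2)) := by
      have h1 : Continuous fun p : ((Idx m → ℝ) × (Fin m → ℝ)) × ℝ =>
          join i p.1.1 p.1.2 p.2 := hjc.comp (f := fun p : ((Idx m → ℝ) × (Fin m → ℝ)) × ℝ =>
        (p.1.1, (p.1.2, p.2))) (by fun_prop)
      exact hF.1.comp (((continuous_plJ v).comp h1).prodMk ((continuous_plU τ).comp h1))
    exact hc'.stronglyMeasurable.integral_prod_right'
  have hFtb : ∀ q, ‖Ft q‖ ≤ |BF| := fun q => by
    refine (norm_integral_le_of_norm_le_const (C := |BF|) (ae_of_all _ fun t =>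
      (hBF _ _).trans (le_abs_self _))).trans_eq ?_
    simp
  have hFt0 : ∀ q, 0 ≤ Ft q := fun q => integral_nonneg fun t => hF0 _ _
  have iF : Integrable Ft ((gauss (Idx m)).prod (gauss (Fin m))) :=
    Integrable.of_bound hFtm.aestronglyMeasurable _ (ae_of_all _ hFtb)
  have eF : ∫ g, ∫ r, Ft (g, r) ∂gauss (Fin m) ∂gauss (Idx m) = pEv b n (m + 1) τ F :=
    (pEv_split i (hF.integrable _ _)).symm
  set Qg := fun g => rowQ D v (G g) (h g) with hQg
  set Mg := fun g => rowMean D v (G g) (h g) with hMg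
  set Ng := fun (g : Idx m → ℝ) r =>
    ∑ e, ((φ e (G g) (h g + rv v r) - φ e (G g) (h g - rv v r)) / 2) ^ 2 with hNg
  set Sg := fun (g : Idx m → ℝ) r =>
    ∑ e, ∑ k, ((D e k (G g) (h g + rv v r) + D e k (G g) (h g - rv v r)) / 2) ^ 2 with hSg
  have eN : ∀ g r t, ∑ e, del i (φ e) (plJ v (join i g r t)) (plU τ (join i g r t)) ^ 2 = Ng g r :=
    fun g r t => sum_congr rfl fun e _ => by rw [del_join v τ i g r t]
  have eS : ∀ g r t, ∑ e, ∑ k, bar i (D e k) (plJ v (join i g r t)) (plU τ (join i g r t)) ^ 2 =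
      Sg g r :=
    fun g r t => sum_congr rfl fun e _ => sum_congr rfl fun k _ => by rw [bar_join v τ i g r t]
  have eN0 : ∀ g r, ∑ e, del i (φ e) (jn v τ i (g, r)).1 (jn v τ i (g, r)).2 ^ 2 = Ng g r :=
    fun g r => eN g r 0
  have eS0 : ∀ g r, ∑ e, ∑ k, bar i (D e k) (jn v τ i (g, r)).1 (jn v τ i (g, r)).2 ^ 2 = Sg g r :=
    fun g r => eS g r 0
  have iS := (row_integrable hSB v τ i).2
  have iN := row_integrable hNB v τ i
  have iψ := (row_integrable hψB v τ i).2
  simp only [eN0] at iN iψ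
  simp only [eS0] at iS
  have hMm : StronglyMeasurable Mg := by
    have hc' : StronglyMeasurable fun q : ((Idx m → ℝ) × (Fin m → ℝ)) × ℝ =>
        tot D (G q.1.1) (h q.1.1 + fun k => q.2 * v + √v * q.1.2 k) :=
      ((bd_tot hD).1.comp (f := fun q : ((Idx m → ℝ) × (Fin m → ℝ)) × ℝ =>
        (plJ v q.1.1, plU τ q.1.1 + fun k => q.2 * v + √v * q.1.2 k))
        (((continuous_plJ v).comp (continuous_fst.comp continuous_fst)).prodMk
          (((continuous_plU τ).comp (continuous_fst.comp continuous_fst)).add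
            (by fun_prop)))).stronglyMeasurable
    simp only [hMg, rowMean]
    exact hc'.integral_prod_right'.integral_prod_right'.const_mul _
  have hMb : ∀ g, |Mg g| ≤ v ^ 2 / 2 * (|BT| * seg.real Set.univ) := fun g => by
    rw [abs_of_nonneg (rowMean_nonneg _ _ _)]
    refine mul_le_mul_of_nonneg_left ?_ (by positivity)
    refine le_trans (le_abs_self _) ?_
    rw [← norm_eq_abs]
    refine (norm_integral_le_of_norm_le_const (C := |BT| * seg.real Set.univ)
      (ae_of_all _ fun r => norm_integral_le_of_norm_le_const (C := |BT|)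
        (ae_of_all _ fun s => (hBT _ _).trans (le_abs_self _)))).trans_eq ?_
    simp
  have iM : Integrable Mg (gauss (Idx m)) :=
    Integrable.of_bound hMm.aestronglyMeasurable _ (ae_of_all _ hMb)
  have iM2 : Integrable (fun g => (1 + Mg g) ^ 2) (gauss (Idx m)) :=
    Integrable.of_bound ((stronglyMeasurable_const.add hMm).pow 2).aestronglyMeasurable
      ((1 + v ^ 2 / 2 * (|BT| * seg.real Set.univ)) ^ 2) (ae_of_all _ fun g => by
        simp only [Pi.pow_apply, Pi.add_apply, norm_eq_abs, abs_pow]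
        exact pow_le_pow_left₀ (abs_nonneg _) ((abs_add_le _ _).trans
          (by rw [abs_one]; exact add_le_add le_rfl (hMb g))) 2)
  have iQ : Integrable Qg (gauss (Idx m)) := iM.add (iS.const_mul v)
  have hM2 : ∫ g, Mg g ^ 2 ∂gauss (Idx m) ≤ B := by
    have hpt : ∀ g, Mg g ^ 2 ≤ v ^ 4 / 2 * ∫ r, ∫ s,
        tot D (G g) (h g + fun k => s * v + √v * r k) ^ 2 ∂seg ∂gauss (Fin m) := fun g => by
      have hcc : Continuous fun q : (Fin m → ℝ) × ℝ =>
          tot D (G g) (h g + fun k => q.2 * v + √v * q.1 k) :=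
        (bd_tot hD).1.comp (f := fun q : (Fin m → ℝ) × ℝ =>
          (G g, h g + fun k => q.2 * v + √v * q.1 k))
          (continuous_const.prodMk (continuous_const.add (by fun_prop)))
      have i1 : Integrable (fun q : (Fin m → ℝ) × ℝ =>
          tot D (G g) (h g + fun k => q.2 * v + √v * q.1 k)) ((gauss (Fin m)).prod seg) :=
        Integrable.of_bound hcc.aestronglyMeasurable BT (ae_of_all _ fun q => hBT _ _)
      have i2 : Integrable (fun q : (Fin m → ℝ) × ℝ =>
          tot D (G g) (h g + fun k => q.2 * v + √v * q.1 k) ^ 2) ((gauss (Fin m)).prod seg) := by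
        obtain ⟨B2, hB2⟩ := ((bd_tot hD).pow 2).2
        exact Integrable.of_bound (hcc.pow 2).aestronglyMeasurable B2
          (ae_of_all _ fun q => hB2 _ _)
      have e := sq_integral_le i1 i2
      have hvol : ((gauss (Fin m)).prod seg).real Set.univ = 2 := by
        rw [measureReal_def, ← Set.univ_prod_univ, Measure.prod_prod]
        simp [seg]
        norm_num
      rw [hvol, integral_prod _ i1, integral_prod _ i2] at e
      simp only [hMg, rowMean, mul_pow]
      refine (mul_le_mul_of_nonneg_left e (by positivity)).trans_eq ?_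
      ring
    have := mean_avg_le (b := b) (n := n) (τ := τ) ((bd_tot hD).pow 2) hτ hmn
    simp only [← pow_mul] at this
    refine (integral_mono_of_nonneg (ae_of_all _ fun g => sq_nonneg _) ?_
      (ae_of_all _ hpt)).trans ?_
    · obtain ⟨B2, hB2⟩ := ((bd_tot hD).pow 2).2
      refine (Integrable.of_bound (C := |B2| * seg.real Set.univ) ?_ (ae_of_all _ fun g =>
        ?_)).const_mul _
      · have hc' : StronglyMeasurable fun q : ((Idx m → ℝ) × (Fin m → ℝ)) × ℝ =>
            tot D (G q.1.1) (h q.1.1 + fun k => q.2 * v + √v * q.1.2 k) ^ 2 :=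
          (((bd_tot hD).pow 2).1.comp (f := fun q : ((Idx m → ℝ) × (Fin m → ℝ)) × ℝ =>
            (plJ v q.1.1, plU τ q.1.1 + fun k => q.2 * v + √v * q.1.2 k))
            (((continuous_plJ v).comp (continuous_fst.comp continuous_fst)).prodMk
              (((continuous_plU τ).comp (continuous_fst.comp continuous_fst)).add
                (by fun_prop)))).stronglyMeasurable
        exact hc'.integral_prod_right'.integral_prod_right'.aestronglyMeasurable
      · refine (norm_integral_le_of_norm_le_const (C := |B2| * seg.real Set.univ)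
          (ae_of_all _ fun r => norm_integral_le_of_norm_le_const (C := |B2|)
            (ae_of_all _ fun s => (hB2 _ _).trans (le_abs_self _)))).trans_eq ?_
        simp
    · rw [integral_const_mul]
      refine (mul_le_mul_of_nonneg_left this (by positivity)).trans (le_trans (le_of_eq ?_) hB)
      simp only [show (2:ℕ) * 2 = 4 from rfl]
      ring
  have hM1 : ∫ g, Mg g ∂gauss (Idx m) ≤ 1 + B := by
    have iSq : Integrable (fun g => Mg g ^ 2) (gauss (Idx m)) :=
      Integrable.of_bound (hMm.pow 2).aestronglyMeasurable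
        ((v ^ 2 / 2 * (|BT| * seg.real Set.univ)) ^ 2) (ae_of_all _ fun g => by
          simp only [Pi.pow_apply, norm_eq_abs, abs_pow]
          exact pow_le_pow_left₀ (abs_nonneg _) (hMb g) 2)
    refine (integral_mono iM ((integrable_const (1:ℝ)).add iSq) fun g => ?_).trans ?_
    · simp only [Pi.add_apply]; nlinarith [sq_nonneg (Mg g - 1 / 2)]
    · rw [integral_add' (integrable_const (1:ℝ)) iSq]
      simp only [integral_const, probReal_univ, one_smul]
      linarith
  have eSi : ∫ g, ∫ r, Sg g r ∂gauss (Fin m) ∂gauss (Idx m) =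
      pEv b n (m + 1) τ (fun J u => ∑ e, ∑ k, bar i (D e k) J u ^ 2) :=
    (pEv_row hSB i eS).symm
  have eNi : ∫ g, ∫ r, Ng g r ∂gauss (Fin m) ∂gauss (Idx m) =
      pEv b n (m + 1) τ (fun J u => ∑ e, del i (φ e) J u ^ 2) :=
    (pEv_row hNB i eN).symm
  have hQ1 : ∫ g, Qg g ∂gauss (Idx m) ≤ 1 + B + A := by
    show ∫ g, (Mg g + v * ∫ r, Sg g r ∂gauss (Fin m)) ∂gauss (Idx m) ≤ _
    rw [integral_add iM (iS.const_mul v), integral_const_mul, eSi]
    linarith
  set W := fun g r => Qg g / L + (1 + Ng g r) / a ^ 2 with hW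
  set Sb := fun g r => Ft (g, r) + c * W g r with hSbd
  have iFg : ∀ g, Integrable (fun r => Ft (g, r)) (gauss (Fin m)) := fun g =>
    Integrable.of_bound (hFtm.comp_measurable measurable_prodMk_left).aestronglyMeasurable _
      (ae_of_all _ fun r => hFtb _)
  have iWg : ∀ g, Integrable (fun r => W g r) (gauss (Fin m)) := fun g =>
    (integrable_const _).add (((integrable_const _).add (iN.1 g)).div_const _)
  have hW0 : ∀ g r, 0 ≤ W g r := fun g r => by
    have := rowQ_nonneg (D := D) hv0 (G g) (h g)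
    have : 0 ≤ Ng g r := sum_nonneg fun e _ => sq_nonneg _
    simp only [hW, hQg]; positivity
  have hrow : ∀ g, ∫ r, rho a (√(1 + Ng g r)) ^ 2 ∂gauss (Fin m) ≤
      (1 + L) ^ 2 / a ^ 2 + θ * (Qg g / L) + (1 + Mg g) ^ 2 / θ +
        v * ∫ r, Sb g r ∂gauss (Fin m) := fun g => by
    refine psi_row hφ hD hd hv0 (G g) (h g) ha hL hθ ((iFg g).add ((iWg g).const_mul c))
      (fun r => add_nonneg (hFt0 _) (mul_nonneg hc (hW0 g r))) fun r hev => ?_
    have hW1 : 1 ≤ W g r := by
      have hN0 : 0 ≤ Ng g r := sum_nonneg fun e _ => sq_nonneg _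
      rcases hev with h1 | h1
      · exact le_add_of_le_of_nonneg ((one_le_div hL).2 h1.le) (by positivity)
      · refine le_add_of_nonneg_of_le (div_nonneg (rowQ_nonneg hv0 _ _) hL.le) ?_
        rw [one_le_div (by positivity)]
        exact ((lt_sqrt ha.le).1 h1).le
    have hi : Integrable (fun t => F (plJ v (join i g r t)) (plU τ (join i g r t)))
        (gaussianReal 0 1) := by
      have h1 : Continuous fun t : ℝ => join i g r t :=
        hjc.comp (f := fun t : ℝ => (g, (r, t))) (by fun_prop)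
      exact Integrable.of_bound (hF.1.comp (((continuous_plJ v).comp h1).prodMk
        ((continuous_plU τ).comp h1))).aestronglyMeasurable BF (ae_of_all _ fun t => hBF _ _)
    calc Sg g r ≤ ∫ t, F (plJ v (join i g r t)) (plU τ (join i g r t)) + c ∂gaussianReal 0 1 := by
          have hle : ∀ t, Sg g r ≤ F (plJ v (join i g r t)) (plU τ (join i g r t)) + c :=
            fun t => eS g r t ▸ hS _ _ (isCoupling_plJ _ _)
          refine le_trans (le_of_eq (by simp)) (integral_mono (integrable_const (Sg g r))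
            (hi.add (integrable_const c)) hle)
      _ = Ft (g, r) + c := by
          rw [integral_add hi (integrable_const c)]
          simp [hFt]
      _ ≤ _ := add_le_add le_rfl (le_mul_of_one_le_right hc hW1)
  rw [pEv_row hψB i (f := fun g r => rho a (√(1 + Ng g r)) ^ 2) fun g r t => by rw [eN g r t]]
  have iNg : Integrable (fun g => ∫ r, Ng g r ∂gauss (Fin m)) (gauss (Idx m)) := iN.2
  have eW : ∀ g, ∫ r, Sb g r ∂gauss (Fin m) =
      (∫ r, Ft (g, r) ∂gauss (Fin m)) +
        c * (Qg g / L + (1 + ∫ r, Ng g r ∂gauss (Fin m)) / a ^ 2) := fun g => by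
    simp only [hSbd]
    rw [integral_add (iFg g) ((iWg g).const_mul c), integral_const_mul]
    congr 2
    simp only [hW]
    have i1 : Integrable (fun r => (1 + Ng g r) / a ^ 2) (gauss (Fin m)) :=
      ((integrable_const (1:ℝ)).add (iN.1 g)).div_const _
    rw [integral_add (integrable_const _) i1]
    simp only [integral_div]
    rw [integral_add (integrable_const (1:ℝ)) (iN.1 g)]
    simp only [integral_const, probReal_univ, one_smul]
  simp only [eW] at hrow
  have j1 := (iQ.div_const L).const_mul θ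
  have j2 := iM2.div_const θ
  have jN : Integrable (fun g => (1 + ∫ r, Ng g r ∂gauss (Fin m)) / a ^ 2) (gauss (Idx m)) :=
    ((integrable_const (1:ℝ)).add iNg).div_const _
  have jW := ((iQ.div_const L).add jN).const_mul c
  have j3 := (iF.integral_prod_left.add jW).const_mul v
  have j0 : Integrable (fun _ : Idx m → ℝ => (1 + L) ^ 2 / a ^ 2) (gauss (Idx m)) :=
    integrable_const _
  refine (integral_mono iψ (((j0.add j1).add j2).add j3) fun g => hrow g).trans ?_
  rw [integral_add' ((j0.add j1).add j2) j3, integral_add' (j0.add j1) j2, integral_add' j0 j1,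
    integral_const_mul, integral_const_mul, integral_div, integral_div,
    integral_add' iF.integral_prod_left jW, eF, integral_const_mul,
    integral_add' (iQ.div_const L) jN]
  simp only [integral_div]
  rw [integral_add (integrable_const (1:ℝ)) iNg, eNi]
  simp only [integral_const, probReal_univ, one_smul]
  have hm : ∫ g, (1 + Mg g) ^ 2 ∂gauss (Idx m) ≤ 2 + 2 * B := by
    have iSq : Integrable (fun g => Mg g ^ 2) (gauss (Idx m)) :=
      Integrable.of_bound (hMm.pow 2).aestronglyMeasurable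
        ((v ^ 2 / 2 * (|BT| * seg.real Set.univ)) ^ 2) (ae_of_all _ fun g => by
          simp only [Pi.pow_apply, norm_eq_abs, abs_pow]
          exact pow_le_pow_left₀ (abs_nonneg _) (hMb g) 2)
    refine (integral_mono iM2 ((integrable_const (2:ℝ)).add (iSq.const_mul 2)) fun g => ?_).trans ?_
    · simp only [Pi.add_apply]; nlinarith [sq_nonneg (Mg g - 1)]
    · rw [integral_add' (integrable_const (2:ℝ)) (iSq.const_mul 2), integral_const_mul]
      simp only [integral_const, probReal_univ, one_smul]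
      linarith
  gcongr

end Vale.Agent.P150.Weak.Rec
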