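import Vale.Agent.P150.Weak.Rec.Second
import Vale.Agent.P150.Weak.Rec.Weight

/-!
Uniform integrability of `‖T‖² / n` (`UISpec`).
-/

open MeasureTheory ProbabilityTheory Finset Real

namespace Vale.Agent.P150.Weak.Rec

open Gap

variable {m : ℕ} {b : ℝ} {n : ℕ} {τ : ℝ}

/-- The excess `(‖T‖² - M n)₊`. -/
noncomputable def excess (M : ℝ) (n : ℕ) (J : Mat m) (u : Vec m) : ℝ :=
  max (sq3 (cm3 J u) - M * n) 0

lemma bd_excess (M : ℝ) (n : ℕ) : Bd (excess (m := m) M n) :=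
  bd_sq3.comp (f := fun x => max (x - M * n) 0) (by fun_prop)

/-- The cut-off `min (‖T‖² / (M n)) 1`. -/
noncomputable def cut (M : ℝ) (n : ℕ) (J : Mat m) (u : Vec m) : ℝ :=
  min (sq3 (cm3 J u) / (M * n)) 1

lemma bd_cut (M : ℝ) (n : ℕ) : Bd (cut (m := m) M n) :=
  bd_sq3.comp (f := fun x => min (x / (M * n)) 1) (by fun_prop)

lemma sq3_cm3_nonneg (J : Mat m) (u : Vec m) : 0 ≤ sq3 (cm3 J u) :=
  sum_nonneg fun a _ => sum_nonneg fun c _ => sum_nonneg fun e _ => sq_nonneg _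

/-- The remainder of the half sums of the third cumulant. -/
noncomputable def restT (i : Fin (m + 1)) (J : Mat (m + 1)) (u : Vec (m + 1)) : ℝ :=
  sq3 (del i cm3 J u) + sq1 (del i mg J u) * sq2 (del i cm2 J u) + sq1 (del i mg J u) ^ 3

lemma bd_restT (i : Fin (m + 1)) : Bd (restT i) :=
  ((bd_delT i).add ((bd_d i).mul (bd_delC i))).add ((bd_d i).pow 3)

lemma le_sq_div_add {t : ℝ} (ht : 0 < t) (x : ℝ) : x ≤ x ^ 2 / t + t := by
  have e : x ^ 2 / t + t - x = ((t - x / 2) ^ 2 + 3 / 4 * x ^ 2) / t := by field_simp; ring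
  have h : 0 ≤ ((t - x / 2) ^ 2 + 3 / 4 * x ^ 2) / t := by positivity
  linarith

/-- One slice of the excess. -/
lemma cut_slice_le {h a M θ : ℝ} (hh : 0 < h) (hM : 0 < M) (hθ : 0 < θ)
    (hn : 0 < n) {J : Mat (m + 1)} (hJ : IsCoupling J) (u : Vec (m + 1)) (i : Fin (m + 1)) :
    cut M n J u * sq2 (cm3 J u i) ≤
      (1 + h) * ((1 + h) * rho a (√(1 + sq2 (del i cm2 J u))) ^ 2) +
        (((1 + h) * ((1 + h⁻¹) * (a + 1) ^ 2) + (12 + 4 * h⁻¹) * θ) / (M * n)) * sq3 (cm3 J u) +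
        (12 + 4 * h⁻¹) / θ * (1 + sq1 (del i mg J u) ^ 2) ^ 2 := by
  set c := cut M n J u with hc
  set N := sq2 (del i cm2 J u) with hN
  set y := 1 + sq1 (del i mg J u) ^ 2 with hy
  set X := sq3 (cm3 J u) with hX
  have hX0 : 0 ≤ X := sq3_cm3_nonneg J u
  have hn0 : (0:ℝ) < n := Nat.cast_pos.2 hn
  have hc0 : 0 ≤ c := le_min (by positivity) zero_le_one
  have hc1 : c ≤ 1 := min_le_right _ _
  have hcX : c ≤ X / (M * n) := min_le_left _ _
  have hN0 : 0 ≤ N := sum_nonneg fun a _ => sum_nonneg fun c _ => sq_nonneg _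
  have hsN : 1 + N ≤ (1 + h) * rho a (√(1 + N)) ^ 2 + (1 + h⁻¹) * (a + 1) ^ 2 := by
    refine le_trans ?_ (sq_add_le hh _ _)
    calc 1 + N = √(1 + N) ^ 2 := (sq_sqrt (by linarith)).symm
      _ ≤ _ := pow_le_pow_left₀ (sqrt_nonneg _) (by linarith [le_rho a (√(1 + N))]) 2
  have hψ : 0 ≤ (1 + h) * rho a (√(1 + N)) ^ 2 := by positivity
  have h1 : c * N ≤ (1 + h) * rho a (√(1 + N)) ^ 2 + (1 + h⁻¹) * (a + 1) ^ 2 * (X / (M * n)) :=
    calc c * N ≤ c * ((1 + h) * rho a (√(1 + N)) ^ 2 + (1 + h⁻¹) * (a + 1) ^ 2) :=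
          mul_le_mul_of_nonneg_left (by linarith) hc0
      _ = c * ((1 + h) * rho a (√(1 + N)) ^ 2) + (1 + h⁻¹) * (a + 1) ^ 2 * c := by ring
      _ ≤ _ := add_le_add (mul_le_of_le_one_left hψ hc1)
          (mul_le_mul_of_nonneg_left hcX (by positivity))
  have h2 : c * y ≤ θ * (X / (M * n)) + y ^ 2 / θ := by
    have h3 := le_sq_div_add hθ y
    have h4 : 0 ≤ y ^ 2 / θ := by positivity
    nlinarith [mul_le_mul_of_nonneg_left h3 hc0, mul_le_mul_of_nonneg_right hcX hθ.le,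
      mul_le_mul_of_nonneg_right hc1 h4]
  refine (mul_le_mul_of_nonneg_left (sq2_cm3_le hJ u i hh) hc0).trans ?_
  have h5 : 0 ≤ 12 + 4 * h⁻¹ := by positivity
  calc c * ((1 + h) * N + (12 + 4 * h⁻¹) * y) =
        (1 + h) * (c * N) + (12 + 4 * h⁻¹) * (c * y) := by ring
    _ ≤ (1 + h) * ((1 + h) * rho a (√(1 + N)) ^ 2 + (1 + h⁻¹) * (a + 1) ^ 2 * (X / (M * n))) +
        (12 + 4 * h⁻¹) * (θ * (X / (M * n)) + y ^ 2 / θ) :=
        add_le_add (mul_le_mul_of_nonneg_left h1 (by linarith)) (mul_le_mul_of_nonneg_left h2 h5)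
    _ = _ := by ring

lemma excess_le_cut (M : ℝ) (hM : 0 < M) (hn : 0 < n) (J : Mat m) (u : Vec m) :
    excess M n J u ≤ ∑ i, cut M n J u * sq2 (cm3 J u i) := by
  have hn0 : (0:ℝ) < n := Nat.cast_pos.2 hn
  rw [← mul_sum]
  show _ ≤ cut M n J u * sq3 (cm3 J u)
  set X := sq3 (cm3 J u) with hX
  have hX0 : 0 ≤ X := sq3_cm3_nonneg J u
  unfold excess cut
  rw [← hX]
  rcases le_total X (M * n) with h | h
  · rw [max_eq_right (by linarith)]
    positivity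
  · rw [max_eq_left (by linarith), min_eq_right ((one_le_div (by positivity)).2 h), one_mul]
    nlinarith

/-- The remainder in mean square. -/
lemma restT_sq (hG : GrowSpec b) (hC : CrudeSpec b) (hS : SliceSpec b) (Tm : ℝ) :
    ∃ C : ℝ, 0 ≤ C ∧ ∀ n m : ℕ, ∀ τ : ℝ, 0 ≤ τ → τ ≤ Tm → m + 1 ≤ n → ∀ i : Fin (m + 1),
      pEv b n (m + 1) τ (fun J u => restT i J u ^ 2) ≤ C * (n:ℝ) ^ 2 := by
  obtain ⟨C4, h4⟩ := hS 4 Tm
  obtain ⟨C6, h6⟩ := hS 6 Tm
  obtain ⟨Cd, hd⟩ := delC_pow hG hC (p := 4) (by norm_num)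
  obtain ⟨Ct, ht⟩ := delT_pow hC (p := 2) one_le_two
  refine ⟨3 * (|Ct| + √|C4| * √|Cd| + |C6|), by positivity, fun n m τ hτ hT hmn i => ?_⟩
  have hn : 0 < n := by omega
  have hn0 : (0:ℝ) < n := Nat.cast_pos.2 hn
  have hn1 : (1:ℝ) ≤ n := Nat.one_le_cast.2 hn
  have b1 := (bd_delT i).pow 2
  have b2 := ((bd_d i).pow 2).mul ((bd_delC i).pow 2)
  have b3 := (bd_d i).pow 6
  have e := pEv_mono (b := b) (n := n) (τ := τ) ((bd_restT i).pow 2)
    (((b1.add b2).add b3).const_mul 3) fun J u _ => ?_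
  · rw [pEv_const_mul, pEv_add (b1.add b2) b3, pEv_add b1 b2] at e
    refine e.trans ?_
    have t1 : pEv b n (m + 1) τ (fun J u => sq3 (del i cm3 J u) ^ 2) ≤ |Ct| * (n:ℝ) ^ 2 :=
      (ht n m τ hτ hmn i).trans (mul_le_mul_of_nonneg_right (le_abs_self _) (by positivity))
    have t2 : pEv b n (m + 1) τ (fun J u => sq1 (del i mg J u) ^ 2 * sq2 (del i cm2 J u) ^ 2) ≤
        √|C4| * √|Cd| * (n:ℝ) ^ 2 := by
      refine (pEv_mul_le_of ((bd_d i).pow 2) ((bd_delC i).pow 2) (A := |C4|)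
        (B := |Cd| * (n:ℝ) ^ 2) ?_ ?_).trans ?_
      · simp only [← pow_mul]
        exact ((h4 n m τ hτ hT hmn i).1).trans (le_abs_self _)
      · simp only [← pow_mul]
        refine (hd n m τ hτ hmn i).trans ?_
        rw [show √(n:ℝ) ^ 4 = (√(n:ℝ) ^ 2) ^ 2 by ring, sq_sqrt hn0.le]
        exact mul_le_mul_of_nonneg_right (le_abs_self _) (by positivity)
      · rw [sqrt_mul (abs_nonneg _), sqrt_sq hn0.le, ← mul_assoc]
        exact mul_le_mul_of_nonneg_left (le_self_pow₀ hn1 two_ne_zero) (by positivity)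
    have t3 : pEv b n (m + 1) τ (fun J u => sq1 (del i mg J u) ^ 6) ≤ |C6| * (n:ℝ) ^ 2 :=
      (((h6 n m τ hτ hT hmn i).1).trans (le_abs_self _)).trans
        (le_mul_of_one_le_right (abs_nonneg _) (one_le_pow₀ hn1))
    linarith
  · simp only [restT]
    set x := sq3 (del i cm3 J u)
    set y := sq1 (del i mg J u) * sq2 (del i cm2 J u) with hy
    set z := sq1 (del i mg J u) ^ 3 with hz
    rw [← mul_pow, ← hy, show sq1 (del i mg J u) ^ 6 = z ^ 2 by rw [hz]; ring]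
    nlinarith [sq_nonneg (x - y), sq_nonneg (x - z), sq_nonneg (y - z)]

/-- The inputs of the truncated inequality for the third cumulant. -/
lemma slice_bounds (hb : 0 < b) (hb1 : b < 1) (hG : GrowSpec b) (hC : CrudeSpec b)
    (hS : SliceSpec b) (Tm : ℝ) :
    ∃ A B : ℝ, 0 ≤ A ∧ 0 ≤ B ∧ ∀ n m : ℕ, ∀ τ : ℝ, 0 ≤ τ → τ ≤ Tm → m + 1 ≤ n →
      ∀ i : Fin (m + 1),
        pEv b n (m + 1) τ (fun J u => sq2 (del i cm2 J u)) ≤ A ∧
        b ^ 2 / n * pEv b n (m + 1) τ (fun J u => ∑ q : Fin m × Fin m, ∑ k,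
          bar i (fun J u => cm3 J u q.1 q.2 k) J u ^ 2) ≤ A ∧
        (b ^ 2 / (n:ℝ)) ^ 4 * (exp (2 * b ^ 2) * √(pEv b n m (τ + b ^ 2 / n) fun J u =>
          tot (fun (q : Fin m × Fin m) k J u => cm3 J u q.1 q.2 k) J u ^ 4)) ≤ B := by
  obtain ⟨CT, hT⟩ := recT hb hb1 hG hC hS Tm
  obtain ⟨C2, h2⟩ := hS 2 Tm
  obtain ⟨C3, h3⟩ := hS 3 Tm
  obtain ⟨Cd, hd⟩ := delC_pow hG hC (p := 2) one_le_two
  obtain ⟨Ct, ht⟩ := delT_pow hC (p := 1) le_rfl
  obtain ⟨Cc, hc⟩ := hC 2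
  obtain ⟨Cq, hq⟩ := hC 4
  set D := (1 + (1:ℝ)⁻¹) * (27 * (|Ct| + √|C2| * √|Cd| + |C3|)) with hD
  refine ⟨(b ^ 2) ^ 2 * exp (2 * b ^ 2) * √|Cc| + b ^ 2 * ((1 + 1) * |CT| + D),
    (b ^ 2) ^ 4 * exp (2 * b ^ 2) * √|Cq|, by positivity, by positivity,
    fun n m τ hτ hTm hmn i => ?_⟩
  have hn : 0 < n := by omega
  have hn0 : (0:ℝ) < n := Nat.cast_pos.2 hn
  have hn1 : (1:ℝ) ≤ n := Nat.one_le_cast.2 hn
  set v := b ^ 2 / (n:ℝ) with hv
  have hv0 : 0 ≤ v := by positivity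
  have s2 : pEv b n (m + 1) τ (fun J u => sq1 (del i mg J u) ^ 2) ≤ |C2| :=
    ((h2 n m τ hτ hTm hmn i).1).trans (le_abs_self _)
  have s3 : pEv b n (m + 1) τ (fun J u => sq1 (del i mg J u) ^ 3) ≤ |C3| * n :=
    (((h3 n m τ hτ hTm hmn i).1).trans (le_abs_self _)).trans
      (le_mul_of_one_le_right (abs_nonneg _) hn1)
  have sT : pEv b n (m + 1) τ (fun J u => sq3 (del i cm3 J u)) ≤ |Ct| * n := by
    refine le_of_eq_of_le (by simp) ((ht n m τ hτ hmn i).trans ?_)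
    rw [pow_one]; exact mul_le_mul_of_nonneg_right (le_abs_self _) hn0.le
  have sC : pEv b n (m + 1) τ (fun J u => sq1 (del i mg J u) * sq2 (del i cm2 J u)) ≤
      √|C2| * √|Cd| * n := by
    refine (pEv_mul_le_of (bd_d i) (bd_delC i) s2 (B := |Cd| * n) ((hd n m τ hτ hmn i).trans ?_)
      ).trans ?_
    · rw [sq_sqrt hn0.le]; exact mul_le_mul_of_nonneg_right (le_abs_self _) hn0.le
    · rw [sqrt_mul (abs_nonneg _), ← mul_assoc]
      exact mul_le_mul_of_nonneg_left (sqrt_nat_le n) (by positivity)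
  have hXm : pEv b n (m + 1) τ (fun J u => sq3 (cm3 J u)) ≤ |CT| * n :=
    (hT n (m + 1) τ hτ hTm hn hmn).trans (mul_le_mul_of_nonneg_right (le_abs_self _) hn0.le)
  obtain ⟨-, -, c3, -⟩ := hc n m (τ + v) (by positivity) hn (by omega)
  obtain ⟨-, -, q3, -⟩ := hq n m (τ + v) (by positivity) hn (by omega)
  have hbar := (barT_step (b := b) (n := n) (τ := τ) one_pos i sT sC s3).trans
    (add_le_add (mul_le_mul_of_nonneg_left hXm (by norm_num)) le_rfl)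
  refine ⟨(delC_step hτ hn (by omega) i c3 hbar).trans (le_of_eq ?_),
    (mul_le_mul_of_nonneg_left hbar hv0).trans (le_trans (le_of_eq ?_)
      (le_add_of_nonneg_left (by positivity))), ?_⟩
  · simp only [hD, hv]; field_simp
  · simp only [hD, hv]; field_simp
  have hs : √(pEv b n m (τ + b ^ 2 / n) fun J u =>
      tot (fun (q : Fin m × Fin m) k J u => cm3 J u q.1 q.2 k) J u ^ 4) ≤
      √|Cq| * ((n:ℝ) ^ 2) ^ 2 := by
    refine sqrt_bound (le_of_eq_of_le ?_ (q3.trans_eq (by ring))) (by positivity)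
    congr 1; funext J u
    simp only [tot, sq2, app, Fintype.sum_prod_type, one_mul]
    congr 1
    refine sum_congr rfl fun a _ => sum_congr rfl fun c _ => ?_
    congr 1
    exact sum_congr rfl fun k _ => by rw [cm3_swap23, cm3_swap12]
  refine (mul_le_mul_of_nonneg_left (mul_le_mul_of_nonneg_left hs (exp_pos _).le)
    (by positivity)).trans_eq ?_
  rw [hv]
  field_simp

/-- The truncated inequality for the half difference of the covariance. -/
lemma psiT_le {h M θ a L A B CR : ℝ} (hh : 0 < h) (hM : 0 ≤ M) (hθ : 0 < θ) (ha : 0 < a)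
    (hL : 0 < L) (hτ : 0 ≤ τ) (hn : 0 < n) (hmn : m ≤ n) (i : Fin (m + 1))
    (hA : pEv b n (m + 1) τ (fun J u => sq2 (del i cm2 J u)) ≤ A)
    (hA' : b ^ 2 / n * pEv b n (m + 1) τ (fun J u => ∑ q : Fin m × Fin m, ∑ k,
      bar i (fun J u => cm3 J u q.1 q.2 k) J u ^ 2) ≤ A)
    (hB : (b ^ 2 / (n:ℝ)) ^ 4 * (exp (2 * b ^ 2) * √(pEv b n m (τ + b ^ 2 / n) fun J u =>
      tot (fun (q : Fin m × Fin m) k J u => cm3 J u q.1 q.2 k) J u ^ 4)) ≤ B)
    (hR : pEv b n (m + 1) τ (fun J u => restT i J u ^ 2) ≤ CR * (n:ℝ) ^ 2) :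
    pEv b n (m + 1) τ (fun J u => rho a (√(1 + sq2 (del i cm2 J u))) ^ 2) ≤
      (1 + L) ^ 2 / a ^ 2 + θ * ((1 + B + A) / L) + (2 + 2 * B) / θ +
        b ^ 2 / n * ((1 + h) * pEv b n (m + 1) τ (excess M n) + (1 + h⁻¹) * 27 * CR / θ * n +
          ((1 + h) * (M * n) + (1 + h⁻¹) * 27 * (θ * n)) *
            ((1 + B + A) / L + (1 + A) / a ^ 2)) := by
  have hn0 : (0:ℝ) < n := Nat.cast_pos.2 hn
  set cD := (1 + h⁻¹) * 27 with hcD
  have hcD0 : 0 ≤ cD := by positivity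
  have eN : (fun (J : Mat (m + 1)) (u : Vec (m + 1)) => sq2 (del i cm2 J u)) = fun J u =>
      ∑ q : Fin m × Fin m, del i (fun J u => cm2 J u q.1 q.2) J u ^ 2 := by
    funext J u; simp [sq2, del, Fintype.sum_prod_type]
  have bF : Bd fun J u => (1 + h) * excess M n J u + cD / (θ * n) * restT i J u ^ 2 :=
    ((bd_excess M n).const_mul (1 + h)).add (((bd_restT i).pow 2).const_mul (cD / (θ * n)))
  have hF : pEv b n (m + 1) τ
      (fun J u => (1 + h) * excess M n J u + cD / (θ * n) * restT i J u ^ 2) ≤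
      (1 + h) * pEv b n (m + 1) τ (excess M n) + cD * CR / θ * n := by
    rw [pEv_add ((bd_excess M n).const_mul _) (((bd_restT i).pow 2).const_mul _), pEv_const_mul,
      pEv_const_mul]
    refine add_le_add le_rfl ((mul_le_mul_of_nonneg_left hR (by positivity)).trans_eq ?_)
    field_simp
  have hS : ∀ J u, IsCoupling J → ∑ q : Fin m × Fin m, ∑ k,
      bar i (fun J u => cm3 J u q.1 q.2 k) J u ^ 2 ≤
      ((1 + h) * excess M n J u + cD / (θ * n) * restT i J u ^ 2) +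
        ((1 + h) * (M * n) + cD * (θ * n)) := fun J u hJ => by
    refine (bar_cm3_le hJ u i hh).trans ?_
    have h1 : sq3 (cm3 J u) ≤ excess M n J u + M * n := by
      unfold excess; linarith [le_max_left (sq3 (cm3 J u) - M * n) 0]
    have h2 := mul_le_mul_of_nonneg_left (le_sq_div_add (mul_pos hθ hn0) (restT i J u)) hcD0
    have h3 := mul_le_mul_of_nonneg_left h1 (by linarith : (0:ℝ) ≤ 1 + h)
    have h4 : cD * restT i J u = (1 + h⁻¹) * (27 * (sq3 (del i cm3 J u) +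
        sq1 (del i mg J u) * sq2 (del i cm2 J u) + sq1 (del i mg J u) ^ 3)) := by
      simp only [restT, hcD]; ring
    have h5 : cD / (θ * n) * restT i J u ^ 2 = cD * (restT i J u ^ 2 / (θ * n)) := by ring
    linarith
  have hψ := psi_avg (b := b) (n := n) (τ := τ) hτ hmn i
    (φ := fun (q : Fin m × Fin m) J u => cm2 J u q.1 q.2)
    (D := fun q k J u => cm3 J u q.1 q.2 k) (fun q => bd_cm2 _ _) (fun q k => bd_cm3 _ _ _)
    (fun q G u c t => hasDerivAt_cm2_line G u c _ _ t) ha hL hθ (by positivity) bF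
    (fun J u => add_nonneg (mul_nonneg (by linarith) (le_max_right _ _)) (by positivity))
    hS (le_of_eq_of_le (by rw [eN]) hA) hA' hB
  refine le_of_eq_of_le ?_ (hψ.trans (add_le_add le_rfl (mul_le_mul_of_nonneg_left
    (add_le_add hF le_rfl) (by positivity))))
  congr 1; funext J u
  rw [congrFun (congrFun eN J) u]

/-- One slice of the excess, in mean. -/
lemma cutT_le {h a M θ W X Y : ℝ} (hh : 0 < h) (hM : 0 < M) (hθ : 0 < θ) (hn : 0 < n)
    (i : Fin (m + 1))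
    (hW : pEv b n (m + 1) τ (fun J u => rho a (√(1 + sq2 (del i cm2 J u))) ^ 2) ≤ W)
    (hX : pEv b n (m + 1) τ (fun J u => sq3 (cm3 J u)) ≤ X * n)
    (hY : pEv b n (m + 1) τ (fun J u => sq1 (del i mg J u) ^ 4) ≤ Y) :
    pEv b n (m + 1) τ (fun J u => cut M n J u * sq2 (cm3 J u i)) ≤
      (1 + h) ^ 2 * W + ((1 + h) * ((1 + h⁻¹) * (a + 1) ^ 2) + (12 + 4 * h⁻¹) * θ) * X / M +
        (12 + 4 * h⁻¹) / θ * (2 + 2 * Y) := by
  have hn0 : (0:ℝ) < n := Nat.cast_pos.2 hn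
  have bN : Bd fun J u => rho a (√(1 + sq2 (del i cm2 J u))) ^ 2 :=
    (((Bd.const 1).add (bd_delC i)).comp ((continuous_rho a).comp continuous_sqrt)).pow 2
  have by2 := ((Bd.const 1).add ((bd_d i).pow 2)).pow 2
  have b1 := (bN.const_mul (1 + h)).const_mul (1 + h)
  have b2 := (bd_sq3 (m := m + 1)).const_mul
    (((1 + h) * ((1 + h⁻¹) * (a + 1) ^ 2) + (12 + 4 * h⁻¹) * θ) / (M * n))
  have b3 := by2.const_mul ((12 + 4 * h⁻¹) / θ)
  have e := pEv_mono (b := b) (n := n) (τ := τ)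
    ((bd_cut M n).mul (Bd.sum fun c => Bd.sum fun e => (bd_cm3 i c e).pow 2))
    ((b1.add b2).add b3) fun J u hJ => cut_slice_le hh hM hθ hn hJ u i
  rw [pEv_add (b1.add b2) b3, pEv_add b1 b2, pEv_const_mul, pEv_const_mul, pEv_const_mul,
    pEv_const_mul] at e
  have hy : pEv b n (m + 1) τ (fun J u => (1 + sq1 (del i mg J u) ^ 2) ^ 2) ≤ 2 + 2 * Y := by
    have c1 := Bd.const (m := m + 1) 2
    have c2 := ((bd_d i).pow 4).const_mul 2
    have e2 := pEv_mono (b := b) (n := n) (τ := τ) by2 (c1.add c2) fun J u _ => by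
      nlinarith [sq_nonneg (sq1 (del i mg J u) ^ 2 - 1)]
    rw [pEv_add c1 c2, pEv_const, pEv_const_mul] at e2
    linarith
  refine e.trans (add_le_add (add_le_add ?_ ?_) (mul_le_mul_of_nonneg_left hy (by positivity)))
  · rw [← mul_assoc, ← sq]
    exact mul_le_mul_of_nonneg_left hW (sq_nonneg _)
  · refine (mul_le_mul_of_nonneg_left hX (by positivity)).trans_eq ?_
    field_simp

lemma step_eq {g a L θ A B cD CR M P K Y v N q : ℝ} (hq : v * N = q) :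
    g ^ 2 * ((1 + L) ^ 2 / a ^ 2 + θ * ((1 + B + A) / L) + (2 + 2 * B) / θ +
        v * (g * P + cD * CR / θ * N +
          (g * (M * N) + cD * (θ * N)) * ((1 + B + A) / L + (1 + A) / a ^ 2))) + K / θ * Y =
      g ^ 3 * v * P + ((g ^ 2 * (2 + 2 * B + q * cD * CR) + K * Y) / θ +
        (g ^ 2 * ((θ + q * (g * M + cD * θ)) * (1 + B + A))) / L +
        (g ^ 2 * ((1 + L) ^ 2 + q * (g * M + cD * θ) * (1 + A))) / a ^ 2) := by
  subst hq
  ring

/-- **One step of the iteration.** -/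
theorem ui_step (hb : 0 < b) (hb1 : b < 1) (hG : GrowSpec b) (hC : CrudeSpec b) (hS : SliceSpec b)
    {h : ℝ} (hh : 0 < h) (Tm ε M : ℝ) (hε : 0 < ε) (hM : 0 ≤ M) :
    ∃ M' : ℝ, 0 ≤ M' ∧ ∀ n m : ℕ, ∀ τ : ℝ, 0 ≤ τ → τ ≤ Tm → 0 < n → m ≤ n →
      pEv b n m τ (excess M' n) ≤
        (1 + h) ^ 3 * b ^ 2 * pEv b n m τ (excess M n) + ε * n := by
  obtain ⟨CT, hT⟩ := recT hb hb1 hG hC hS Tm
  obtain ⟨C4, h4⟩ := hS 4 Tm
  obtain ⟨CR, hCR0, hR⟩ := restT_sq hG hC hS Tm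
  obtain ⟨A, B, hA0, hB0, hAB⟩ := slice_bounds hb hb1 hG hC hS Tm
  set K := 12 + 4 * h⁻¹ with hK
  set cD := (1 + h⁻¹) * 27 with hcD
  set E1 := (1 + h) ^ 2 * (2 + 2 * B + b ^ 2 * cD * CR) + K * (2 + 2 * |C4|) with hE1
  set θ := 4 * E1 / ε + 1 with hθd
  set E2 := (1 + h) ^ 2 * ((θ + b ^ 2 * ((1 + h) * M + cD * θ)) * (1 + B + A)) with hE2
  set L := 4 * E2 / ε + 1 with hLd
  set E3 := (1 + h) ^ 2 * ((1 + L) ^ 2 + b ^ 2 * ((1 + h) * M + cD * θ) * (1 + A)) with hE3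
  set a := 4 * E3 / ε + 1 with had
  set E4 := ((1 + h) * ((1 + h⁻¹) * (a + 1) ^ 2) + K * θ) * |CT| with hE4
  set M' := 4 * E4 / ε + 1 with hM'd
  have hθ : 0 < θ := by positivity
  have hL : 0 < L := by positivity
  have ha : 0 < a := by positivity
  have hM' : 0 < M' := by positivity
  have small : ∀ E : ℝ, 0 ≤ E → E / (4 * E / ε + 1) ≤ ε / 4 := fun E hE => by
    rw [div_le_iff₀ (by positivity)]
    field_simp
    linarith
  have p1 : 0 ≤ E1 := by positivity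
  have p2 : 0 ≤ E2 := by positivity
  have p3 : 0 ≤ E3 := by positivity
  have p4 : 0 ≤ E4 := by positivity
  clear_value M' E4 a E3 L E2 θ E1 cD K
  have u1 : E1 / θ ≤ ε / 4 := hθd ▸ small E1 p1
  have u2 : E2 / L ≤ ε / 4 := hLd ▸ small E2 p2
  have ha1 : 1 ≤ a := had ▸ le_add_of_nonneg_left (by positivity)
  have u3 : E3 / a ^ 2 ≤ ε / 4 :=
    (div_le_div_of_nonneg_left p3 ha (le_self_pow₀ ha1 two_ne_zero)).trans (had ▸ small E3 p3)
  have u4 : E4 / M' ≤ ε / 4 := hM'd ▸ small E4 p4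
  refine ⟨M', hM'.le, fun n m τ hτ hTm hn hmn => ?_⟩
  have hn0 : (0:ℝ) < n := Nat.cast_pos.2 hn
  set v := b ^ 2 / (n:ℝ) with hv
  have hv0 : 0 ≤ v := by positivity
  have hP : 0 ≤ pEv b n m τ (excess M n) := pEv_nonneg fun J u => le_max_right _ _
  rcases Nat.eq_zero_or_pos m with rfl | hm
  · have e0 : pEv b n 0 τ (excess M' n) = 0 := by
      simp only [pEv, excess, sq3, univ_eq_empty, sum_empty, zero_sub]
      rw [max_eq_right (neg_nonpos.2 (by positivity))]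
      simp
    rw [e0]; positivity
  obtain ⟨m, rfl⟩ : ∃ k, m = k + 1 := ⟨m - 1, by omega⟩
  set P := pEv b n (m + 1) τ (excess M n) with hPd
  have hXm : pEv b n (m + 1) τ (fun J u => sq3 (cm3 J u)) ≤ |CT| * n :=
    (hT n (m + 1) τ hτ hTm hn hmn).trans (mul_le_mul_of_nonneg_right (le_abs_self _) hn0.le)
  have hone : ∀ i : Fin (m + 1), pEv b n (m + 1) τ (fun J u => cut M' n J u * sq2 (cm3 J u i)) ≤
      (1 + h) ^ 3 * v * P + ε := by
    intro i
    obtain ⟨a1, a2, a3⟩ := hAB n m τ hτ hTm hmn i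
    refine (cutT_le hh hM' hθ hn i
      (psiT_le hh hM hθ ha hL hτ hn (by omega) i a1 a2 a3 (hR n m τ hτ hTm hmn i))
      hXm (((h4 n m τ hτ hTm hmn i).1).trans (le_abs_self _))).trans ?_
    rw [← hv, ← hcD, ← hK, ← hE4, ← hPd]
    have key := step_eq (g := 1 + h) (a := a) (L := L) (θ := θ) (A := A) (B := B) (cD := cD)
      (CR := CR) (M := M) (P := P) (K := K) (Y := 2 + 2 * |C4|)
      (show v * n = b ^ 2 by rw [hv]; field_simp)
    rw [← hE1, ← hE2, ← hE3] at key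
    linarith
  calc pEv b n (m + 1) τ (excess M' n)
      ≤ pEv b n (m + 1) τ (fun J u => ∑ i, cut M' n J u * sq2 (cm3 J u i)) :=
        pEv_mono (bd_excess M' n) (Bd.sum fun i => (bd_cut M' n).mul
          (Bd.sum fun c => Bd.sum fun e => (bd_cm3 i c e).pow 2))
          fun J u _ => excess_le_cut M' hM' hn J u
    _ = ∑ i, pEv b n (m + 1) τ (fun J u => cut M' n J u * sq2 (cm3 J u i)) :=
        pEv_sum fun i => (bd_cut M' n).mul (Bd.sum fun c => Bd.sum fun e => (bd_cm3 i c e).pow 2)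
    _ ≤ ∑ _i : Fin (m + 1), ((1 + h) ^ 3 * v * P + ε) := sum_le_sum fun i _ => hone i
    _ = ((m + 1 : ℕ) : ℝ) * ((1 + h) ^ 3 * v * P + ε) := by
        rw [sum_const, card_univ, Fintype.card_fin, nsmul_eq_mul]
    _ ≤ (n:ℝ) * ((1 + h) ^ 3 * v * P + ε) :=
        mul_le_mul_of_nonneg_right (Nat.cast_le.2 hmn) (by positivity)
    _ = _ := by simp only [hv]; field_simp

/-- **Uniform integrability of `‖T‖² / n`.** -/
theorem uiSpec (hb : 0 < b) (hb1 : b < 1) (hG : GrowSpec b) (hC : CrudeSpec b) (hS : SliceSpec b) :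
    UISpec b := by
  intro η Tm ε k hη hε
  obtain ⟨h, hh, hr⟩ := exists_margin hb hb1
  obtain ⟨CT, hT⟩ := recT hb hb1 hG hC hS Tm
  set U : {p : ℕ × ℕ × ℝ // 0 < p.1 ∧ p.2.1 ≤ p.1 ∧ 0 ≤ p.2.2 ∧ p.2.2 ≤ Tm} → ℝ → ℝ :=
    fun x M => pEv b x.1.1 x.1.2.1 x.1.2.2 (excess M x.1.1) / x.1.1 with hU
  obtain ⟨M, hM0, hM⟩ := iterate_self_bound (U := U) (r := (1 + h) ^ 3 * b ^ 2) (C := CT)
    (by positivity) hr (fun x M hM => by
      obtain ⟨⟨n, m, τ⟩, hn, hmn, hτ, hTm⟩ := x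
      rw [hU, div_le_iff₀ (Nat.cast_pos.2 hn)]
      refine (pEv_mono (bd_excess M n) bd_sq3 fun J u _ => max_le ?_ (sq3_cm3_nonneg J u)).trans
        (hT n m τ hτ hTm hn hmn)
      linarith [mul_nonneg hM (Nat.cast_nonneg (α := ℝ) n)])
    (fun e M he hM => by
      obtain ⟨M', hM', hstep⟩ := ui_step hb hb1 hG hC hS hh Tm e M he hM
      refine ⟨M', hM', fun x => ?_⟩
      obtain ⟨⟨n, m, τ⟩, hn, hmn, hτ, hTm⟩ := x
      have hn0 : (0:ℝ) < n := Nat.cast_pos.2 hn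
      simp only [hU]
      rw [div_le_iff₀ hn0, add_mul, mul_assoc, div_mul_cancel₀ _ hn0.ne']
      exact hstep n m τ hτ hTm hn hmn)
    (half_pos hε)
  refine ⟨2 * M, 1, fun n m τ hτ hTm hn hmn _ => ?_⟩
  have hn0 : (0:ℝ) < n := Nat.cast_pos.2 hn
  have hτ0 : 0 ≤ τ := hη.le.trans hτ
  have e := hM ⟨(n, m, τ), hn, hmn, hτ0, hTm⟩
  simp only [hU, div_le_iff₀ hn0] at e
  have hle : pEv b n m τ (fun J u => if 2 * M * n < sq3 (cm3 J u) then sq3 (cm3 J u) else 0) ≤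
      pEv b n m τ (fun J u => 2 * excess M n J u) := by
    refine integral_mono_of_nonneg (ae_of_all _ fun g => ?_)
      (((bd_excess M n).const_mul 2).integrable _ _) (ae_of_all _ fun g => ?_)
    · dsimp only; split_ifs
      · exact sq3_cm3_nonneg _ _
      · exact le_rfl
    · dsimp only [excess]
      split_ifs with hc
      · linarith [le_max_left (sq3 (cm3 (plJ (b ^ 2 / n) g) (plU τ g)) - M * n) 0]
      · exact mul_nonneg two_pos.le (le_max_right _ _)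
  rw [pEv_const_mul] at hle
  linarith

end Vale.Agent.P150.Weak.Rec
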