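import Vale.Agent.P150.Weak.Found.Split
import Vale.Agent.P150.Weak.Found.Slice

/-!
Bounded continuous observables of the planted family.
-/

open MeasureTheory ProbabilityTheory Finset

namespace Vale.Agent.P150.Weak.Rec

open Gap

variable {m : ℕ} {α : Type*}

/-- Bounded and jointly continuous. -/
def Bd (φ : Mat m → Vec m → ℝ) : Prop :=
  Continuous (fun q : Mat m × Vec m => φ q.1 q.2) ∧ ∃ B, ∀ J u, |φ J u| ≤ B

namespace Bd

variable {φ ψ : Mat m → Vec m → ℝ}

lemma const (c : ℝ) : Bd (fun (_ : Mat m) (_ : Vec m) => c) :=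
  ⟨continuous_const, |c|, fun _ _ => le_rfl⟩

lemma add (h : Bd φ) (h' : Bd ψ) : Bd fun J u => φ J u + ψ J u := by
  obtain ⟨hc, B, hB⟩ := h
  obtain ⟨hc', B', hB'⟩ := h'
  exact ⟨hc.add hc', B + B', fun J u => (abs_add_le _ _).trans (add_le_add (hB J u) (hB' J u))⟩

lemma mul (h : Bd φ) (h' : Bd ψ) : Bd fun J u => φ J u * ψ J u := by
  obtain ⟨hc, B, hB⟩ := h
  obtain ⟨hc', B', hB'⟩ := h'
  exact ⟨hc.mul hc', B * B', fun J u => by
    rw [abs_mul]
    exact mul_le_mul (hB J u) (hB' J u) (abs_nonneg _) ((abs_nonneg _).trans (hB J u))⟩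

lemma neg (h : Bd φ) : Bd fun J u => -φ J u := by
  obtain ⟨hc, B, hB⟩ := h
  exact ⟨hc.neg, B, fun J u => by rw [abs_neg]; exact hB J u⟩

lemma sub (h : Bd φ) (h' : Bd ψ) : Bd fun J u => φ J u - ψ J u := by
  simpa [sub_eq_add_neg] using h.add h'.neg

lemma const_mul (h : Bd φ) (c : ℝ) : Bd fun J u => c * φ J u := (const c).mul h

lemma pow (h : Bd φ) (k : ℕ) : Bd fun J u => φ J u ^ k := by
  induction k with
  | zero => simpa using const (m := m) 1
  | succ k ih => simpa [pow_succ] using ih.mul h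

lemma sum {s : Finset α} {F : α → Mat m → Vec m → ℝ} (h : ∀ a, Bd (F a)) :
    Bd fun J u => ∑ a ∈ s, F a J u := by
  classical
  induction s using Finset.induction with
  | empty => simpa using const (m := m) 0
  | @insert a s ha ih =>
    simp only [Finset.sum_insert ha]
    exact (h a).add ih

lemma of_le (hc : Continuous fun q : Mat m × Vec m => φ q.1 q.2) {B : ℝ}
    (h : ∀ J u, |φ J u| ≤ B) : Bd φ := ⟨hc, B, h⟩

lemma integrable (h : Bd φ) (v τ : ℝ) :
    Integrable (fun g => φ (plJ v g) (plU τ g)) (gauss (Idx m)) := by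
  obtain ⟨hc, B, hB⟩ := h
  exact integrable_planted hc hB v τ

lemma shift (h : Bd φ) (a : Vec m) : Bd fun J u => φ J (u + a) := by
  obtain ⟨hc, B, hB⟩ := h
  exact ⟨hc.comp (continuous_fst.prodMk (continuous_snd.add continuous_const)), B,
    fun J u => hB _ _⟩

lemma delI (h : Bd φ) (i : Fin (m + 1)) : Bd fun J u => del i φ J u := by
  obtain ⟨hc, B, hB⟩ := h
  refine ⟨?_, B, fun J u => ?_⟩
  · simp only [del, smul_eq_mul]
    refine continuous_const.mul ((hc.comp
      (f := fun q : Mat (m + 1) × Vec (m + 1) => (Weak.sub i q.1, subU i q.2 + rowOf i q.1)) ?_).sub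
      (hc.comp (f := fun q : Mat (m + 1) × Vec (m + 1) =>
        (Weak.sub i q.1, subU i q.2 - rowOf i q.1)) ?_)) <;>
    · unfold Weak.sub subU rowOf; fun_prop
  · have h1 := abs_le.1 (hB (Weak.sub i J) (subU i u + rowOf i J))
    have h2 := abs_le.1 (hB (Weak.sub i J) (subU i u - rowOf i J))
    simp only [del, smul_eq_mul]
    rw [abs_le]; constructor <;> linarith

lemma barI (h : Bd φ) (i : Fin (m + 1)) : Bd fun J u => bar i φ J u := by
  obtain ⟨hc, B, hB⟩ := h
  refine ⟨?_, B, fun J u => ?_⟩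
  · simp only [bar, smul_eq_mul]
    refine continuous_const.mul ((hc.comp
      (f := fun q : Mat (m + 1) × Vec (m + 1) => (Weak.sub i q.1, subU i q.2 + rowOf i q.1)) ?_).add
      (hc.comp (f := fun q : Mat (m + 1) × Vec (m + 1) =>
        (Weak.sub i q.1, subU i q.2 - rowOf i q.1)) ?_)) <;>
    · unfold Weak.sub subU rowOf; fun_prop
  · have h1 := abs_le.1 (hB (Weak.sub i J) (subU i u + rowOf i J))
    have h2 := abs_le.1 (hB (Weak.sub i J) (subU i u - rowOf i J))
    simp only [bar, smul_eq_mul]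
    rw [abs_le]; constructor <;> linarith

end Bd

lemma bd_mg (i : Fin m) : Bd fun J u => mg J u i := Bd.of_le (continuous_mg i) fun J u => abs_mg_le J u i

lemma bd_cm2 (i j : Fin m) : Bd fun J u => cm2 J u i j :=
  Bd.of_le (continuous_cm2 i j) fun J u => abs_cm2_le J u i j

lemma bd_cm3 (i j k : Fin m) : Bd fun J u => cm3 J u i j k :=
  Bd.of_le (continuous_cm3 i j k) fun J u => abs_cm3_le J u i j k

lemma bd_cm4 (i j k l : Fin m) : Bd fun J u => cm4 J u i j k l :=
  Bd.of_le (continuous_cm4 i j k l) fun J u => abs_cm4_le J u i j k l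

lemma bd_vv (i : Fin m) : Bd fun J u => vv J u i :=
  Bd.sum fun j => (bd_cm2 i j).mul (bd_mg j)

lemma bd_gradV (i j : Fin m) : Bd fun J u => gradV J u i j :=
  (Bd.sum fun k => (bd_mg k).mul (bd_cm3 k i j)).add (Bd.sum fun k => (bd_cm2 i k).mul (bd_cm2 k j))

variable {b : ℝ} {n : ℕ} {τ : ℝ} {φ ψ : Mat m → Vec m → ℝ}

lemma pEv_mono (h : Bd φ) (h' : Bd ψ) (hle : ∀ J u, IsCoupling J → φ J u ≤ ψ J u) :
    pEv b n m τ φ ≤ pEv b n m τ ψ :=
  integral_mono (h.integrable _ _) (h'.integrable _ _) fun g => hle _ _ (isCoupling_plJ _ g)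

lemma pEv_nonneg (hle : ∀ J u, 0 ≤ φ J u) : 0 ≤ pEv b n m τ φ := integral_nonneg fun _ => hle _ _

lemma pEv_add (h : Bd φ) (h' : Bd ψ) :
    pEv b n m τ (fun J u => φ J u + ψ J u) = pEv b n m τ φ + pEv b n m τ ψ :=
  integral_add (h.integrable _ _) (h'.integrable _ _)

lemma pEv_const_mul (c : ℝ) : pEv b n m τ (fun J u => c * φ J u) = c * pEv b n m τ φ :=
  integral_const_mul c _

lemma pEv_const (c : ℝ) : pEv b n m τ (fun _ _ => c) = c := by
  simp [pEv]

lemma pEv_sum {s : Finset α} {F : α → Mat m → Vec m → ℝ} (h : ∀ a, Bd (F a)) :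
    pEv b n m τ (fun J u => ∑ a ∈ s, F a J u) = ∑ a ∈ s, pEv b n m τ (F a) :=
  integral_finsetSum _ fun a _ => (h a).integrable _ _

/-- Cauchy–Schwarz in the planted family. -/
lemma pEv_mul_le (h : Bd φ) (h' : Bd ψ) :
    pEv b n m τ (fun J u => φ J u * ψ J u) ≤
      √(pEv b n m τ fun J u => φ J u ^ 2) * √(pEv b n m τ fun J u => ψ J u ^ 2) := by
  set A := pEv b n m τ fun J u => φ J u ^ 2 with hA
  set C := pEv b n m τ fun J u => ψ J u ^ 2 with hC
  set I := pEv b n m τ fun J u => φ J u * ψ J u with hI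
  have hA0 : 0 ≤ A := pEv_nonneg fun _ _ => sq_nonneg _
  rw [← Real.sqrt_mul hA0]
  refine Real.le_sqrt_of_sq_le ?_
  have key : ∀ t : ℝ, 0 ≤ A * (t * t) + 2 * I * t + C := by
    intro t
    have e : pEv b n m τ (fun J u => (t * φ J u + ψ J u) ^ 2) =
        t * t * A + 2 * t * I + C := by
      have e1 : (fun (J : Mat m) (u : Vec m) => (t * φ J u + ψ J u) ^ 2) = fun J u =>
          t * t * φ J u ^ 2 + 2 * t * (φ J u * ψ J u) + ψ J u ^ 2 :=
        funext fun J => funext fun u => by ring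
      rw [e1, pEv_add (((h.pow 2).const_mul _).add ((h.mul h').const_mul _)) (h'.pow 2),
        pEv_add ((h.pow 2).const_mul _) ((h.mul h').const_mul _), pEv_const_mul, pEv_const_mul]
    have h0 : 0 ≤ pEv b n m τ (fun J u => (t * φ J u + ψ J u) ^ 2) :=
      pEv_nonneg fun _ _ => sq_nonneg _
    linarith
  have := discrim_le_zero key
  rw [discrim] at this
  nlinarith

end Vale.Agent.P150.Weak.Rec
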