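import Vale.Agent.P150.Weak.Rec.Second

/-!
The fourth moments of `v / w`.
-/

open MeasureTheory ProbabilityTheory Finset Real

namespace Vale.Agent.P150.Weak.Rec

open Gap

variable {m : ℕ} {b : ℝ} {n : ℕ} {τ : ℝ}

/-- `E|v|⁴ ≤ C n^(11/4)`, between the second and the sixth moment. -/
lemma sqv_sq_le {C1 C3 : ℝ} {q : ℝ} (hq : 0 < q)
    (h1 : pEv b n m τ (fun J u => sq1 (vv J u)) ≤ C1 * q ^ 4)
    (h3 : pEv b n m τ (fun J u => sq1 (vv J u) ^ 3) ≤ C3 * q ^ 18) :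
    pEv b n m τ (fun J u => sq1 (vv J u) ^ 2) ≤ (C1 + C3) * q ^ 11 := by
  have b1 := (bd_sqv (m := m)).const_mul (q ^ 7)
  have b3 := ((bd_sqv (m := m)).pow 3).const_mul (q ^ 7)⁻¹
  have hq7 : 0 < q ^ 7 := by positivity
  have e := pEv_mono (b := b) (n := n) (τ := τ) (bd_sqv.pow 2) (b1.add b3) fun J u _ => ?_
  · rw [pEv_add b1 b3, pEv_const_mul, pEv_const_mul] at e
    refine e.trans ((add_le_add (mul_le_mul_of_nonneg_left h1 hq7.le)
      (mul_le_mul_of_nonneg_left h3 (inv_nonneg.2 hq7.le))).trans_eq ?_)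
    field_simp
  · set x := sq1 (vv J u)
    have hx : 0 ≤ x := sum_nonneg fun a _ => sq_nonneg _
    have : 0 ≤ x * (q ^ 7 - x) ^ 2 / q ^ 7 := by positivity
    have : x ^ 2 * 2 ≤ q ^ 7 * x + (q ^ 7)⁻¹ * x ^ 3 := by
      have e2 : x * (q ^ 7 - x) ^ 2 / q ^ 7 = q ^ 7 * x + (q ^ 7)⁻¹ * x ^ 3 - x ^ 2 * 2 := by
        field_simp; ring
      linarith
    nlinarith [sq_nonneg x]

/-- Fourth powers of half sums of `v`. -/
lemma barV_four {X A B C q : ℝ} (i : Fin (m + 1))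
    (hX : pEv b n (m + 1) τ (fun J u => sq1 (vv J u) ^ 2) ≤ X * q)
    (hA : pEv b n (m + 1) τ (fun J u => sq1 (del i vv J u) ^ 2) ≤ A * q)
    (hB : pEv b n (m + 1) τ (fun J u => sq1 (del i mg J u) ^ 2 * brkI i J u ^ 4) ≤ B * q)
    (hC : pEv b n (m + 1) τ
      (fun J u => sq1 (del i mg J u) ^ 2 * sq2 (del i cm2 J u) ^ 2) ≤ C * q) :
    pEv b n (m + 1) τ (fun J u => (∑ k, bar i (fun J u => vv J u k) J u ^ 2) ^ 2) ≤
      (16 * X + 144 * (A + B + C)) * q := by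
  have bl : Bd fun J u => (∑ k, bar i (fun J u => vv J u k) J u ^ 2) ^ 2 :=
    (Bd.sum fun k => ((bd_vv k).barI i).pow 2).pow 2
  have c0 := (bd_delV i).pow 2
  have c1 := ((bd_d i).pow 2).mul ((bd_brkI i).pow 4)
  have c2 := ((bd_d i).pow 2).mul ((bd_delC i).pow 2)
  have b1 := ((bd_sqv (m := m + 1)).pow 2).const_mul 16
  have b2 := ((c0.add c1).add c2).const_mul 144
  have e := pEv_mono (b := b) (n := n) (τ := τ) bl (b1.add b2) fun J u hJ => ?_
  · rw [pEv_add b1 b2, pEv_const_mul, pEv_const_mul, pEv_add (c0.add c1) c2, pEv_add c0 c1] at e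
    exact e.trans ((add_le_add (mul_le_mul_of_nonneg_left hX (by norm_num))
      (mul_le_mul_of_nonneg_left (add_le_add (add_le_add hA hB) hC) (by norm_num))).trans_eq
      (by ring))
  · have h0 := bar_vv_le hJ u i (h := 1) one_pos
    rw [inv_one] at h0
    refine (pow_le_pow_left₀ (sum_nonneg fun k _ => sq_nonneg _) h0 2).trans ?_
    rw [show brkI i J u ^ 4 = (brkI i J u ^ 2) ^ 2 by ring]
    set X := sq1 (vv J u)
    set a := sq1 (del i vv J u)
    set x := sq1 (del i mg J u)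
    set c := sq2 (del i cm2 J u)
    set t := brkI i J u ^ 2
    nlinarith [sq_nonneg (X - 3 * a), sq_nonneg (X - 3 * (x * t)), sq_nonneg (X - 3 * (x * c)),
      sq_nonneg (a - x * t), sq_nonneg (a - x * c), sq_nonneg (x * t - x * c)]

/-- The half difference of `|m|²/2`, fourth moment. -/
lemma delS_four {A B : ℝ} (hτ : 0 ≤ τ) (hn : 0 < n) (hmn : m ≤ n) (i : Fin (m + 1))
    (hA : pEv b n m (τ + b ^ 2 / n)
      (fun J u => tot (fun (_ : Unit) k J u => vv J u k) J u ^ (2 * 2)) ≤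
        A * ((n:ℝ) ^ 2) ^ (2 * 2))
    (hB : pEv b n (m + 1) τ (fun J u => (∑ k, bar i (fun J u => vv J u k) J u ^ 2) ^ 2) ≤ B) :
    pEv b n (m + 1) τ (fun J u => del i (fun J u => sq1 (mg J u) / 2) J u ^ 4) ≤
      16 * (400 * (b ^ 2 / n) ^ 2 * B + (b ^ 2) ^ 4 * exp (2 * b ^ 2) * √|A|) := by
  have e := del_pow_bar (b := b) (n := n) (τ := τ) hτ hmn i
    (φ := fun (_ : Unit) J u => sq1 (mg J u) / 2) (D := fun _ k J u => vv J u k)
    (fun _ => bd_half) (fun _ k => bd_vv k) lineDer_half (p := 2) one_le_two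
  simp only [univ_unique, sum_singleton] at e
  refine le_of_eq_of_le (by simp only [← pow_mul]) (e.trans ?_)
  rw [show (4:ℝ) ^ 2 = 16 by norm_num]
  refine mul_le_mul_of_nonneg_left (add_le_add ?_ ?_) (by norm_num)
  · refine (mul_le_mul_of_nonneg_left hB (by positivity)).trans_eq ?_
    norm_num
  · have hn0 : (0:ℝ) < n := Nat.cast_pos.2 hn
    refine (mul_le_mul_of_nonneg_left (mul_le_mul_of_nonneg_left
      (sqrt_bound (X := ((n:ℝ) ^ 2) ^ 2) (hA.trans_eq (by ring)) (by positivity))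
      (exp_pos _).le) (by positivity)).trans_eq ?_
    rw [div_pow]
    field_simp
    ring

/-- **Fourth moments of `v / w`.** -/
theorem recBrkFour (hb : 0 < b) (hb1 : b < 1) (hG : GrowSpec b) (hC : CrudeSpec b)
    (hO : CenterSpec b) (hS : SliceSpec b) (Tm : ℝ) :
    ∃ C : ℝ, ∀ n m : ℕ, ∀ τ : ℝ, 0 ≤ τ → τ ≤ Tm → 0 < n → m ≤ n →
      pEv b n m τ (fun J u => ∑ i, brk J u i ^ 4) ≤ C * (n:ℝ) ^ (7 / 4 : ℝ) := by
  obtain ⟨C1, hV⟩ := recV hb hb1 hG hC hO hS Tm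
  obtain ⟨Cg, hg⟩ := id hG
  obtain ⟨C4, h4⟩ := hS 4 Tm
  obtain ⟨C6, h6⟩ := hS 6 Tm
  obtain ⟨Cd, hd⟩ := delC_pow hG hC (p := 4) (by norm_num)
  obtain ⟨Cv, hdv⟩ := delV_pow hG hC (p := 2) one_le_two
  obtain ⟨Cs, hds⟩ := delS_pow hG hC hO (p := 4) (by norm_num)
  obtain ⟨Ca, hca⟩ := totV_crude hC hO (p := 2) one_le_two
  set G3 := (|Cg| * (3 * √3)) ^ 3
  set W := (b ^ 2) ^ 4 * exp (2 * b ^ 2) * √|Ca|
  set F := 8 * (√|C4| * √|Cs|) + 128 * (1 + |C6|)
  set D := 16 * (|C1| + G3) + 144 * (|Cv| + F + √|C4| * √|Cd|)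
  set S4 := 16 * (400 * (b ^ 2) ^ 2 * D + W)
  refine ⟨8 * S4 + 64 * (1 + |C4|), fun n m τ hτ hT hn hmn => ?_⟩
  set q := √√(n:ℝ) with hqd
  have hn1 : (1:ℝ) ≤ n := Nat.one_le_cast.2 hn
  have hn0 : (0:ℝ) < n := by linarith
  have hq1 : 1 ≤ q := by rw [hqd, one_le_sqrt, one_le_sqrt]; exact hn1
  have hq0 : 0 < q := by linarith
  have hq2 : q ^ 2 = √(n:ℝ) := sq_sqrt (sqrt_nonneg _)
  have hq4 : q ^ 4 = (n:ℝ) := by rw [show q ^ 4 = (q ^ 2) ^ 2 by ring, hq2, sq_sqrt hn0.le]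
  have hq7 : (n:ℝ) ^ (7 / 4 : ℝ) = q ^ 7 := by
    rw [hqd, sqrt_eq_rpow, sqrt_eq_rpow, ← rpow_mul hn0.le, ← rpow_natCast, ← rpow_mul hn0.le]
    norm_num
  rw [hq7]
  rcases Nat.eq_zero_or_pos m with rfl | hm
  · simp only [pEv, univ_eq_empty, sum_empty, integral_zero]
    positivity
  obtain ⟨m, rfl⟩ : ∃ k, m = k + 1 := ⟨m - 1, by omega⟩
  set v := b ^ 2 / (n:ℝ) with hv
  have hv0 : 0 ≤ v := by positivity
  have sX : pEv b n (m + 1) τ (fun J u => sq1 (vv J u) ^ 2) ≤ (|C1| + G3) * q ^ 11 := by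
    refine sqv_sq_le hq0 ?_ ?_
    · rw [hq4]
      exact ((hV n (m + 1) τ hτ hT hn hmn).1).trans
        (mul_le_mul_of_nonneg_right (le_abs_self _) hn0.le)
    · obtain ⟨-, -, g3⟩ := hg n (m + 1) 3 τ hτ (by norm_num) hn hmn
      refine g3.trans ((le_abs_self _).trans_eq ?_)
      have e3 : √((3:ℝ) * n) = √3 * q ^ 2 := by rw [hq2, sqrt_mul (by norm_num)]
      simp only [Nat.cast_ofNat, abs_pow, abs_mul, G3, e3, abs_of_nonneg (sqrt_nonneg (3:ℝ))]
      rw [← hq4]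
      simp only [abs_pow, abs_of_pos hq0, abs_of_pos (show (0:ℝ) < 3 by norm_num)]
      ring
  have hone : ∀ i : Fin (m + 1), pEv b n (m + 1) τ (fun J u => brkI i J u ^ 4) ≤
      (8 * S4 + 64 * (1 + |C4|)) * q ^ 3 := by
    intro i
    have s4 : pEv b n (m + 1) τ (fun J u => sq1 (del i mg J u) ^ 4) ≤ |C4| :=
      ((h4 n m τ hτ hT hmn i).1).trans (le_abs_self _)
    have s6 : pEv b n (m + 1) τ (fun J u => sq1 (del i mg J u) ^ 6) ≤ |C6| :=
      ((h6 n m τ hτ hT hmn i).1).trans (le_abs_self _)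
    have hq8 : (n:ℝ) ^ 2 = q ^ 8 := by rw [← hq4]; ring
    have sV : pEv b n (m + 1) τ (fun J u => sq1 (del i vv J u) ^ 2) ≤ |Cv| * q ^ 8 := by
      rw [← hq8]
      exact (hdv n m τ hτ hmn i).trans (mul_le_mul_of_nonneg_right (le_abs_self _) (by positivity))
    have e8 : √(|Cd| * q ^ 8) = √|Cd| * q ^ 4 := by
      rw [sqrt_mul (abs_nonneg _), show q ^ 8 = (q ^ 4) ^ 2 by ring, sqrt_sq (by positivity)]
    have e8' : √(|Cs| * q ^ 8) = √|Cs| * q ^ 4 := by
      rw [sqrt_mul (abs_nonneg _), show q ^ 8 = (q ^ 4) ^ 2 by ring, sqrt_sq (by positivity)]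
    have hqp : √(n:ℝ) ^ 4 = q ^ 8 := by rw [← hq2]; ring
    have sC : pEv b n (m + 1) τ (fun J u => sq1 (del i mg J u) ^ 2 * sq2 (del i cm2 J u) ^ 2) ≤
        √|C4| * √|Cd| * q ^ 4 := by
      refine (pEv_mul_le_of ((bd_d i).pow 2) ((bd_delC i).pow 2) (A := |C4|) (B := |Cd| * q ^ 8)
        ?_ ?_).trans_eq ?_
      · simpa only [← pow_mul] using s4
      · simp only [← pow_mul]
        refine (hd n m τ hτ hmn i).trans ?_
        rw [hqp]; exact mul_le_mul_of_nonneg_right (le_abs_self _) (by positivity)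
      · rw [e8]; ring
    have sS : pEv b n (m + 1) τ (fun J u => sq1 (del i mg J u) ^ 2 *
        del i (fun J u => sq1 (mg J u) / 2) J u ^ 4) ≤ √|C4| * √|Cs| * q ^ 4 := by
      refine (pEv_mul_le_of ((bd_d i).pow 2) ((bd_delS i).pow 4) (A := |C4|) (B := |Cs| * q ^ 8)
        ?_ ?_).trans_eq ?_
      · simpa only [← pow_mul] using s4
      · simp only [← pow_mul]
        refine (hds n m τ hτ hmn i).trans ?_
        rw [hqp]; exact mul_le_mul_of_nonneg_right (le_abs_self _) (by positivity)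
      · rw [e8']; ring
    have hpt : ∀ J u, IsCoupling J → brkI i J u ^ 4 ≤
        8 * del i (fun J u => sq1 (mg J u) / 2) J u ^ 4 +
          64 * (1 + sq1 (del i mg J u) ^ 4) := fun J u hJ => by
      have h0 := brk_sq_le hJ u i (h := 1) one_pos
      rw [brk_eq hJ, inv_one] at h0
      set x := sq1 (del i mg J u)
      have h1 := pow_le_pow_left₀ (sq_nonneg _) h0 2
      nlinarith [sq_nonneg (2 * del i (fun J u => sq1 (mg J u) / 2) J u ^ 2 - 4 * (1 + x ^ 2)),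
        sq_nonneg (x ^ 2 - 1)]
    have sE : pEv b n (m + 1) τ (fun J u => sq1 (del i mg J u) ^ 2 * brkI i J u ^ 4) ≤
        F * q ^ 4 := by
      have b1 := (((bd_d i).pow 2).mul ((bd_delS i).pow 4)).const_mul 8
      have b2 := ((Bd.const 1).add ((bd_d i).pow 6)).const_mul 128
      have e := pEv_mono (b := b) (n := n) (τ := τ) (((bd_d i).pow 2).mul ((bd_brkI i).pow 4))
        (b1.add b2) fun J u hJ => ?_
      · rw [pEv_add b1 b2, pEv_const_mul, pEv_const_mul, pEv_add (Bd.const 1) ((bd_d i).pow 6),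
          pEv_const] at e
        refine e.trans ?_
        have : 128 * (1 + pEv b n (m + 1) τ fun J u => sq1 (del i mg J u) ^ 6) ≤
            128 * (1 + |C6|) * q ^ 4 :=
          (mul_le_mul_of_nonneg_left (add_le_add le_rfl s6) (by norm_num)).trans
            (le_mul_of_one_le_right (by positivity) (one_le_pow₀ hq1))
        simp only [F]; linarith
      · set x := sq1 (del i mg J u) with hx
        have hp := mul_le_mul_of_nonneg_left (hpt J u hJ) (sq_nonneg x)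
        rw [← hx] at hp
        nlinarith [mul_nonneg (sq_nonneg (x ^ 2 - 1)) (add_nonneg (sq_nonneg x) zero_le_one)]
    have hX2 : (q:ℝ) ^ 8 ≤ q ^ 11 := pow_le_pow_right₀ hq1 (by norm_num)
    have hX4 : (q:ℝ) ^ 4 ≤ q ^ 11 := pow_le_pow_right₀ hq1 (by norm_num)
    have hbar := barV_four i sX (sV.trans (mul_le_mul_of_nonneg_left hX2 (abs_nonneg _)))
      (sE.trans (mul_le_mul_of_nonneg_left hX4 (by positivity)))
      (sC.trans (mul_le_mul_of_nonneg_left hX4 (by positivity)))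
    have htot := hca n m (τ + v) (by positivity) hn (by omega)
    have sD : pEv b n (m + 1) τ (fun J u => del i (fun J u => sq1 (mg J u) / 2) J u ^ 4) ≤
        S4 * q ^ 3 := by
      refine (delS_four hτ hn (by omega) i htot hbar).trans ?_
      simp only [S4, mul_assoc (16:ℝ)]
      refine mul_le_mul_of_nonneg_left ?_ (by norm_num)
      rw [add_mul (400 * (b ^ 2) ^ 2 * D) W]
      have hW : W ≤ W * q ^ 3 := le_mul_of_one_le_right (by positivity) (one_le_pow₀ hq1)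
      refine add_le_add (le_of_eq ?_) hW
      simp only [D]
      rw [← hq4]
      field_simp
    have b1 := ((bd_delS i).pow 4).const_mul 8
    have b2 := ((Bd.const 1).add ((bd_d i).pow 4)).const_mul 64
    have e2 := pEv_mono (b := b) (n := n) (τ := τ) ((bd_brkI i).pow 4) (b1.add b2) hpt
    rw [pEv_add b1 b2, pEv_const_mul, pEv_const_mul, pEv_add (Bd.const 1) ((bd_d i).pow 4),
      pEv_const] at e2
    refine e2.trans ?_
    have : 64 * (1 + pEv b n (m + 1) τ fun J u => sq1 (del i mg J u) ^ 4) ≤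
        64 * (1 + |C4|) * q ^ 3 :=
      (mul_le_mul_of_nonneg_left (add_le_add le_rfl s4) (by norm_num)).trans
        (le_mul_of_one_le_right (by positivity) (one_le_pow₀ hq1))
    linarith [mul_le_mul_of_nonneg_left sD (show (0:ℝ) ≤ 8 by norm_num)]
  calc pEv b n (m + 1) τ (fun J u => ∑ i, brk J u i ^ 4)
      = ∑ i, pEv b n (m + 1) τ (fun J u => brkI i J u ^ 4) := by
        rw [← pEv_sum fun i => (bd_brkI (m := m) i).pow 4]
        exact pEv_congr fun J u hJ => sum_congr rfl fun i _ => by rw [brk_eq hJ]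
    _ ≤ ∑ _i : Fin (m + 1), (8 * S4 + 64 * (1 + |C4|)) * q ^ 3 := sum_le_sum fun i _ => hone i
    _ = ((m + 1 : ℕ) : ℝ) * ((8 * S4 + 64 * (1 + |C4|)) * q ^ 3) := by
        rw [sum_const, card_univ, Fintype.card_fin, nsmul_eq_mul]
    _ ≤ (n:ℝ) * ((8 * S4 + 64 * (1 + |C4|)) * q ^ 3) :=
        mul_le_mul_of_nonneg_right (Nat.cast_le.2 hmn) (by positivity)
    _ = _ := by rw [← hq4]; ring

end Vale.Agent.P150.Weak.Rec
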