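import Vale.Agent.P150.Weak.Rec.OneSpin

/-!
Crude moments of the slices at one spin that enter the self-bounding recursions.
-/

open MeasureTheory ProbabilityTheory Finset Real

namespace Vale.Agent.P150.Weak.Rec

open Gap

variable {m : ℕ} {κ : Type*} [Fintype κ] {b : ℝ}

lemma sqrt_nat_le (n : ℕ) : √(n:ℝ) ≤ n := by
  rcases Nat.eq_zero_or_pos n with rfl | hn
  · simp
  · rw [sqrt_le_iff]
    exact ⟨Nat.cast_nonneg n, by nlinarith [(Nat.one_le_cast (α := ℝ)).2 hn]⟩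

lemma sq_add_le {h : ℝ} (hh : 0 < h) (x y : ℝ) :
    (x + y) ^ 2 ≤ (1 + h) * x ^ 2 + (1 + h⁻¹) * y ^ 2 := by
  have e : (1 + h) * x ^ 2 + (1 + h⁻¹) * y ^ 2 - (x + y) ^ 2 = (h * x - y) ^ 2 / h := by
    field_simp; ring
  linarith [div_nonneg (sq_nonneg (h * x - y)) hh.le]

/-- The constant of `del_pow_scaled`. -/
noncomputable def scaleC (b : ℝ) (p : ℕ) (C1 C2 : ℝ) : ℝ :=
  4 ^ p * ((10 * (p:ℝ)) ^ p * (b ^ 2) ^ p * (exp (2 * b ^ 2) * √|C1|) +
    (b ^ 2) ^ (2 * p) * (exp (2 * b ^ 2) * √|C2|))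

/-- `E(Σ del²)^p` from the crude moments of the derivatives and of their contraction with `1`. -/
lemma del_pow_scaled {n : ℕ} {τ : ℝ} (hτ : 0 ≤ τ) (hn : 0 < n) (hmn : m ≤ n) (i : Fin (m + 1))
    {φ : κ → Mat m → Vec m → ℝ} {D : κ → Fin m → Mat m → Vec m → ℝ} (hφ : ∀ a, Bd (φ a))
    (hD : ∀ a k, Bd (D a k)) (hd : LineDer φ D) {p : ℕ} (hp : 1 ≤ p) {C1 C2 X1 X2 Y : ℝ}
    (hX1 : 0 ≤ X1) (hX2 : 0 ≤ X2)
    (h1 : pEv b n m (τ + b ^ 2 / n) (fun J u => (∑ a, ∑ k, D a k J u ^ 2) ^ (2 * p)) ≤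
      C1 * X1 ^ (2 * p))
    (h2 : pEv b n m (τ + b ^ 2 / n) (fun J u => tot D J u ^ (2 * p)) ≤ C2 * X2 ^ (2 * p))
    (hY1 : X1 / n ≤ Y) (hY2 : X2 / (n:ℝ) ^ 2 ≤ Y) :
    pEv b n (m + 1) τ (fun J u => (∑ a, del i (φ a) J u ^ 2) ^ p) ≤
      scaleC b p C1 C2 * Y ^ p := by
  unfold scaleC
  have hn' : (0:ℝ) < n := Nat.cast_pos.2 hn
  have hh1 := sqrt_bound (X := X1 ^ p) (h1.trans_eq (by rw [mul_comm 2 p, pow_mul])) (by positivity)
  have hh2 := sqrt_bound (X := X2 ^ p) (h2.trans_eq (by rw [mul_comm 2 p, pow_mul])) (by positivity)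
  refine (del_pow_le hτ hmn i hφ hD hd hp).trans ?_
  rw [mul_assoc _ _ (Y ^ p)]
  refine mul_le_mul_of_nonneg_left ?_ (by positivity)
  rw [add_mul]
  refine add_le_add ?_ ?_
  · calc (10 * (p:ℝ)) ^ p * (b ^ 2 / n) ^ p * (exp (2 * b ^ 2) * √(pEv b n m (τ + b ^ 2 / n)
          fun J u => (∑ a, ∑ k, D a k J u ^ 2) ^ (2 * p)))
        ≤ (10 * (p:ℝ)) ^ p * (b ^ 2 / n) ^ p * (exp (2 * b ^ 2) * (√|C1| * X1 ^ p)) := by gcongr
      _ = (10 * (p:ℝ)) ^ p * (b ^ 2) ^ p * (exp (2 * b ^ 2) * √|C1|) * (X1 / n) ^ p := by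
          rw [div_pow, div_pow]; ring
      _ ≤ _ := by gcongr
  · calc (b ^ 2 / (n:ℝ)) ^ (2 * p) * (exp (2 * b ^ 2) * √(pEv b n m (τ + b ^ 2 / n)
          fun J u => tot D J u ^ (2 * p)))
        ≤ (b ^ 2 / (n:ℝ)) ^ (2 * p) * (exp (2 * b ^ 2) * (√|C2| * X2 ^ p)) := by gcongr
      _ = (b ^ 2) ^ (2 * p) * (exp (2 * b ^ 2) * √|C2|) * (X2 / (n:ℝ) ^ 2) ^ p := by
          rw [div_pow, div_pow, ← pow_mul]; ring
      _ ≤ _ := by gcongr

lemma cm4_swap12 (J : Mat m) (u : Vec m) (i j k l : Fin m) :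
    cm4 J u i j k l = cm4 J u j i k l := by
  simp only [cm4, mul_comm (csp J u i _) (csp J u j _), cm2_comm J u i j]
  ring

lemma cm4_swap23 (J : Mat m) (u : Vec m) (i j k l : Fin m) :
    cm4 J u i j k l = cm4 J u i k j l := by
  simp only [cm4, mul_right_comm (csp J u i _) (csp J u j _) (csp J u k _), cm2_comm J u k j]
  ring

lemma cm4_swap34 (J : Mat m) (u : Vec m) (i j k l : Fin m) :
    cm4 J u i j k l = cm4 J u i j l k := by
  simp only [cm4, mul_right_comm _ (csp J u k _) (csp J u l _), cm2_comm J u l k]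
  ring

lemma sum_delC_pow {n : ℕ} (i : Fin (m + 1)) :
    (fun (J : Mat (m + 1)) (u : Vec (m + 1)) => sq2 (del i cm2 J u) ^ n) =
      fun J u => (∑ ac : Fin m × Fin m, del i (fun J u => cm2 J u ac.1 ac.2) J u ^ 2) ^ n := by
  funext J u
  simp [sq2, del, Fintype.sum_prod_type]

/-- The half difference of the covariance. -/
theorem delC_pow (hG : GrowSpec b) (hC : CrudeSpec b) {p : ℕ} (hp : 1 ≤ p) :
    ∃ C : ℝ, ∀ n m : ℕ, ∀ τ : ℝ, 0 ≤ τ → m + 1 ≤ n → ∀ i : Fin (m + 1),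
      pEv b n (m + 1) τ (fun J u => sq2 (del i cm2 J u) ^ p) ≤ C * √(n:ℝ) ^ p := by
  obtain ⟨Cg, hg⟩ := hG
  obtain ⟨Cc, hc⟩ := hC (2 * p)
  refine ⟨scaleC b p ((Cg * (2 * p * √(2 * p))) ^ (2 * p)) Cc,
    fun n m τ hτ hmn i => ?_⟩
  have hn : 0 < n := by omega
  have hn' : (0:ℝ) < n := Nat.cast_pos.2 hn
  obtain ⟨-, g2, -⟩ := hg n m (2 * p) (τ + b ^ 2 / n) (by positivity) (by omega) hn (by omega)
  obtain ⟨-, -, c3, -⟩ := hc n m (τ + b ^ 2 / n) (by positivity) hn (by omega)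
  rw [sum_delC_pow]
  refine del_pow_scaled (X1 := (n:ℝ) * √n) (X2 := (n:ℝ) ^ 2) (Y := √(n:ℝ))
    (C1 := (Cg * (2 * p * √(2 * p))) ^ (2 * p)) (C2 := Cc)
    (φ := fun (ac : Fin m × Fin m) J u => cm2 J u ac.1 ac.2) hτ hn (by omega) i
    (D := fun ac k J u => cm3 J u ac.1 ac.2 k) (fun ac => bd_cm2 _ _) (fun ac k => bd_cm3 _ _ _)
    (fun ac G u c t => hasDerivAt_cm2_line G u c _ _ t) hp (by positivity) (by positivity) ?_ ?_
    (le_of_eq (by field_simp)) ?_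
  · refine le_of_eq_of_le ?_ (g2.trans_eq ?_)
    · congr 1; funext J u; simp [sq3, sq2, Fintype.sum_prod_type]
    · rw [← mul_pow]; push_cast
      rw [sqrt_mul (by positivity)]; ring
  · refine le_of_eq_of_le ?_ c3
    congr 1; funext J u
    simp only [tot, sq2, app, Fintype.sum_prod_type, one_mul]
    congr 1
    refine sum_congr rfl fun a _ => sum_congr rfl fun c _ => ?_
    congr 1
    exact sum_congr rfl fun k _ => by rw [cm3_swap23, cm3_swap12]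
  · rw [div_self (by positivity)]
    rw [one_le_sqrt]; exact Nat.one_le_cast.2 hn

lemma sum_delT_pow {n : ℕ} (i : Fin (m + 1)) :
    (fun (J : Mat (m + 1)) (u : Vec (m + 1)) => sq3 (del i cm3 J u) ^ n) =
      fun J u => (∑ q : Fin m × Fin m × Fin m,
        del i (fun J u => cm3 J u q.1 q.2.1 q.2.2) J u ^ 2) ^ n := by
  funext J u
  simp [sq3, sq2, del, Fintype.sum_prod_type]

/-- The half difference of the third cumulant. -/
theorem delT_pow (hC : CrudeSpec b) {p : ℕ} (hp : 1 ≤ p) :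
    ∃ C : ℝ, ∀ n m : ℕ, ∀ τ : ℝ, 0 ≤ τ → m + 1 ≤ n → ∀ i : Fin (m + 1),
      pEv b n (m + 1) τ (fun J u => sq3 (del i cm3 J u) ^ p) ≤ C * (n:ℝ) ^ p := by
  obtain ⟨Cc, hc⟩ := hC (2 * p)
  refine ⟨scaleC b p Cc Cc,
    fun n m τ hτ hmn i => ?_⟩
  have hn : 0 < n := by omega
  have hn' : (0:ℝ) < n := Nat.cast_pos.2 hn
  obtain ⟨c1, -, -, -, -, -, c7, -⟩ := hc n m (τ + b ^ 2 / n) (by positivity) hn (by omega)
  rw [sum_delT_pow]
  refine del_pow_scaled (X1 := (n:ℝ) ^ 2) (X2 := (n:ℝ) ^ 2 * √n) (Y := (n:ℝ)) (C1 := Cc)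
    (C2 := Cc) (φ := fun (q : Fin m × Fin m × Fin m) J u => cm3 J u q.1 q.2.1 q.2.2)
    hτ hn (by omega) i (D := fun q l J u => cm4 J u q.1 q.2.1 q.2.2 l)
    (fun q => bd_cm3 _ _ _) (fun q l => bd_cm4 _ _ _ _)
    (fun q G u c t => hasDerivAt_cm3_line G u c _ _ _ t) hp (by positivity) (by positivity) ?_ ?_
    (le_of_eq (by field_simp)) ?_
  · refine le_of_eq_of_le ?_ c1
    congr 1; funext J u; simp [sq4, sq2, Fintype.sum_prod_type]
  · refine le_of_eq_of_le ?_ c7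
    congr 1; funext J u
    simp only [tot, sq3, sq2, Fintype.sum_prod_type]
    congr 1
    refine sum_congr rfl fun a _ => sum_congr rfl fun c _ => sum_congr rfl fun e _ => ?_
    congr 1
    exact sum_congr rfl fun l _ => by rw [cm4_swap34, cm4_swap23, cm4_swap12]
  · rw [mul_div_cancel_left₀ _ (by positivity)]
    exact sqrt_nat_le n

lemma sq2_gradV_le (J : Mat m) (u : Vec m) :
    sq2 (gradV J u) ≤ 2 * sq2 (app (cm3 J u) (mg J u)) + 2 * sq2 (cm2 J u) ^ 2 := by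
  have h : ∑ i, ∑ j, (∑ k, cm2 J u i k * cm2 J u k j) ^ 2 ≤ sq2 (cm2 J u) ^ 2 := by
    rw [sq (sq2 _), sq2, sum_mul]
    refine sum_le_sum fun i _ => ?_
    rw [sum_comm (f := fun k j => cm2 J u k j ^ 2), mul_sum]
    exact sum_le_sum fun j _ => sum_mul_sq_le_sq_mul_sq _ _ _
  refine le_trans ?_ (add_le_add le_rfl (mul_le_mul_of_nonneg_left h two_pos.le))
  simp only [sq2, gradV, mul_sum, ← sum_add_distrib]
  exact sum_le_sum fun i _ => sum_le_sum fun j _ => by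
    nlinarith [sq_nonneg (app (cm3 J u) (mg J u) i j - ∑ k, cm2 J u i k * cm2 J u k j)]

/-- Crude moments of the field derivative of `v`. -/
theorem gradV_crude (hG : GrowSpec b) (hC : CrudeSpec b) {p : ℕ} (hp : 1 ≤ p) :
    ∃ C : ℝ, ∀ n m : ℕ, ∀ τ : ℝ, 0 ≤ τ → 0 < n → m ≤ n →
      pEv b n m τ (fun J u => sq2 (gradV J u) ^ p) ≤ C * ((n:ℝ) ^ 2) ^ p := by
  obtain ⟨Cg, hg⟩ := hG
  obtain ⟨Cc, hc⟩ := hC p
  refine ⟨4 ^ p * (Cc + (Cg * (2 * p)) ^ (2 * p)), fun n m τ hτ hn hmn => ?_⟩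
  obtain ⟨g1, -⟩ := hg n m (2 * p) τ hτ (by omega) hn hmn
  obtain ⟨-, -, -, c4, -⟩ := hc n m τ hτ hn hmn
  have b0 : Bd fun J u => sq2 (gradV J u) ^ p :=
    (Bd.sum fun i => Bd.sum fun j => (bd_gradV (m := m) i j).pow 2).pow p
  have b1 : Bd fun J u => sq2 (app (cm3 J u) (mg J u)) ^ p :=
    (Bd.sum fun i => Bd.sum fun j =>
      (Bd.sum fun k => (bd_mg (m := m) k).mul (bd_cm3 k i j)).pow 2).pow p
  have b2 : Bd fun J u => sq2 (cm2 J u) ^ (2 * p) :=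
    (Bd.sum fun i => Bd.sum fun j => (bd_cm2 (m := m) i j).pow 2).pow (2 * p)
  refine (pEv_mono b0 ((b1.add b2).const_mul (4 ^ p)) fun J u _ => ?_).trans ?_
  · have h0 : 0 ≤ sq2 (app (cm3 J u) (mg J u)) :=
      sum_nonneg fun i _ => sum_nonneg fun j _ => sq_nonneg _
    refine (pow_le_pow_left₀ (sum_nonneg fun i _ => sum_nonneg fun j _ => sq_nonneg _)
      (sq2_gradV_le J u) p).trans ((add_pow_two_le (by positivity) (by positivity) p).trans_eq ?_)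
    rw [mul_pow, mul_pow, ← mul_add, ← mul_assoc, ← mul_pow, ← pow_mul]
    norm_num
  rw [pEv_const_mul, pEv_add b1 b2, mul_assoc, add_mul]
  refine mul_le_mul_of_nonneg_left (add_le_add c4 (g1.trans_eq ?_)) (by positivity)
  rw [← pow_mul, ← mul_pow]; push_cast; ring_nf

lemma sum_delV_pow {n : ℕ} (i : Fin (m + 1)) :
    (fun (J : Mat (m + 1)) (u : Vec (m + 1)) => sq1 (del i vv J u) ^ n) =
      fun J u => (∑ a, del i (fun J u => vv J u a) J u ^ 2) ^ n := by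
  funext J u; simp [sq1, del]

/-- The half difference of `v`. -/
theorem delV_pow (hG : GrowSpec b) (hC : CrudeSpec b) {p : ℕ} (hp : 1 ≤ p) :
    ∃ C : ℝ, ∀ n m : ℕ, ∀ τ : ℝ, 0 ≤ τ → m + 1 ≤ n → ∀ i : Fin (m + 1),
      pEv b n (m + 1) τ (fun J u => sq1 (del i vv J u) ^ p) ≤ C * (n:ℝ) ^ p := by
  obtain ⟨Cv, hv⟩ := gradV_crude hG hC (show 1 ≤ 2 * p by omega)
  refine ⟨scaleC b p Cv Cv,
    fun n m τ hτ hmn i => ?_⟩
  have hn : 0 < n := by omega
  have hn' : (0:ℝ) < n := Nat.cast_pos.2 hn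
  have h1 := hv n m (τ + b ^ 2 / n) (by positivity) hn (by omega)
  rw [sum_delV_pow]
  refine del_pow_scaled (X1 := (n:ℝ) ^ 2) (X2 := (n:ℝ) ^ 3) (Y := (n:ℝ)) (C1 := Cv) (C2 := Cv)
    (φ := fun (a : Fin m) J u => vv J u a)
    hτ hn (by omega) i (D := fun a k J u => gradV J u a k) (fun a => bd_vv a)
    (fun a k => bd_gradV a k) (fun a G u c t => hasDerivAt_vv_line G u c a t) hp (by positivity)
    (by positivity) h1 ?_ (le_of_eq (by field_simp)) (le_of_eq (by field_simp))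
  refine (pEv_mono ((bd_tot fun a k => bd_gradV a k).pow _)
    (((Bd.sum (s := univ) fun a => Bd.sum (s := univ) fun k =>
      (bd_gradV (m := m) a k).pow 2).pow (2 * p)).const_mul
      ((n:ℝ) ^ (2 * p))) fun J u _ => ?_).trans ?_
  · rw [← mul_pow]
    refine pow_le_pow_left₀ (sum_nonneg fun a _ => sq_nonneg _) ?_ _
    rw [mul_sum]
    refine sum_le_sum fun a _ => (sq_sum_le_card_mul_sum_sq.trans ?_)
    rw [card_univ, Fintype.card_fin]
    exact mul_le_mul_of_nonneg_right (Nat.cast_le.2 (by omega))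
      (sum_nonneg fun k _ => sq_nonneg _)
  · rw [pEv_const_mul]
    refine (mul_le_mul_of_nonneg_left h1 (by positivity)).trans_eq ?_
    rw [← pow_mul, ← pow_mul]; ring

lemma ev_pow_le (J : Mat m) (u : Vec m) {f : Conf m → ℝ} (h0 : ∀ x, 0 ≤ f x) (k : ℕ) :
    ev J u f ^ k ≤ ev J u fun x => f x ^ k :=
  pow_arith_mean_le_arith_mean_pow univ (mu J u) f (fun x _ => (mu_pos J u x).le) (sum_mu J u)
    (fun x _ => h0 x) k

lemma bd_ev (f : Conf m → ℝ) : Bd fun J u => ev J u f :=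
  Bd.of_le (continuous_ev f) fun J u => abs_ev_le fun x =>
    single_le_sum (f := fun y => |f y|) (fun y _ => abs_nonneg _) (mem_univ x)

lemma quad_eq (J : Mat m) (u : Vec m) :
    ∑ i, mg J u i * vv J u i = ev J u fun x => (∑ i, mg J u i * csp J u i x) ^ 2 := by
  rw [← cm2_quad]
  simp only [vv, mul_sum]
  exact sum_congr rfl fun i _ => sum_congr rfl fun j _ => by ring

lemma sum_vv_sq_le (J : Mat m) (u : Vec m) :
    (∑ k, vv J u k) ^ 2 ≤
      (∑ k, ∑ j, cm2 J u k j) * ∑ i, mg J u i * vv J u i := by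
  have e : ∑ k, vv J u k =
      ev J u fun x => (∑ i, csp J u i x) * ∑ i, mg J u i * csp J u i x := by
    simp only [sum_mul_sum, ev_sum, vv]
    refine sum_congr rfl fun i _ => sum_congr rfl fun j _ => ?_
    rw [cm2, ← ev_mul_const]
    exact congrArg _ (funext fun x => by ring)
  have e2 : ∑ k, ∑ j, cm2 J u k j = ev J u fun x => (∑ i, csp J u i x) ^ 2 := by
    simpa using cm2_quad J u fun _ => 1
  rw [e, e2, quad_eq]
  simp only [ev]
  refine sum_sq_le_sum_mul_sum_of_sq_le_mul univ (fun x _ => mul_nonneg (mu_pos J u x).le (sq_nonneg _))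
    (fun x _ => mul_nonneg (mu_pos J u x).le (sq_nonneg _)) fun x _ => le_of_eq (by ring)

lemma bd_ev_fun {m : ℕ} (q : ℕ) : Bd fun (J : Mat m) (u : Vec m) =>
    ev J u fun x => |∑ i, csp J u i x| ^ q := by
  refine Bd.of_le (B := (2 * (m:ℝ)) ^ q) ?_ fun J u => abs_ev_le fun x => ?_
  · simp only [ev]
    refine continuous_finsetSum _ fun x _ => ?_
    have hmu : Continuous fun z : Mat m × Vec m => mu z.1 z.2 x := by
      simp only [mu, wt, expo]
      exact Continuous.div₀ (by fun_prop) (by fun_prop) fun z =>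
        (sum_pos (fun y _ => exp_pos _) univ_nonempty).ne'
    refine hmu.mul ((continuous_finsetSum _ fun i _ => ?_).abs.pow q)
    exact continuous_const.sub (continuous_mg i)
  · rw [abs_pow, abs_abs]
    refine pow_le_pow_left₀ (abs_nonneg _) ((abs_sum_le_sum_abs _ _).trans
      ((sum_le_sum fun i _ => abs_csp_le J u i x).trans_eq ?_)) q
    simp [mul_comm]

/-- Crude moments of `(Σ v)²`. -/
theorem totV_crude (hC : CrudeSpec b) (hO : CenterSpec b) {p : ℕ} (hp : 1 ≤ p) :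
    ∃ C : ℝ, ∀ n m : ℕ, ∀ τ : ℝ, 0 ≤ τ → 0 < n → m ≤ n →
      pEv b n m τ (fun J u => tot (fun (_ : Unit) k J u => vv J u k) J u ^ (2 * p)) ≤
        C * ((n:ℝ) ^ 2) ^ (2 * p) := by
  obtain ⟨Cc, hc⟩ := hC (4 * p)
  obtain ⟨Co, ho⟩ := hO
  refine ⟨√(Co ^ (8 * p) * √(8 * p) ^ (8 * p)) * √|Cc|, fun n m τ' hτ' hn hmn => ?_⟩
  have hn' : (0:ℝ) < n := Nat.cast_pos.2 hn
  obtain ⟨-, -, -, -, -, -, -, -, c9⟩ := hc n m τ' hτ' hn hmn
  obtain ⟨-, o2, -⟩ := ho n m (8 * p) τ' hτ' (by omega) hn hmn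
  set A := fun (J : Mat m) (u : Vec m) => ∑ k, ∑ j, cm2 J u k j
  set B := fun (J : Mat m) (u : Vec m) => ∑ i, mg J u i * vv J u i
  have bA : Bd A := Bd.sum fun k => Bd.sum fun j => bd_cm2 k j
  have bB : Bd B := Bd.sum fun i => (bd_mg i).mul (bd_vv i)
  refine (pEv_mono ((bd_tot fun (_ : Unit) k => bd_vv k).pow _)
    ((bA.pow (2 * p)).mul (bB.pow (2 * p))) fun J u _ => ?_).trans
    ((pEv_mul_le (bA.pow _) (bB.pow _)).trans ?_)
  · rw [← mul_pow]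
    refine pow_le_pow_left₀ (sum_nonneg fun _ _ => sq_nonneg _) ?_ _
    simpa [tot] using sum_vv_sq_le J u
  have hA2 : pEv b n m τ' (fun J u => (A J u ^ (2 * p)) ^ 2) ≤
      Co ^ (8 * p) * √(8 * p) ^ (8 * p) * ((n:ℝ) ^ (2 * p)) ^ 2 := by
    refine (pEv_mono ((bA.pow _).pow 2) ?_ fun J u _ => ?_).trans (o2.trans_eq ?_)
    · simp only [ovLin, one_mul]
      exact bd_ev_fun (8 * p)
    · rw [← pow_mul, show 2 * p * 2 = 4 * p by ring]
      have e2 : A J u = ev J u fun x => (∑ i, csp J u i x) ^ 2 := by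
        simpa [A] using cm2_quad J u fun _ => 1
      rw [e2]
      refine (ev_pow_le J u (fun x => sq_nonneg _) (4 * p)).trans_eq ?_
      simp only [ovLin, one_mul]
      congr 1; funext x
      rw [← sq_abs, ← pow_mul]; ring_nf
    · rw [mul_pow, Nat.cast_mul, sqrt_mul (by positivity), mul_pow, ← mul_assoc]
      congr 1
      rw [show 8 * p = 2 * (4 * p) by ring, pow_mul (√(n:ℝ)), sq_sqrt hn'.le, ← pow_mul]
      push_cast; ring_nf
  have hB2 : pEv b n m τ' (fun J u => (B J u ^ (2 * p)) ^ 2) ≤ Cc * ((n:ℝ) ^ (2 * p)) ^ 2 := by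
    refine le_of_eq_of_le ?_ (c9.trans_eq (by rw [← pow_mul]; ring_nf))
    congr 1; funext J u; rw [← pow_mul]; simp only [B]; ring_nf
  have hC0 : 0 ≤ Co ^ (8 * p) * √(8 * (p:ℝ)) ^ (8 * p) := by
    rw [show 8 * p = 2 * (4 * p) by ring, pow_mul Co]; positivity
  refine (mul_le_mul (sqrt_bound hA2 (by positivity)) (sqrt_bound hB2 (by positivity))
    (sqrt_nonneg _) (by positivity)).trans_eq ?_
  rw [abs_of_nonneg hC0, ← pow_mul]; ring

lemma lineDer_half : LineDer (fun (_ : Unit) (J : Mat m) (u : Vec m) => sq1 (mg J u) / 2)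
    (fun _ k J u => vv J u k) := by
  intro a G u c t
  refine ((HasDerivAt.fun_sum fun j _ => (hasDerivAt_mg_line G u c j t).pow 2).div_const 2
    ).congr_deriv ?_
  simp only [vv, mul_sum, sum_div]
  rw [sum_comm]
  refine sum_congr rfl fun k _ => sum_congr rfl fun j _ => ?_
  rw [cm2_comm G _ j k]
  push_cast
  ring

/-- The half difference of `|m|²/2`. -/
theorem delS_pow (hG : GrowSpec b) (hC : CrudeSpec b) (hO : CenterSpec b) {p : ℕ} (hp : 1 ≤ p) :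
    ∃ C : ℝ, ∀ n m : ℕ, ∀ τ : ℝ, 0 ≤ τ → m + 1 ≤ n → ∀ i : Fin (m + 1),
      pEv b n (m + 1) τ (fun J u => del i (fun J u => sq1 (mg J u) / 2) J u ^ (2 * p)) ≤
        C * √(n:ℝ) ^ p := by
  obtain ⟨Cg, hg⟩ := hG
  obtain ⟨Ct, htV⟩ := totV_crude hC hO hp
  refine ⟨scaleC b p ((Cg * (2 * p * √(2 * p))) ^ (2 * p)) Ct,
    fun n m τ hτ hmn i => ?_⟩
  have hn : 0 < n := by omega
  have hn' : (0:ℝ) < n := Nat.cast_pos.2 hn
  set τ' := τ + b ^ 2 / (n:ℝ)
  have hτ' : 0 ≤ τ' := by positivity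
  obtain ⟨-, -, g3⟩ := hg n m (2 * p) τ' hτ' (by omega) hn (by omega)
  have e : (fun (J : Mat (m + 1)) (u : Vec (m + 1)) =>
      del i (fun J u => sq1 (mg J u) / 2) J u ^ (2 * p)) =
      fun J u => (∑ _a : Unit, del i (fun J u => sq1 (mg J u) / 2) J u ^ 2) ^ p := by
    funext J u; simp [← pow_mul]
  rw [e]
  have hd := lineDer_half (m := m)
  refine del_pow_scaled (X1 := (n:ℝ) * √n) (X2 := (n:ℝ) ^ 2) (Y := √(n:ℝ))
    (C1 := (Cg * (2 * p * √(2 * p))) ^ (2 * p)) (C2 := Ct)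
    hτ hn (by omega) i (fun _ => (Bd.sum fun j => (bd_mg j).pow 2).const_mul (1 / 2) |> fun h => by
      simpa [sq1, div_eq_inv_mul] using h) (fun _ k => bd_vv k) hd hp (by positivity)
    (by positivity) ?_ ?_ (le_of_eq (by field_simp)) ?_
  · refine le_of_eq_of_le ?_ (g3.trans_eq ?_)
    · congr 1; funext J u; simp [sq1]
    · rw [← mul_pow]; push_cast
      rw [sqrt_mul (by positivity)]; ring
  · exact htV n m τ' hτ' hn (by omega)
  · rw [div_self (by positivity)]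
    rw [one_le_sqrt]; exact Nat.one_le_cast.2 hn

end Vale.Agent.P150.Weak.Rec
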