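import Vale.Agent.P150.Weak.Rec.Step

/-!
The self-bounding second moments of the third cumulant and of `v`.
-/

open MeasureTheory ProbabilityTheory Finset Real

namespace Vale.Agent.P150.Weak.Rec

open Gap

variable {m : ℕ} {b : ℝ} {n : ℕ} {τ : ℝ}

lemma pEv_congr {φ ψ : Mat m → Vec m → ℝ} (h : ∀ J u, IsCoupling J → φ J u = ψ J u) :
    pEv b n m τ φ = pEv b n m τ ψ :=
  integral_congr_ae (ae_of_all _ fun g => h _ _ (isCoupling_plJ _ g))

lemma pEv_mul_le_of {φ ψ : Mat m → Vec m → ℝ} (h : Bd φ) (h' : Bd ψ) {A B : ℝ}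
    (hA : pEv b n m τ (fun J u => φ J u ^ 2) ≤ A) (hB : pEv b n m τ (fun J u => ψ J u ^ 2) ≤ B) :
    pEv b n m τ (fun J u => φ J u * ψ J u) ≤ √A * √B :=
  (pEv_mul_le h h').trans
    (mul_le_mul (sqrt_le_sqrt hA) (sqrt_le_sqrt hB) (sqrt_nonneg _) (sqrt_nonneg _))

lemma bd_d (i : Fin (m + 1)) : Bd fun J u => sq1 (del i mg J u) :=
  Bd.sum fun a => ((bd_mg a).delI i).pow 2

lemma bd_delC (i : Fin (m + 1)) : Bd fun J u => sq2 (del i cm2 J u) :=
  Bd.sum fun a => Bd.sum fun c => ((bd_cm2 a c).delI i).pow 2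

lemma bd_delT (i : Fin (m + 1)) : Bd fun J u => sq3 (del i cm3 J u) :=
  Bd.sum fun a => Bd.sum fun c => Bd.sum fun e => ((bd_cm3 a c e).delI i).pow 2

lemma bd_delV (i : Fin (m + 1)) : Bd fun J u => sq1 (del i vv J u) :=
  Bd.sum fun a => ((bd_vv a).delI i).pow 2

lemma bd_sq3 : Bd fun (J : Mat m) u => sq3 (cm3 J u) :=
  Bd.sum fun a => Bd.sum fun c => Bd.sum fun e => (bd_cm3 a c e).pow 2

lemma bd_sqv : Bd fun (J : Mat m) u => sq1 (vv J u) := Bd.sum fun a => (bd_vv a).pow 2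

lemma bd_half : Bd fun (J : Mat m) u => sq1 (mg J u) / 2 := by
  simpa only [sq1, div_eq_inv_mul] using
    (Bd.sum (s := univ) fun j => (bd_mg (m := m) j).pow 2).const_mul 2⁻¹

lemma bd_delS (i : Fin (m + 1)) : Bd fun J u => del i (fun J u => sq1 (mg J u) / 2) J u :=
  bd_half.delI i

lemma bd_brkI (i : Fin (m + 1)) : Bd (brkI i) :=
  ((bd_mg i).mul ((Bd.const 1).add (bd_d i))).add (bd_delS i)

lemma pEv_sq2_cm3 :
    pEv b n m τ (fun J u => sq3 (cm3 J u)) = ∑ i, pEv b n m τ fun J u => sq2 (cm3 J u i) :=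
  pEv_sum fun i => Bd.sum fun c => Bd.sum fun e => (bd_cm3 i c e).pow 2

/-- The half difference of the covariance, in mean square. -/
lemma delC_step {A B : ℝ} (hτ : 0 ≤ τ) (hn : 0 < n) (hmn : m ≤ n) (i : Fin (m + 1))
    (hA : pEv b n m (τ + b ^ 2 / n) (fun J u => sq2 (app (cm3 J u) fun _ => 1) ^ 2) ≤
      A * ((n:ℝ) ^ 2) ^ 2)
    (hB : pEv b n (m + 1) τ (fun J u => ∑ q : Fin m × Fin m, ∑ k,
      bar i (fun J u => cm3 J u q.1 q.2 k) J u ^ 2) ≤ B) :
    pEv b n (m + 1) τ (fun J u => sq2 (del i cm2 J u)) ≤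
      (b ^ 2) ^ 2 * exp (2 * b ^ 2) * √|A| + b ^ 2 / n * B := by
  have hn0 : (0:ℝ) < n := Nat.cast_pos.2 hn
  have e1 : (fun (J : Mat (m + 1)) (u : Vec (m + 1)) => sq2 (del i cm2 J u)) = fun J u =>
      ∑ q : Fin m × Fin m, del i (fun J u => cm2 J u q.1 q.2) J u ^ 2 := by
    funext J u; simp [sq2, del, Fintype.sum_prod_type]
  rw [e1]
  refine (del_sq_le (b := b) (n := n) (τ := τ) hτ hmn i
    (φ := fun (q : Fin m × Fin m) J u => cm2 J u q.1 q.2)
    (D := fun q k J u => cm3 J u q.1 q.2 k) (fun q => bd_cm2 _ _) (fun q k => bd_cm3 _ _ _)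
    fun q G u c t => hasDerivAt_cm2_line G u c _ _ t).trans
    (add_le_add ?_ (mul_le_mul_of_nonneg_left hB (by positivity)))
  have hs : √(pEv b n m (τ + b ^ 2 / n) fun J u =>
      tot (fun (q : Fin m × Fin m) k J u => cm3 J u q.1 q.2 k) J u ^ 2) ≤
      √|A| * (n:ℝ) ^ 2 := by
    refine sqrt_bound (le_of_eq_of_le ?_ hA) (by positivity)
    congr 1; funext J u
    simp only [tot, sq2, app, Fintype.sum_prod_type, one_mul]
    congr 1
    refine sum_congr rfl fun a _ => sum_congr rfl fun c _ => ?_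
    congr 1
    exact sum_congr rfl fun k _ => by rw [cm3_swap23, cm3_swap12]
  refine (mul_le_mul_of_nonneg_left hs (by positivity)).trans_eq ?_
  field_simp

/-- The half sums of the third cumulant, in mean square. -/
lemma barT_step {h A B C : ℝ} (hh : 0 < h) (i : Fin (m + 1))
    (hA : pEv b n (m + 1) τ (fun J u => sq3 (del i cm3 J u)) ≤ A)
    (hB : pEv b n (m + 1) τ (fun J u => sq1 (del i mg J u) * sq2 (del i cm2 J u)) ≤ B)
    (hC : pEv b n (m + 1) τ (fun J u => sq1 (del i mg J u) ^ 3) ≤ C) :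
    pEv b n (m + 1) τ (fun J u => ∑ q : Fin m × Fin m, ∑ k,
        bar i (fun J u => cm3 J u q.1 q.2 k) J u ^ 2) ≤
      (1 + h) * pEv b n (m + 1) τ (fun J u => sq3 (cm3 J u)) +
        (1 + h⁻¹) * (27 * (A + B + C)) := by
  have bl : Bd fun J u => ∑ q : Fin m × Fin m, ∑ k,
      bar i (fun J u => cm3 J u q.1 q.2 k) J u ^ 2 :=
    Bd.sum fun q => Bd.sum fun k => ((bd_cm3 q.1 q.2 k).barI i).pow 2
  have b2 := (bd_delT i).add ((bd_d i).mul (bd_delC i))
  have b3 := ((b2.add ((bd_d i).pow 3)).const_mul 27).const_mul (1 + h⁻¹)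
  have b4 := bd_sq3 (m := m + 1) |>.const_mul (1 + h)
  have e := pEv_mono (b := b) (n := n) (τ := τ) bl (b4.add b3) fun J u hJ => bar_cm3_le hJ u i hh
  rw [pEv_add b4 b3, pEv_const_mul, pEv_const_mul, pEv_const_mul, pEv_add b2 ((bd_d i).pow 3),
    pEv_add (bd_delT i) ((bd_d i).mul (bd_delC i))] at e
  exact e.trans (add_le_add le_rfl (mul_le_mul_of_nonneg_left
    (mul_le_mul_of_nonneg_left (add_le_add (add_le_add hA hB) hC) (by norm_num)) (by positivity)))

/-- The slice `T_i`, in mean square. -/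
lemma sliceT_step {h A B : ℝ} (hh : 0 < h) (i : Fin (m + 1))
    (hA : pEv b n (m + 1) τ (fun J u => sq2 (del i cm2 J u)) ≤ A)
    (hB : pEv b n (m + 1) τ (fun J u => sq1 (del i mg J u) ^ 2) ≤ B) :
    pEv b n (m + 1) τ (fun J u => sq2 (cm3 J u i)) ≤
      (1 + h) * A + (12 + 4 * h⁻¹) * (1 + B) := by
  have bl : Bd fun J u => sq2 (cm3 J u i) := Bd.sum fun c => Bd.sum fun e => (bd_cm3 i c e).pow 2
  have b1 := (bd_delC i).const_mul (1 + h)
  have b2 := ((Bd.const 1).add ((bd_d i).pow 2)).const_mul (12 + 4 * h⁻¹)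
  have e := pEv_mono (b := b) (n := n) (τ := τ) bl (b1.add b2) fun J u hJ => sq2_cm3_le hJ u i hh
  rw [pEv_add b1 b2, pEv_const_mul, pEv_const_mul, pEv_add (Bd.const 1) ((bd_d i).pow 2),
    pEv_const] at e
  exact e.trans (add_le_add (mul_le_mul_of_nonneg_left hA (by linarith))
    (mul_le_mul_of_nonneg_left (add_le_add le_rfl hB) (by positivity)))

/-- **The second moment of the third cumulant.** -/
theorem recT (hb : 0 < b) (hb1 : b < 1) (hG : GrowSpec b) (hC : CrudeSpec b) (hS : SliceSpec b)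
    (Tm : ℝ) : ∃ C : ℝ, ∀ n m : ℕ, ∀ τ : ℝ, 0 ≤ τ → τ ≤ Tm → 0 < n → m ≤ n →
      pEv b n m τ (fun J u => sq3 (cm3 J u)) ≤ C * n := by
  obtain ⟨h, hh, hr⟩ := exists_margin hb hb1
  obtain ⟨C2, h2⟩ := hS 2 Tm
  obtain ⟨C3, h3⟩ := hS 3 Tm
  obtain ⟨Cd, hd⟩ := delC_pow hG hC (p := 2) one_le_two
  obtain ⟨Ct, ht⟩ := delT_pow hC (p := 1) le_rfl
  obtain ⟨Cc, hc⟩ := hC 2
  set K := 12 + 4 * h⁻¹
  set W := (b ^ 2) ^ 2 * exp (2 * b ^ 2) * √|Cc|
  set D := (1 + h⁻¹) * (27 * (|Ct| + √|C2| * √|Cd| + |C3|))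
  set c := (1 + h) * (W + b ^ 2 * D) + K * (1 + |C2|)
  set r := (1 + h) ^ 2 * b ^ 2
  have hr1 : r < 1 := lt_of_le_of_lt (mul_le_mul_of_nonneg_right
    (pow_le_pow_right₀ (by linarith) (by norm_num : 2 ≤ 3)) (sq_nonneg b)) hr
  have hK : 0 ≤ K := by positivity
  refine ⟨c / (1 - r), fun n m τ hτ hT hn hmn => ?_⟩
  have hc0 : 0 ≤ c := by positivity
  rcases Nat.eq_zero_or_pos m with rfl | hm
  · simp only [pEv, sq3, univ_eq_empty, sum_empty, integral_zero]
    have := div_nonneg hc0 (sub_nonneg.2 hr1.le)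
    positivity
  obtain ⟨m, rfl⟩ : ∃ k, m = k + 1 := ⟨m - 1, by omega⟩
  set X := pEv b n (m + 1) τ (fun J u => sq3 (cm3 J u)) with hX
  set v := b ^ 2 / (n:ℝ) with hv
  have hv0 : 0 ≤ v := by positivity
  have hn1 : (1:ℝ) ≤ n := Nat.one_le_cast.2 hn
  have hn0 : (0:ℝ) < n := by linarith
  have hX0 : 0 ≤ X := pEv_nonneg fun J u => sum_nonneg fun a _ => sum_nonneg fun c _ =>
    sum_nonneg fun e _ => sq_nonneg _
  have hone : ∀ i : Fin (m + 1), pEv b n (m + 1) τ (fun J u => sq2 (cm3 J u i)) ≤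
      (1 + h) ^ 2 * v * X + c := by
    intro i
    have s2 : pEv b n (m + 1) τ (fun J u => sq1 (del i mg J u) ^ 2) ≤ |C2| :=
      ((h2 n m τ hτ hT hmn i).1).trans (le_abs_self _)
    have s3 : pEv b n (m + 1) τ (fun J u => sq1 (del i mg J u) ^ 3) ≤ |C3| :=
      ((h3 n m τ hτ hT hmn i).1).trans (le_abs_self _)
    have sT : pEv b n (m + 1) τ (fun J u => sq3 (del i cm3 J u)) ≤ |Ct| * n := by
      refine le_of_eq_of_le (by simp) ((ht n m τ hτ hmn i).trans ?_)
      rw [pow_one]; exact mul_le_mul_of_nonneg_right (le_abs_self _) hn0.le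
    have sC : pEv b n (m + 1) τ (fun J u => sq1 (del i mg J u) * sq2 (del i cm2 J u)) ≤
        √|C2| * √|Cd| * n := by
      refine (pEv_mul_le_of (bd_d i) (bd_delC i) s2 (B := |Cd| * n) ((hd n m τ hτ hmn i).trans ?_)
        ).trans ?_
      · rw [sq_sqrt hn0.le]; exact mul_le_mul_of_nonneg_right (le_abs_self _) hn0.le
      · rw [sqrt_mul (abs_nonneg _), ← mul_assoc]
        exact mul_le_mul_of_nonneg_left (sqrt_nat_le n) (by positivity)
    obtain ⟨-, -, c3, -⟩ := hc n m (τ + v) (by positivity) hn (by omega)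
    have hbar := barT_step (b := b) (n := n) (τ := τ) hh i sT sC
      (s3.trans (le_mul_of_one_le_right (abs_nonneg _) hn1))
    refine (sliceT_step hh i (delC_step hτ hn (by omega) i c3 hbar) s2).trans_eq ?_
    simp only [c, D, W, hv, hX, K]
    field_simp
    ring
  rw [div_mul_eq_mul_div]
  refine self_bound hr1 ?_
  calc X = ∑ i, pEv b n (m + 1) τ (fun J u => sq2 (cm3 J u i)) := pEv_sq2_cm3
    _ ≤ ∑ _i : Fin (m + 1), ((1 + h) ^ 2 * v * X + c) := sum_le_sum fun i _ => hone i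
    _ = ((m + 1 : ℕ) : ℝ) * ((1 + h) ^ 2 * v * X + c) := by
        rw [sum_const, card_univ, Fintype.card_fin, nsmul_eq_mul]
    _ ≤ (n:ℝ) * ((1 + h) ^ 2 * v * X + c) :=
        mul_le_mul_of_nonneg_right (Nat.cast_le.2 hmn) (by positivity)
    _ = r * X + c * n := by simp only [r, hv]; field_simp

/-- Half sums of `v`. -/
lemma bar_vv_le {J : Mat (m + 1)} (hJ : IsCoupling J) (u : Vec (m + 1)) (i : Fin (m + 1)) {h : ℝ}
    (hh : 0 < h) :
    ∑ k, bar i (fun J u => vv J u k) J u ^ 2 ≤ (1 + h) * sq1 (vv J u) +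
      (1 + h⁻¹) * (3 * (sq1 (del i vv J u) + sq1 (del i mg J u) * brkI i J u ^ 2 +
        sq1 (del i mg J u) * sq2 (del i cm2 J u))) := by
  set d := del i mg J u with hd
  have hm : mg J u i ^ 2 ≤ 1 := (sq_le_one_iff_abs_le_one _).2 (abs_mg_le J u i)
  have hw : vw J u i ^ 2 ≤ 1 := pow_le_one₀ (vw_pos J u i).le (vw_le_one J u i)
  have hv : vv J u i ^ 2 ≤ brkI i J u ^ 2 := (vv_le_brk hJ u i).trans_eq (by rw [brk_eq hJ])
  have hp : ∀ a, bar i (fun J u => vv J u a) J u ^ 2 ≤ (1 + h) * vv J u (i.succAbove a) ^ 2 +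
      (1 + h⁻¹) * (3 * (del i vv J u a ^ 2 + d a ^ 2 * brkI i J u ^ 2 +
        (∑ c, del i cm2 J u a c * d c) ^ 2)) := fun a => by
    have e : bar i (fun J u => vv J u a) J u = vv J u (i.succAbove a) +
        (-(mg J u i * del i vv J u a) + (-(d a * vv J u i) +
          vw J u i * ∑ c, del i cm2 J u a c * d c)) := by
      rw [show bar i (fun J u => vv J u a) J u = bar i vv J u a by simp [bar], vv_rest hJ]
      ring
    rw [e]
    refine (sq_add_le hh _ _).trans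
      (add_le_add le_rfl (mul_le_mul_of_nonneg_left ?_ (by positivity)))
    have i4 : ∀ x y z : ℝ, (x + (y + z)) ^ 2 ≤ 3 * (x ^ 2 + y ^ 2 + z ^ 2) := fun x y z => by
      nlinarith [sq_nonneg (x - y), sq_nonneg (x - z), sq_nonneg (y - z)]
    refine (i4 _ _ _).trans ?_
    simp only [neg_sq, mul_pow]
    gcongr
    · exact mul_le_of_le_one_left (sq_nonneg _) hm
    · exact mul_le_of_le_one_left (sq_nonneg _) hw
  refine (sum_le_sum fun a _ => hp a).trans ?_
  simp only [sum_add_distrib, ← mul_sum, ← sum_mul]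
  refine add_le_add (mul_le_mul_of_nonneg_left (rest_le i fun x => sq_nonneg (vv J u x))
    (by linarith)) (mul_le_mul_of_nonneg_left (mul_le_mul_of_nonneg_left (add_le_add le_rfl ?_)
      (by norm_num)) (by positivity))
  rw [sq2, mul_comm (sq1 d), sum_mul]
  exact sum_le_sum fun a _ => sum_mul_sq_le_sq_mul_sq _ _ _

/-- `v_i / w_i` in mean square. -/
lemma brk_step {h A B : ℝ} (hh : 0 < h) (i : Fin (m + 1))
    (hA : pEv b n (m + 1) τ (fun J u => del i (fun J u => sq1 (mg J u) / 2) J u ^ 2) ≤ A)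
    (hB : pEv b n (m + 1) τ (fun J u => sq1 (del i mg J u) ^ 2) ≤ B) :
    pEv b n (m + 1) τ (fun J u => brkI i J u ^ 2) ≤
      (1 + h) * A + (1 + h⁻¹) * (2 * (1 + B)) := by
  have b1 := ((bd_delS i).pow 2).const_mul (1 + h)
  have b2 := (((Bd.const 1).add ((bd_d i).pow 2)).const_mul 2).const_mul (1 + h⁻¹)
  have e := pEv_mono (b := b) (n := n) (τ := τ) ((bd_brkI i).pow 2) (b1.add b2) fun J u hJ => by
    rw [← brk_eq hJ]; exact brk_sq_le hJ u i hh
  rw [pEv_add b1 b2, pEv_const_mul, pEv_const_mul, pEv_const_mul,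
    pEv_add (Bd.const 1) ((bd_d i).pow 2), pEv_const] at e
  exact e.trans (add_le_add (mul_le_mul_of_nonneg_left hA (by linarith))
    (mul_le_mul_of_nonneg_left (mul_le_mul_of_nonneg_left (add_le_add le_rfl hB) two_pos.le)
      (by positivity)))

/-- The half difference of `|m|²/2`, in mean square. -/
lemma delS_step {A B : ℝ} (hτ : 0 ≤ τ) (hn : 0 < n) (hmn : m ≤ n) (i : Fin (m + 1))
    (hA : pEv b n m (τ + b ^ 2 / n)
      (fun J u => tot (fun (_ : Unit) k J u => vv J u k) J u ^ 2) ≤ A * ((n:ℝ) ^ 2) ^ 2)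
    (hB : pEv b n (m + 1) τ (fun J u => ∑ k, bar i (fun J u => vv J u k) J u ^ 2) ≤ B) :
    pEv b n (m + 1) τ (fun J u => del i (fun J u => sq1 (mg J u) / 2) J u ^ 2) ≤
      (b ^ 2) ^ 2 * exp (2 * b ^ 2) * √|A| + b ^ 2 / n * B := by
  have hn0 : (0:ℝ) < n := Nat.cast_pos.2 hn
  have e := del_sq_le (b := b) (n := n) (τ := τ) hτ hmn i
    (φ := fun (_ : Unit) J u => sq1 (mg J u) / 2) (D := fun _ k J u => vv J u k)
    (fun _ => bd_half) (fun _ k => bd_vv k) lineDer_half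
  simp only [univ_unique, sum_singleton] at e
  refine e.trans (add_le_add ?_ (mul_le_mul_of_nonneg_left hB (by positivity)))
  refine (mul_le_mul_of_nonneg_left (sqrt_bound hA (by positivity)) (by positivity)).trans_eq ?_
  field_simp

/-- Half sums of `v`, in mean square. -/
lemma barV_step {h A B C : ℝ} (hh : 0 < h) (i : Fin (m + 1))
    (hA : pEv b n (m + 1) τ (fun J u => sq1 (del i vv J u)) ≤ A)
    (hB : pEv b n (m + 1) τ (fun J u => sq1 (del i mg J u) * brkI i J u ^ 2) ≤ B)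
    (hC : pEv b n (m + 1) τ (fun J u => sq1 (del i mg J u) * sq2 (del i cm2 J u)) ≤ C) :
    pEv b n (m + 1) τ (fun J u => ∑ k, bar i (fun J u => vv J u k) J u ^ 2) ≤
      (1 + h) * pEv b n (m + 1) τ (fun J u => sq1 (vv J u)) + (1 + h⁻¹) * (3 * (A + B + C)) := by
  have bl : Bd fun J u => ∑ k, bar i (fun J u => vv J u k) J u ^ 2 :=
    Bd.sum fun k => ((bd_vv k).barI i).pow 2
  have c1 := (bd_d i).mul ((bd_brkI i).pow 2)
  have c2 := (bd_d i).mul (bd_delC i)
  have b3 := ((((bd_delV i).add c1).add c2).const_mul 3).const_mul (1 + h⁻¹)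
  have b4 := bd_sqv (m := m + 1) |>.const_mul (1 + h)
  have e := pEv_mono (b := b) (n := n) (τ := τ) bl (b4.add b3) fun J u hJ => bar_vv_le hJ u i hh
  rw [pEv_add b4 b3, pEv_const_mul, pEv_const_mul, pEv_const_mul,
    pEv_add ((bd_delV i).add c1) c2, pEv_add (bd_delV i) c1] at e
  exact e.trans (add_le_add le_rfl (mul_le_mul_of_nonneg_left
    (mul_le_mul_of_nonneg_left (add_le_add (add_le_add hA hB) hC) (by norm_num)) (by positivity)))

/-- **The second moment of `v` and of `v / w`.** -/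
theorem recV (hb : 0 < b) (hb1 : b < 1) (hG : GrowSpec b) (hC : CrudeSpec b) (hO : CenterSpec b)
    (hS : SliceSpec b) (Tm : ℝ) :
    ∃ C : ℝ, ∀ n m : ℕ, ∀ τ : ℝ, 0 ≤ τ → τ ≤ Tm → 0 < n → m ≤ n →
      pEv b n m τ (fun J u => sq1 (vv J u)) ≤ C * n ∧
      pEv b n m τ (fun J u => sq1 (brk J u)) ≤ C * n := by
  obtain ⟨h, hh, hr⟩ := exists_margin hb hb1
  obtain ⟨C2, h2⟩ := hS 2 Tm
  obtain ⟨C3, h3⟩ := hS 3 Tm
  obtain ⟨Cd, hd⟩ := delC_pow hG hC (p := 2) one_le_two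
  obtain ⟨Cv, hdv⟩ := delV_pow hG hC (p := 1) le_rfl
  obtain ⟨Cs, hds⟩ := delS_pow hG hC hO (p := 2) one_le_two
  obtain ⟨Ca, hca⟩ := totV_crude hC hO (p := 1) le_rfl
  set W := (b ^ 2) ^ 2 * exp (2 * b ^ 2) * √|Ca|
  set E := 2 * (√|C2| * √|Cs|) + 8 * (1 + |C3|)
  set D := (1 + h⁻¹) * (3 * (|Cv| + E + √|C2| * √|Cd|))
  set c := (1 + h) * (W + b ^ 2 * D) + (1 + h⁻¹) * (2 * (1 + |C2|))
  set r := (1 + h) ^ 2 * b ^ 2
  have hr1 : r < 1 := lt_of_le_of_lt (mul_le_mul_of_nonneg_right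
    (pow_le_pow_right₀ (by linarith) (by norm_num : 2 ≤ 3)) (sq_nonneg b)) hr
  refine ⟨c / (1 - r), fun n m τ hτ hT hn hmn => ?_⟩
  have hc0 : 0 ≤ c := by positivity
  rcases Nat.eq_zero_or_pos m with rfl | hm
  · simp only [pEv, sq1, univ_eq_empty, sum_empty, integral_zero]
    have := div_nonneg hc0 (sub_nonneg.2 hr1.le)
    exact ⟨by positivity, by positivity⟩
  obtain ⟨m, rfl⟩ : ∃ k, m = k + 1 := ⟨m - 1, by omega⟩
  set X := pEv b n (m + 1) τ (fun J u => sq1 (vv J u)) with hX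
  set Z := ∑ i, pEv b n (m + 1) τ (fun J u => brkI i J u ^ 2) with hZ
  set v := b ^ 2 / (n:ℝ) with hv
  have hv0 : 0 ≤ v := by positivity
  have hn1 : (1:ℝ) ≤ n := Nat.one_le_cast.2 hn
  have hn0 : (0:ℝ) < n := by linarith
  have eZ : pEv b n (m + 1) τ (fun J u => sq1 (brk J u)) = Z := by
    rw [hZ, ← pEv_sum fun i => (bd_brkI (m := m) i).pow 2]
    exact pEv_congr fun J u hJ => sum_congr rfl fun i _ => by rw [brk_eq hJ]
  have hXZ : X ≤ Z := by
    rw [hZ, ← pEv_sum fun i => (bd_brkI (m := m) i).pow 2]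
    exact pEv_mono bd_sqv (Bd.sum fun i => (bd_brkI i).pow 2) fun J u hJ =>
      sum_le_sum fun i _ => (vv_le_brk hJ u i).trans_eq (by rw [brk_eq hJ])
  have hX0 : 0 ≤ X := pEv_nonneg fun J u => sum_nonneg fun a _ => sq_nonneg _
  have hone : ∀ i : Fin (m + 1),
      pEv b n (m + 1) τ (fun J u => brkI i J u ^ 2) ≤ (1 + h) ^ 2 * v * X + c := by
    intro i
    have s2 : pEv b n (m + 1) τ (fun J u => sq1 (del i mg J u) ^ 2) ≤ |C2| :=
      ((h2 n m τ hτ hT hmn i).1).trans (le_abs_self _)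
    have s3 : pEv b n (m + 1) τ (fun J u => sq1 (del i mg J u) ^ 3) ≤ |C3| :=
      ((h3 n m τ hτ hT hmn i).1).trans (le_abs_self _)
    have sV : pEv b n (m + 1) τ (fun J u => sq1 (del i vv J u)) ≤ |Cv| * n := by
      refine le_of_eq_of_le (by simp) ((hdv n m τ hτ hmn i).trans ?_)
      rw [pow_one]; exact mul_le_mul_of_nonneg_right (le_abs_self _) hn0.le
    have sC : pEv b n (m + 1) τ (fun J u => sq1 (del i mg J u) * sq2 (del i cm2 J u)) ≤
        √|C2| * √|Cd| * n := by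
      refine (pEv_mul_le_of (bd_d i) (bd_delC i) s2 (B := |Cd| * n) ((hd n m τ hτ hmn i).trans ?_)
        ).trans ?_
      · rw [sq_sqrt hn0.le]; exact mul_le_mul_of_nonneg_right (le_abs_self _) hn0.le
      · rw [sqrt_mul (abs_nonneg _), ← mul_assoc]
        exact mul_le_mul_of_nonneg_left (sqrt_nat_le n) (by positivity)
    have sS : pEv b n (m + 1) τ (fun J u => sq1 (del i mg J u) *
        del i (fun J u => sq1 (mg J u) / 2) J u ^ 2) ≤ √|C2| * √|Cs| * n := by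
      refine (pEv_mul_le_of (bd_d i) ((bd_delS i).pow 2) s2 (B := |Cs| * n) ?_).trans ?_
      · simp only [← pow_mul]
        refine (hds n m τ hτ hmn i).trans ?_
        rw [sq_sqrt hn0.le]; exact mul_le_mul_of_nonneg_right (le_abs_self _) hn0.le
      · rw [sqrt_mul (abs_nonneg _), ← mul_assoc]
        exact mul_le_mul_of_nonneg_left (sqrt_nat_le n) (by positivity)
    have sE : pEv b n (m + 1) τ (fun J u => sq1 (del i mg J u) * brkI i J u ^ 2) ≤ E * n := by
      have b1 := ((bd_d i).mul ((bd_delS i).pow 2)).const_mul 2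
      have b2 := ((Bd.const 1).add ((bd_d i).pow 3)).const_mul 8
      have e := pEv_mono (b := b) (n := n) (τ := τ) ((bd_d i).mul ((bd_brkI i).pow 2))
        (b1.add b2) fun J u hJ => ?_
      · rw [pEv_add b1 b2, pEv_const_mul, pEv_const_mul, pEv_add (Bd.const 1) ((bd_d i).pow 3),
          pEv_const] at e
        refine e.trans ?_
        have : 8 * (1 + pEv b n (m + 1) τ fun J u => sq1 (del i mg J u) ^ 3) ≤
            8 * (1 + |C3|) * n :=
          (mul_le_mul_of_nonneg_left (add_le_add le_rfl s3) (by norm_num)).trans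
            (le_mul_of_one_le_right (by positivity) hn1)
        simp only [E]; linarith
      · set x := sq1 (del i mg J u) with hx
        have hx0 : 0 ≤ x := sum_nonneg fun a _ => sq_nonneg _
        have := brk_sq_le hJ u i (h := 1) one_pos
        rw [brk_eq hJ, ← hx, inv_one] at this
        nlinarith [mul_le_mul_of_nonneg_left this hx0, mul_nonneg hx0 (sq_nonneg (x - 1)),
          mul_nonneg (add_nonneg hx0 zero_le_one) (sq_nonneg (x - 1))]
    have hbar := barV_step (b := b) (n := n) (τ := τ) hh i sV sE sC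
    have htot := hca n m (τ + v) (by positivity) hn (by omega)
    simp only [mul_one] at htot
    refine (brk_step hh i (delS_step hτ hn (by omega) i htot hbar) s2).trans_eq ?_
    simp only [c, D, W, hv, hX]
    field_simp
    ring
  have hsum : Z ≤ r * X + c * n :=
    calc Z ≤ ∑ _i : Fin (m + 1), ((1 + h) ^ 2 * v * X + c) := sum_le_sum fun i _ => hone i
      _ = ((m + 1 : ℕ) : ℝ) * ((1 + h) ^ 2 * v * X + c) := by
          rw [sum_const, card_univ, Fintype.card_fin, nsmul_eq_mul]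
      _ ≤ (n:ℝ) * ((1 + h) ^ 2 * v * X + c) :=
          mul_le_mul_of_nonneg_right (Nat.cast_le.2 hmn) (by positivity)
      _ = r * X + c * n := by simp only [r, hv]; field_simp
  have hZc : Z ≤ c / (1 - r) * n := by
    rw [div_mul_eq_mul_div]
    refine self_bound hr1 (hsum.trans (add_le_add ?_ le_rfl))
    exact mul_le_mul_of_nonneg_left hXZ (by positivity)
  rw [eZ]
  exact ⟨hXZ.trans hZc, hZc⟩

end Vale.Agent.P150.Weak.Rec
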