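import Vale.Agent.P150.Weak.Rec.Est

/-!
The pointwise inequalities of the self-bounding recursions at one spin.
-/

open MeasureTheory ProbabilityTheory Finset Real

namespace Vale.Agent.P150.Weak.Rec

open Gap

variable {m : ℕ} {b : ℝ} {n : ℕ} {τ : ℝ}

lemma rest_le {f : Fin (m + 1) → ℝ} (i : Fin (m + 1)) (h : ∀ x, 0 ≤ f x) :
    ∑ a, f (i.succAbove a) ≤ ∑ x, f x := by
  rw [Fin.sum_univ_succAbove _ i]
  exact le_add_of_nonneg_left (h i)

lemma self_bound {x r c : ℝ} (hr : r < 1) (h : x ≤ r * x + c) : x ≤ c / (1 - r) := by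
  rw [le_div_iff₀ (by linarith)]; linarith

lemma exists_margin (hb : 0 < b) (hb1 : b < 1) : ∃ h : ℝ, 0 < h ∧ (1 + h) ^ 3 * b ^ 2 < 1 := by
  have h1 : b ^ 2 < 1 := by nlinarith
  refine ⟨(1 - b ^ 2) / 8, by linarith, ?_⟩
  set h := (1 - b ^ 2) / 8 with hh
  have h0 : 0 < h := by positivity
  have h8 : h ≤ 1 / 8 := by nlinarith
  have e : (1 + h) ^ 3 ≤ 1 + (1 - b ^ 2) / 2 := by nlinarith [mul_pos h0 h0]
  calc (1 + h) ^ 3 * b ^ 2 ≤ (1 + (1 - b ^ 2) / 2) * b ^ 2 :=
        mul_le_mul_of_nonneg_right e (sq_nonneg b)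
    _ < 1 := by nlinarith [mul_pos (sub_pos.2 h1) (show (0:ℝ) < 2 - b ^ 2 by linarith)]

/-- The observable that equals `brk` at couplings. -/
noncomputable def brkI (i : Fin (m + 1)) (J : Mat (m + 1)) (u : Vec (m + 1)) : ℝ :=
  mg J u i * (1 + sq1 (del i mg J u)) + del i (fun J u => sq1 (mg J u) / 2) J u

section pointwise

variable {J : Mat (m + 1)} (hJ : IsCoupling J) (u : Vec (m + 1)) (i : Fin (m + 1))
include hJ

lemma brk_eq : brk J u i = brkI i J u := by
  rw [brk, vv_self hJ, mul_div_cancel_left₀ _ (vw_pos J u i).ne', brkI, del_half_sq]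

lemma vv_le_brk : vv J u i ^ 2 ≤ brk J u i ^ 2 := by
  have h := vw_pos J u i
  have e : vv J u i = vw J u i * brk J u i := by rw [brk]; field_simp
  rw [e, mul_pow]
  exact mul_le_of_le_one_left (sq_nonneg _) (pow_le_one₀ h.le (vw_le_one J u i))

/-- The slice `T_i`. -/
lemma sq2_cm3_le {h : ℝ} (hh : 0 < h) :
    sq2 (cm3 J u i) ≤ (1 + h) * sq2 (del i cm2 J u) +
      (12 + 4 * h⁻¹) * (1 + sq1 (del i mg J u) ^ 2) := by
  set d := del i mg J u with hd
  have hw : vw J u i ^ 2 ≤ 1 := pow_le_one₀ (vw_pos J u i).le (vw_le_one J u i)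
  have hm : mg J u i ^ 2 ≤ 1 := (sq_le_one_iff_abs_le_one _).2 (abs_mg_le J u i)
  have hmw : mg J u i ^ 2 * vw J u i ^ 2 ≤ 1 := mul_le_one₀ hm (sq_nonneg _) hw
  have e0 : cm3 J u i i i ^ 2 ≤ 4 := by rw [cm3_diag, cm2_diag]; nlinarith
  have e1 : ∀ a, cm3 J u i i (i.succAbove a) ^ 2 ≤ 4 * d a ^ 2 := fun a => by
    rw [cm3_self_self hJ]; nlinarith [mul_le_mul_of_nonneg_right hmw (sq_nonneg (d a))]
  have e2 : ∀ a c, cm3 J u i (i.succAbove a) (i.succAbove c) ^ 2 ≤
      (1 + h) * del i cm2 J u a c ^ 2 + (1 + h⁻¹) * (4 * (d a ^ 2 * d c ^ 2)) := fun a c => by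
    rw [cm3_self_rest hJ, mul_pow]
    refine (mul_le_of_le_one_left (sq_nonneg _) hw).trans ?_
    refine le_trans (by rw [sub_eq_add_neg]; exact sq_add_le hh _ _) (add_le_add le_rfl
      (mul_le_mul_of_nonneg_left ?_ (by positivity)))
    nlinarith [mul_le_mul_of_nonneg_right hm (mul_nonneg (sq_nonneg (d a)) (sq_nonneg (d c)))]
  have e : sq2 (cm3 J u i) = cm3 J u i i i ^ 2 + 2 * ∑ a, cm3 J u i i (i.succAbove a) ^ 2 +
      ∑ a, ∑ c, cm3 J u i (i.succAbove a) (i.succAbove c) ^ 2 := by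
    simp only [sq2, Fin.sum_univ_succAbove _ i, sum_add_distrib]
    simp only [cm3_swap23 J u i _ i]
    ring
  have hs : ∑ a, ∑ c, (1 + h⁻¹) * (4 * (d a ^ 2 * d c ^ 2)) = (4 + 4 * h⁻¹) * sq1 d ^ 2 := by
    rw [sq1, sq, sum_mul_sum]
    simp only [mul_sum]
    exact sum_congr rfl fun a _ => sum_congr rfl fun c _ => by ring
  have h1 : 2 * ∑ a, cm3 J u i i (i.succAbove a) ^ 2 ≤ 8 * sq1 d := by
    rw [sq1, mul_sum, mul_sum]
    exact sum_le_sum fun a _ => by linarith [e1 a]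
  have h2 : ∑ a, ∑ c, cm3 J u i (i.succAbove a) (i.succAbove c) ^ 2 ≤
      (1 + h) * sq2 (del i cm2 J u) + (4 + 4 * h⁻¹) * sq1 d ^ 2 := by
    rw [sq2, mul_sum, ← hs, ← sum_add_distrib]
    refine sum_le_sum fun a _ => ?_
    rw [mul_sum, ← sum_add_distrib]
    exact sum_le_sum fun c _ => e2 a c
  have h3 : 0 < h⁻¹ := inv_pos.2 hh
  nlinarith [sq_nonneg (sq1 d - 1), sq_nonneg (sq1 d)]

/-- Half sums of the third cumulant. -/
lemma bar_cm3_le {h : ℝ} (hh : 0 < h) :
    ∑ q : Fin m × Fin m, ∑ k, bar i (fun J u => cm3 J u q.1 q.2 k) J u ^ 2 ≤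
      (1 + h) * sq3 (cm3 J u) + (1 + h⁻¹) * (27 * (sq3 (del i cm3 J u) +
        sq1 (del i mg J u) * sq2 (del i cm2 J u) + sq1 (del i mg J u) ^ 3)) := by
  set d := del i mg J u with hd
  set D := del i cm2 J u with hD
  have hm : mg J u i ^ 2 ≤ 1 := (sq_le_one_iff_abs_le_one _).2 (abs_mg_le J u i)
  have hw : vw J u i ^ 2 ≤ 1 := pow_le_one₀ (vw_pos J u i).le (vw_le_one J u i)
  have hmw : mg J u i ^ 2 * vw J u i ^ 2 ≤ 1 := mul_le_one₀ hm (sq_nonneg _) hw
  have hp : ∀ a c k, bar i (fun J u => cm3 J u a c k) J u ^ 2 ≤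
      (1 + h) * cm3 J u (i.succAbove a) (i.succAbove c) (i.succAbove k) ^ 2 +
        (1 + h⁻¹) * (27 * del i cm3 J u a c k ^ 2 + (9 * (d a ^ 2 * D c k ^ 2) +
          9 * (d c ^ 2 * D a k ^ 2) + 9 * (d k ^ 2 * D a c ^ 2)) +
          27 * (d a ^ 2 * d c ^ 2 * d k ^ 2)) := fun a c k => by
    set s := d a * D c k + d c * D a k + d k * D a c with hs
    have e : bar i (fun J u => cm3 J u a c k) J u =
        cm3 J u (i.succAbove a) (i.succAbove c) (i.succAbove k) +
        (-(mg J u i * del i cm3 J u a c k) + (-(vw J u i * s) +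
          2 * mg J u i * vw J u i * (d a * d c * d k))) := by
      rw [show bar i (fun J u => cm3 J u a c k) J u = bar i cm3 J u a c k by simp [bar],
        cm3_rest hJ]
      ring
    rw [e]
    refine (sq_add_le hh _ _).trans
      (add_le_add le_rfl (mul_le_mul_of_nonneg_left ?_ (by positivity)))
    have hs2 : s ^ 2 ≤ 3 * (d a * D c k) ^ 2 + 3 * (d c * D a k) ^ 2 + 3 * (d k * D a c) ^ 2 := by
      nlinarith [sq_nonneg (d a * D c k - d c * D a k), sq_nonneg (d a * D c k - d k * D a c),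
        sq_nonneg (d c * D a k - d k * D a c)]
    have i1 := mul_le_of_le_one_left (sq_nonneg (del i cm3 J u a c k)) hm
    have i2 := mul_le_of_le_one_left (sq_nonneg s) hw
    have i3 := mul_le_of_le_one_left (sq_nonneg (d a * d c * d k)) hmw
    have i4 : ∀ x y z : ℝ, (x + (y + z)) ^ 2 ≤ 3 * x ^ 2 + 3 * y ^ 2 + 3 * z ^ 2 := fun x y z => by
      nlinarith [sq_nonneg (x - y), sq_nonneg (x - z), sq_nonneg (y - z)]
    refine (i4 _ _ _).trans ?_
    simp only [mul_pow, neg_sq]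
    simp only [mul_pow] at i1 i2 i3 hs2
    nlinarith [sq_nonneg (del i cm3 J u a c k), mul_nonneg (mul_nonneg (sq_nonneg (d a))
      (sq_nonneg (d c))) (sq_nonneg (d k))]
  rw [Fintype.sum_prod_type]
  refine (sum_le_sum fun a _ => sum_le_sum fun c _ => sum_le_sum fun k _ => hp a c k).trans ?_
  simp only [sum_add_distrib, ← mul_sum, ← sum_mul]
  refine add_le_add (mul_le_mul_of_nonneg_left ?_ (by linarith))
    (mul_le_mul_of_nonneg_left (le_of_eq ?_) (by positivity))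
  · simp only [sq3, sq2]
    refine le_trans (sum_le_sum fun a _ => (sum_le_sum fun c _ => rest_le i fun z => sq_nonneg
      (cm3 J u (i.succAbove a) (i.succAbove c) z)).trans (rest_le i fun y => sum_nonneg fun z _ =>
      sq_nonneg (cm3 J u (i.succAbove a) y z))) ?_
    exact rest_le i fun x => sum_nonneg fun y _ => sum_nonneg fun z _ => sq_nonneg (cm3 J u x y z)
  · simp only [sq3, sq2, sq1]
    ring

/-- The slice of `v`. -/
lemma brk_sq_le {h : ℝ} (hh : 0 < h) :
    brk J u i ^ 2 ≤ (1 + h) * del i (fun J u => sq1 (mg J u) / 2) J u ^ 2 +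
      (1 + h⁻¹) * (2 * (1 + sq1 (del i mg J u) ^ 2)) := by
  have hm : mg J u i ^ 2 ≤ 1 := (sq_le_one_iff_abs_le_one _).2 (abs_mg_le J u i)
  rw [brk_eq hJ, brkI, add_comm]
  refine (sq_add_le hh _ _).trans (add_le_add le_rfl (mul_le_mul_of_nonneg_left ?_ (by positivity)))
  rw [mul_pow]
  refine (mul_le_of_le_one_left (sq_nonneg _) hm).trans ?_
  nlinarith [sq_nonneg (sq1 (del i mg J u) - 1)]

/-- `v` of the rest block. -/
lemma vv_rest (a : Fin m) :
    vv J u (i.succAbove a) = bar i vv J u a + mg J u i * del i vv J u a +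
      del i mg J u a * vv J u i -
      vw J u i * ∑ c, del i cm2 J u a c * del i mg J u c := by
  have e1 : vv J u (i.succAbove a) = vw J u i * del i mg J u a * mg J u i +
      ∑ c, cm2 J u (i.succAbove a) (i.succAbove c) * mg J u (i.succAbove c) := by
    rw [vv, Fin.sum_univ_succAbove _ i, cm2_comm, cm2_self_rest hJ]
  have eb : bar i vv J u a =
      ∑ c, (bar i cm2 J u a c * bar i mg J u c + del i cm2 J u a c * del i mg J u c) := by
    simp only [bar, del, vv, Pi.smul_apply, Pi.add_apply, Pi.sub_apply, smul_eq_mul,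
      ← sum_add_distrib, mul_sum]
    exact sum_congr rfl fun c _ => by ring
  have ed : del i vv J u a =
      ∑ c, (del i cm2 J u a c * bar i mg J u c + bar i cm2 J u a c * del i mg J u c) := by
    simp only [bar, del, vv, Pi.smul_apply, Pi.add_apply, Pi.sub_apply, smul_eq_mul,
      ← sum_sub_distrib, mul_sum]
    exact sum_congr rfl fun c _ => by ring
  have e : ∑ c, cm2 J u (i.succAbove a) (i.succAbove c) * mg J u (i.succAbove c) =
      bar i vv J u a + mg J u i * del i vv J u a +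
        vw J u i * del i mg J u a * (mg J u i * sq1 (del i mg J u) +
          ∑ c, bar i mg J u c * del i mg J u c) -
        vw J u i * ∑ c, del i cm2 J u a c * del i mg J u c := by
    rw [eb, ed, sq1]
    simp only [mul_add, mul_sum, ← sum_add_distrib, ← sum_sub_distrib]
    refine sum_congr rfl fun c _ => ?_
    rw [cm2_rest hJ, mg_rest hJ, vw]
    ring
  rw [e1, e, vv_self hJ]
  ring

end pointwise

end Vale.Agent.P150.Weak.Rec
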